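import Vale.Agent.P036.Cascade.Defs

/-!
# P036 cascade construction: exact counts for the affine maps of determinant one mod `p`
-/

namespace Vale.P036.Cascade

open Finset

section Field

variable {F : Type*} [Field F] [DecidableEq F]

/-- A vector completing a nonzero vector to a basis of determinant one. -/
def compl1 (T : F × F) : F × F := if T.1 = 0 then (-1 / T.2, 0) else (0, 1 / T.1)

/-- The coordinate along `T` of a vector `R` with `det (T, R) = 1`, based at `compl1 T`. -/
def coord1 (T R : F × F) : F := if T.1 = 0 then R.2 / T.2 else R.1 / T.1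

lemma det_compl1 {T : F × F} (hT : T ≠ 0) (t : F) :
    T.1 * (compl1 T + t • T).2 - T.2 * (compl1 T + t • T).1 = 1 := by
  by_cases h : T.1 = 0
  · have h2 : T.2 ≠ 0 := fun h2 => hT (Prod.ext h h2)
    simp [compl1, h]
    field_simp
  · simp [compl1, h]
    field_simp
    ring

lemma coord1_compl1 {T : F × F} (hT : T ≠ 0) (t : F) :
    coord1 T (compl1 T + t • T) = t := by
  by_cases h : T.1 = 0
  · have h2 : T.2 ≠ 0 := fun h2 => hT (Prod.ext h h2)
    simp [compl1, coord1, h]
    field_simp
  · simp [compl1, coord1, h]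

lemma compl1_coord1 {T R : F × F} (hTR : T.1 * R.2 - T.2 * R.1 = 1) :
    compl1 T + coord1 T R • T = R := by
  by_cases h : T.1 = 0
  · have h2 : T.2 ≠ 0 := by
      intro h2; rw [h, h2] at hTR; simp at hTR
    rw [h] at hTR
    refine Prod.ext ?_ ?_
    · simp [compl1, coord1, h]
      field_simp
      linear_combination hTR
    · simp [compl1, coord1, h]
      field_simp
  · refine Prod.ext ?_ ?_
    · simp [compl1, coord1, h]
    · simp [compl1, coord1, h]
      field_simp
      linear_combination -hTR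

end Field

section Count

variable {p : ℕ} [Fact p.Prime]

/-- Pairs of vectors of determinant one. -/
noncomputable def sl2 (p : ℕ) [Fact p.Prime] : Finset (Pt (ZMod p) × Pt (ZMod p)) :=
  Finset.univ.filter fun w => w.1.1 * w.2.2 - w.1.2 * w.2.1 = 1

lemma mem_sl2 {w : Pt (ZMod p) × Pt (ZMod p)} :
    w ∈ sl2 p ↔ w.1.1 * w.2.2 - w.1.2 * w.2.1 = 1 := by simp [sl2]

lemma mem_affMaps {w : Pt (ZMod p) × (Pt (ZMod p) × Pt (ZMod p))} :
    w ∈ affMaps p ↔ w.2.1.1 * w.2.2.2 - w.2.1.2 * w.2.2.1 = 1 := by simp [affMaps]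

lemma affMaps_eq : affMaps p = (Finset.univ : Finset (Pt (ZMod p))) ×ˢ sl2 p := by
  ext w; simp [mem_affMaps, mem_sl2]

lemma sl2_fst_ne_zero {w : Pt (ZMod p) × Pt (ZMod p)} (hw : w ∈ sl2 p) : w.1 ≠ 0 := by
  intro h
  rw [mem_sl2, h] at hw
  simp at hw

lemma card_sl2 : (sl2 p).card = (p ^ 2 - 1) * p := by
  classical
  have h : (sl2 p).card =
      (((Finset.univ : Finset (Pt (ZMod p))).erase 0) ×ˢ (Finset.univ : Finset (ZMod p))).card := by
    refine Finset.card_nbij' (fun w => (w.1, coord1 w.1 w.2))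
      (fun q => (q.1, compl1 q.1 + q.2 • q.1)) ?_ ?_ ?_ ?_
    · intro w hw
      simpa using sl2_fst_ne_zero (Finset.mem_coe.1 hw)
    · intro q hq
      have hq' : q.1 ≠ 0 := by simpa using hq
      exact Finset.mem_coe.2 (mem_sl2.2 (det_compl1 hq' _))
    · intro w hw
      exact Prod.ext rfl (compl1_coord1 (mem_sl2.1 (Finset.mem_coe.1 hw)))
    · intro q hq
      have hq' : q.1 ≠ 0 := by simpa using hq
      exact Prod.ext rfl (coord1_compl1 hq' _)
  rw [h, Finset.card_product, Finset.card_erase_of_mem (Finset.mem_univ _)]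
  simp [pow_two]

/-- A1, first half: the number of affine maps of determinant one. -/
theorem card_affMaps : (affMaps p).card = p ^ 3 * (p ^ 2 - 1) := by
  rw [affMaps_eq, Finset.card_product, card_sl2]
  simp
  ring

/-- The translation making the affine map with linear part `w` send `x` to `X`. -/
def affShift (μ : (ZMod p)ˣ) (x : Pt ℤ) (X : Pt (ZMod p)) (w : Pt (ZMod p) × Pt (ZMod p)) :
    Pt (ZMod p) :=
  (X.1 - (x.1 : ZMod p) * w.1.1 - (x.2 : ZMod p) * w.2.1,
    (↑μ⁻¹ : ZMod p) * X.2 - (x.1 : ZMod p) * w.1.2 - (x.2 : ZMod p) * w.2.2)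

lemma affAct_affShift (μ : (ZMod p)ˣ) (x : Pt ℤ) (X : Pt (ZMod p))
    (w : Pt (ZMod p) × Pt (ZMod p)) : affAct μ (affShift μ x X w, w) x = X := by
  have h : (μ : ZMod p) * (↑μ⁻¹ : ZMod p) = 1 := Units.mul_inv μ
  refine Prod.ext ?_ ?_
  · simp only [affAct, affShift]; ring
  · simp only [affAct, affShift]; linear_combination X.2 * h

lemma affShift_affAct (μ : (ZMod p)ˣ) (x : Pt ℤ)
    (w : Pt (ZMod p) × (Pt (ZMod p) × Pt (ZMod p))) :
    affShift μ x (affAct μ w x) w.2 = w.1 := by
  have h : (↑μ⁻¹ : ZMod p) * (μ : ZMod p) = 1 := Units.inv_mul μ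
  refine Prod.ext ?_ ?_
  · simp only [affAct, affShift]; ring
  · simp only [affAct, affShift]
    linear_combination
      (w.1.2 + (x.1 : ZMod p) * w.2.1.2 + (x.2 : ZMod p) * w.2.2.2) * h

/-- A1, second half: a single point is equidistributed. -/
theorem affCount_singleton (S : Finset (Pt (ZMod p))) (μ : (ZMod p)ˣ) (x : Pt ℤ) :
    affCount S μ {x} * p ^ 2 = S.card * (affMaps p).card := by
  have h : affCount S μ {x} = (S ×ˢ sl2 p).card := by
    refine Finset.card_nbij' (fun w => (affAct μ w x, w.2))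
      (fun q => (affShift μ x q.1 q.2, q.2)) ?_ ?_ ?_ ?_
    · intro w hw
      obtain ⟨hw1, hw2⟩ := Finset.mem_filter.1 (Finset.mem_coe.1 hw)
      rw [mem_affMaps] at hw1
      exact Finset.mem_coe.2
        (Finset.mem_product.2 ⟨hw2 x (Finset.mem_singleton_self x),
          mem_sl2.2 hw1⟩)
    · intro q hq
      obtain ⟨hq1, hq2⟩ := Finset.mem_product.1 (Finset.mem_coe.1 hq)
      refine Finset.mem_coe.2 (Finset.mem_filter.2 ⟨mem_affMaps.2 (mem_sl2.1 hq2), ?_⟩)
      intro y hy
      rw [Finset.mem_singleton.1 hy, affAct_affShift]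
      exact hq1
    · intro w _
      exact Prod.ext (affShift_affAct μ x w) rfl
    · intro q _
      exact Prod.ext (affAct_affShift μ x q.1 q.2) rfl
  rw [h, Finset.card_product, card_sl2, card_affMaps]
  ring

/-- A2: a triangle nondegenerate mod `p` meets `S` as often as a fixed determinant does. -/
theorem affCount_triple (S : Finset (Pt (ZMod p))) (μ : (ZMod p)ˣ) (x y z : Pt ℤ)
    (hD : ((det3 x y z : ℤ) : ZMod p) ≠ 0) :
    affCount S μ {x, y, z} = detCount S ((μ : ZMod p) * ((det3 x y z : ℤ) : ZMod p)) := by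
  set D : ZMod p := ((det3 x y z : ℤ) : ZMod p) with hDdef
  have hDval : D = ((y.1 : ZMod p) - x.1) * ((z.2 : ZMod p) - x.2)
      - ((y.2 : ZMod p) - x.2) * ((z.1 : ZMod p) - x.1) := by
    simp [hDdef, det3]
  have hμ0 : (μ : ZMod p) ≠ 0 := μ.ne_zero
  set u1 : ZMod p := (y.1 : ZMod p) - x.1 with hu1
  set u2 : ZMod p := (y.2 : ZMod p) - x.2 with hu2
  set v1 : ZMod p := (z.1 : ZMod p) - x.1 with hv1
  set v2 : ZMod p := (z.2 : ZMod p) - x.2 with hv2
  let mi : ZMod p := ↑μ⁻¹
  have hmi : (μ : ZMod p) * mi = 1 := Units.mul_inv μ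
  let lin : Pt (ZMod p) × (Pt (ZMod p) × Pt (ZMod p)) → Pt (ZMod p) × Pt (ZMod p) :=
    fun q =>
      (((v2 * (q.2.1.1 - q.1.1) - u2 * (q.2.2.1 - q.1.1)) / D,
        (v2 * (mi * (q.2.1.2 - q.1.2)) - u2 * (mi * (q.2.2.2 - q.1.2))) / D),
       ((u1 * (q.2.2.1 - q.1.1) - v1 * (q.2.1.1 - q.1.1)) / D,
        (u1 * (mi * (q.2.2.2 - q.1.2)) - v1 * (mi * (q.2.1.2 - q.1.2))) / D))
  refine Finset.card_nbij' (fun w => (affAct μ w x, (affAct μ w y, affAct μ w z)))
    (fun q => (affShift μ x q.1 (lin q), lin q)) ?_ ?_ ?_ ?_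
  · intro w hw
    obtain ⟨hw1, hw2⟩ := Finset.mem_filter.1 (Finset.mem_coe.1 hw)
    rw [mem_affMaps] at hw1
    refine Finset.mem_coe.2 (Finset.mem_filter.2 ⟨?_, ?_⟩)
    · simp only [triples, Finset.mem_product]
      exact ⟨hw2 x (by simp), hw2 y (by simp), hw2 z (by simp)⟩
    · simp only [affAct, det3]
      rw [hDval, hu1, hu2, hv1, hv2]
      linear_combination (μ : ZMod p) *
        (((y.1 : ZMod p) - x.1) * ((z.2 : ZMod p) - x.2)
          - ((y.2 : ZMod p) - x.2) * ((z.1 : ZMod p) - x.1)) * hw1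
  · intro q hq
    obtain ⟨hq1, hq2⟩ := Finset.mem_filter.1 (Finset.mem_coe.1 hq)
    simp only [triples, Finset.mem_product] at hq1
    simp only [det3] at hq2
    have hdet : (lin q).1.1 * (lin q).2.2 - (lin q).1.2 * (lin q).2.1 = 1 := by
      simp only [lin]
      field_simp
      linear_combination (mi * D) * hq2 + (D * D) * hmi
        - (mi * ((q.2.1.1 - q.1.1) * (q.2.2.2 - q.1.2)
          - (q.2.2.1 - q.1.1) * (q.2.1.2 - q.1.2))) * hDval
    refine Finset.mem_coe.2 (Finset.mem_filter.2 ⟨mem_affMaps.2 hdet, ?_⟩)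
    have hx : affAct μ (affShift μ x q.1 (lin q), lin q) x = q.1 := affAct_affShift μ x q.1 _
    have hy : affAct μ (affShift μ x q.1 (lin q), lin q) y = q.2.1 := by
      refine Prod.ext ?_ ?_
      · simp only [affAct, affShift, lin]
        field_simp
        rw [hDval, hu1, hu2, hv1, hv2]; ring
      · simp only [affAct, affShift, lin]
        field_simp
        linear_combination (D * q.2.1.2) * hmi
          + (-(μ : ZMod p) * mi * (q.2.1.2 - q.1.2)) * hDval
    have hz : affAct μ (affShift μ x q.1 (lin q), lin q) z = q.2.2 := by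
      refine Prod.ext ?_ ?_
      · simp only [affAct, affShift, lin]
        field_simp
        rw [hDval, hu1, hu2, hv1, hv2]; ring
      · simp only [affAct, affShift, lin]
        field_simp
        linear_combination (D * q.2.2.2) * hmi
          + (-(μ : ZMod p) * mi * (q.2.2.2 - q.1.2)) * hDval
    intro a ha
    simp only [Finset.mem_insert, Finset.mem_singleton] at ha
    rcases ha with rfl | rfl | rfl
    · rw [hx]; exact hq1.1
    · rw [hy]; exact hq1.2.1
    · rw [hz]; exact hq1.2.2
  · intro w _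
    have hlin : lin (affAct μ w x, (affAct μ w y, affAct μ w z)) = w.2 := by
      refine Prod.ext (Prod.ext ?_ ?_) (Prod.ext ?_ ?_)
      · simp only [affAct, lin]
        field_simp
        rw [hDval, hu1, hu2, hv1, hv2]; ring
      · simp only [affAct, lin]
        field_simp
        linear_combination (D * w.2.1.2) * hmi
          + (-(μ : ZMod p) * mi * w.2.1.2) * hDval
      · simp only [affAct, lin]
        field_simp
        rw [hDval, hu1, hu2, hv1, hv2]; ring
      · simp only [affAct, lin]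
        field_simp
        linear_combination (D * w.2.2.2) * hmi
          + (-(μ : ZMod p) * mi * w.2.2.2) * hDval
    simp only [hlin]
    exact Prod.ext (affShift_affAct μ x w) rfl
  · intro q _
    have hx : affAct μ (affShift μ x q.1 (lin q), lin q) x = q.1 := affAct_affShift μ x q.1 _
    have hy : affAct μ (affShift μ x q.1 (lin q), lin q) y = q.2.1 := by
      refine Prod.ext ?_ ?_
      · simp only [affAct, affShift, lin]
        field_simp
        rw [hDval, hu1, hu2, hv1, hv2]; ring
      · simp only [affAct, affShift, lin]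
        field_simp
        linear_combination (D * q.2.1.2) * hmi
          + (-(μ : ZMod p) * mi * (q.2.1.2 - q.1.2)) * hDval
    have hz : affAct μ (affShift μ x q.1 (lin q), lin q) z = q.2.2 := by
      refine Prod.ext ?_ ?_
      · simp only [affAct, affShift, lin]
        field_simp
        rw [hDval, hu1, hu2, hv1, hv2]; ring
      · simp only [affAct, affShift, lin]
        field_simp
        linear_combination (D * q.2.2.2) * hmi
          + (-(μ : ZMod p) * mi * (q.2.2.2 - q.1.2)) * hDval
    exact Prod.ext hx (Prod.ext hy hz)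

/-- A3: a collinear triple meets `S` as often as the lines of a given ratio. -/
theorem affCount_line (S : Finset (Pt (ZMod p))) (μ : (ZMod p)ˣ) (x u : Pt ℤ) (a b : ℤ)
    (hu : castPt p u ≠ 0) :
    affCount S μ {x, x + a • u, x + b • u} = p * lineCount S (a : ZMod p) (b : ZMod p) := by
  classical
  set c : Pt (ZMod p) := castPt p u with hc
  set v : Pt (ZMod p) := compl1 c with hv
  have hcv : c.1 * v.2 - c.2 * v.1 = 1 := by
    simpa [hv] using det_compl1 hu 0
  let mi : ZMod p := ↑μ⁻¹
  have hmi : (μ : ZMod p) * mi = 1 := Units.mul_inv μ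
  -- the image of `u` before the diagonal map, and of the completing vector
  let comb : Pt (ZMod p) → Pt (ZMod p) × Pt (ZMod p) → Pt (ZMod p) := fun d w =>
    (d.1 * w.1.1 + d.2 * w.2.1, d.1 * w.1.2 + d.2 * w.2.2)
  let unc : Pt (ZMod p) → Pt (ZMod p) → Pt (ZMod p) × Pt (ZMod p) := fun T R =>
    ((v.2 * T.1 - c.2 * R.1, v.2 * T.2 - c.2 * R.2),
      (c.1 * R.1 - v.1 * T.1, c.1 * R.2 - v.1 * T.2))
  have hdet : ∀ w : Pt (ZMod p) × Pt (ZMod p),
      (comb c w).1 * (comb v w).2 - (comb c w).2 * (comb v w).1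
        = w.1.1 * w.2.2 - w.1.2 * w.2.1 := by
    intro w
    simp only [comb]
    linear_combination (w.1.1 * w.2.2 - w.1.2 * w.2.1) * hcv
  have hunc : ∀ w : Pt (ZMod p) × Pt (ZMod p), unc (comb c w) (comb v w) = w := by
    intro w
    refine Prod.ext (Prod.ext ?_ ?_) (Prod.ext ?_ ?_) <;> simp only [comb, unc]
    · linear_combination w.1.1 * hcv
    · linear_combination w.1.2 * hcv
    · linear_combination w.2.1 * hcv
    · linear_combination w.2.2 * hcv
  have hcomb : ∀ T R : Pt (ZMod p), comb c (unc T R) = T ∧ comb v (unc T R) = R := by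
    intro T R
    refine ⟨Prod.ext ?_ ?_, Prod.ext ?_ ?_⟩ <;> simp only [comb, unc]
    · linear_combination T.1 * hcv
    · linear_combination T.2 * hcv
    · linear_combination R.1 * hcv
    · linear_combination R.2 * hcv
  have hstep : ∀ (w : Pt (ZMod p) × (Pt (ZMod p) × Pt (ZMod p))) (k : ℤ),
      affAct μ w (x + k • u) = affAct μ w x
        + (k : ZMod p) • ((comb c w.2).1, (μ : ZMod p) * (comb c w.2).2) := by
    intro w k
    refine Prod.ext ?_ ?_
    · simp [affAct, comb, hc, castPt]; ring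
    · simp [affAct, comb, hc, castPt]; ring
  have key : affCount S μ {x, x + a • u, x + b • u} =
      ((Finset.univ.filter fun t : Pt (ZMod p) × Pt (ZMod p) =>
        t.2 ≠ 0 ∧ t.1 ∈ S ∧ t.1 + (a : ZMod p) • t.2 ∈ S ∧ t.1 + (b : ZMod p) • t.2 ∈ S) ×ˢ
        (Finset.univ : Finset (ZMod p))).card := by
    refine Finset.card_nbij'
      (fun w => ((affAct μ w x, ((comb c w.2).1, (μ : ZMod p) * (comb c w.2).2)),
        coord1 (comb c w.2) (comb v w.2)))
      (fun q => (affShift μ x q.1.1 (unc (q.1.2.1, mi * q.1.2.2)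
          (compl1 (q.1.2.1, mi * q.1.2.2) + q.2 • (q.1.2.1, mi * q.1.2.2))),
        unc (q.1.2.1, mi * q.1.2.2)
          (compl1 (q.1.2.1, mi * q.1.2.2) + q.2 • (q.1.2.1, mi * q.1.2.2)))) ?_ ?_ ?_ ?_
    · intro w hw
      obtain ⟨hw1, hw2⟩ := Finset.mem_filter.1 (Finset.mem_coe.1 hw)
      have hd1 : (comb c w.2).1 * (comb v w.2).2 - (comb c w.2).2 * (comb v w.2).1 = 1 :=
        (hdet w.2).trans (mem_affMaps.1 hw1)
      refine Finset.mem_coe.2 (Finset.mem_product.2 ⟨Finset.mem_filter.2
        ⟨Finset.mem_univ _, ?_, hw2 x (by simp), ?_, ?_⟩, Finset.mem_univ _⟩)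
      · intro h0
        have h1 : (comb c w.2).1 = 0 := congrArg Prod.fst h0
        have h2 : (μ : ZMod p) * (comb c w.2).2 = 0 := congrArg Prod.snd h0
        have h3 : (comb c w.2).2 = 0 := by simpa [μ.ne_zero] using h2
        rw [h1, h3] at hd1
        simp at hd1
      · have := hw2 (x + a • u) (by simp)
        rwa [hstep] at this
      · have := hw2 (x + b • u) (by simp)
        rwa [hstep] at this
    · intro q hq
      obtain ⟨hq1, -⟩ := Finset.mem_product.1 (Finset.mem_coe.1 hq)
      obtain ⟨-, hT, hX, hXa, hXb⟩ := Finset.mem_filter.1 hq1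
      set T : Pt (ZMod p) := (q.1.2.1, mi * q.1.2.2) with hTdef
      have hT0 : T ≠ 0 := by
        intro h0
        have h1 : q.1.2.1 = 0 := congrArg Prod.fst h0
        have h2 : mi * q.1.2.2 = 0 := congrArg Prod.snd h0
        refine hT (Prod.ext h1 ?_)
        show q.1.2.2 = 0
        calc q.1.2.2 = (μ : ZMod p) * mi * q.1.2.2 := by rw [hmi, one_mul]
          _ = 0 := by rw [mul_assoc, h2, mul_zero]
      set w2 := unc T (compl1 T + q.2 • T) with hw2def
      obtain ⟨hc1, hc2⟩ := hcomb T (compl1 T + q.2 • T)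
      have hd : w2.1.1 * w2.2.2 - w2.1.2 * w2.2.1 = 1 := by
        rw [← hdet w2, hw2def, hc1, hc2]; exact det_compl1 hT0 _
      have hlin : ((comb c w2).1, (μ : ZMod p) * (comb c w2).2) = q.1.2 := by
        rw [hw2def, hc1]
        refine Prod.ext rfl ?_
        show (μ : ZMod p) * (mi * q.1.2.2) = q.1.2.2
        rw [← mul_assoc, hmi, one_mul]
      refine Finset.mem_coe.2 (Finset.mem_filter.2 ⟨mem_affMaps.2 hd, ?_⟩)
      intro y hy
      simp only [Finset.mem_insert, Finset.mem_singleton] at hy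
      rcases hy with rfl | rfl | rfl
      · rw [affAct_affShift]; exact hX
      · rw [hstep, affAct_affShift, hlin]; exact hXa
      · rw [hstep, affAct_affShift, hlin]; exact hXb
    · intro w hw
      obtain ⟨hw1, -⟩ := Finset.mem_filter.1 (Finset.mem_coe.1 hw)
      have hd1 : (comb c w.2).1 * (comb v w.2).2 - (comb c w.2).2 * (comb v w.2).1 = 1 :=
        (hdet w.2).trans (mem_affMaps.1 hw1)
      have hT : ((comb c w.2).1, mi * ((μ : ZMod p) * (comb c w.2).2)) = comb c w.2 := by
        refine Prod.ext rfl ?_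
        show mi * ((μ : ZMod p) * (comb c w.2).2) = (comb c w.2).2
        rw [← mul_assoc, mul_comm mi, hmi, one_mul]
      simp only [hT, compl1_coord1 hd1, hunc]
      exact Prod.ext (affShift_affAct μ x w) rfl
    · intro q hq
      obtain ⟨hq1, -⟩ := Finset.mem_product.1 (Finset.mem_coe.1 hq)
      obtain ⟨-, hT, -⟩ := Finset.mem_filter.1 hq1
      set T : Pt (ZMod p) := (q.1.2.1, mi * q.1.2.2) with hTdef
      have hT0 : T ≠ 0 := by
        intro h0
        have h1 : q.1.2.1 = 0 := congrArg Prod.fst h0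
        have h2 : mi * q.1.2.2 = 0 := congrArg Prod.snd h0
        refine hT (Prod.ext h1 ?_)
        show q.1.2.2 = 0
        calc q.1.2.2 = (μ : ZMod p) * mi * q.1.2.2 := by rw [hmi, one_mul]
          _ = 0 := by rw [mul_assoc, h2, mul_zero]
      obtain ⟨hc1, hc2⟩ := hcomb T (compl1 T + q.2 • T)
      refine Prod.ext (Prod.ext (affAct_affShift μ x _ _) ?_) ?_
      · show ((comb c (unc T _)).1, (μ : ZMod p) * (comb c (unc T _)).2) = q.1.2
        rw [hc1]
        refine Prod.ext rfl ?_
        show (μ : ZMod p) * (mi * q.1.2.2) = q.1.2.2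
        rw [← mul_assoc, hmi, one_mul]
      · show coord1 (comb c (unc T _)) (comb v (unc T _)) = q.2
        rw [hc1, hc2]; exact coord1_compl1 hT0 _
  rw [key, Finset.card_product, Finset.card_univ, ZMod.card, mul_comm]
  rfl

/-- A4: asking more points to land in `S` lowers the count. -/
theorem affCount_mono (S : Finset (Pt (ZMod p))) (μ : (ZMod p)ˣ) {X Y : Finset (Pt ℤ)}
    (h : X ⊆ Y) : affCount S μ Y ≤ affCount S μ X := by
  refine Finset.card_le_card fun w hw => ?_
  obtain ⟨h1, h2⟩ := Finset.mem_filter.1 hw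
  exact Finset.mem_filter.2 ⟨h1, fun x hx => h2 x (h hx)⟩

/-- A5: the lines of all ratios together are the collinear triples. -/
theorem sum_lineCount_le (S : Finset (Pt (ZMod p))) :
    ∑ a : ZMod p, ∑ b : ZMod p, lineCount S a b ≤ p * detCount S 0 + p ^ 2 * S.card := by
  classical
  set T : Finset ((ZMod p × ZMod p) × (Pt (ZMod p) × Pt (ZMod p))) :=
    Finset.univ.filter fun q => q.2.2 ≠ 0 ∧ q.2.1 ∈ S ∧ q.2.1 + q.1.1 • q.2.2 ∈ S ∧
      q.2.1 + q.1.2 • q.2.2 ∈ S with hT
  have hsum : ∑ a : ZMod p, ∑ b : ZMod p, lineCount S a b = T.card := by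
    simp only [lineCount, hT, Finset.card_filter, Fintype.sum_prod_type]
  rw [hsum, ← Finset.card_filter_add_card_filter_not (s := T) (fun q => q.1 = 0), add_comm]
  refine Nat.add_le_add ?_ ?_
  · have h : (T.filter fun q => ¬ q.1 = 0).card ≤
        (((triples S).filter fun t => det3 t.1 t.2.1 t.2.2 = 0) ×ˢ
          (Finset.univ : Finset (ZMod p))).card := by
      refine Finset.card_le_card_of_injOn
        (fun q => ((q.2.1, (q.2.1 + q.1.1 • q.2.2, q.2.1 + q.1.2 • q.2.2)),
          if q.1.1 = 0 then q.1.2 else q.1.1)) ?_ ?_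
      · intro q hq
        obtain ⟨hq1, -⟩ := Finset.mem_filter.1 (Finset.mem_coe.1 hq)
        obtain ⟨-, -, h1, h2, h3⟩ := Finset.mem_filter.1 hq1
        refine Finset.mem_coe.2 (Finset.mem_product.2 ⟨Finset.mem_filter.2 ⟨?_, ?_⟩,
          Finset.mem_univ _⟩)
        · simp only [triples, Finset.mem_product]
          exact ⟨h1, h2, h3⟩
        · simp [det3]; ring
      · rintro ⟨⟨a, b⟩, X, U⟩ hq ⟨⟨a', b'⟩, X', U'⟩ hq' he
        obtain ⟨hq1, hne⟩ := Finset.mem_filter.1 (Finset.mem_coe.1 hq)
        obtain ⟨hq1', hne'⟩ := Finset.mem_filter.1 (Finset.mem_coe.1 hq')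
        have hU : U ≠ 0 := (Finset.mem_filter.1 hq1).2.1
        have hU' : U' ≠ 0 := (Finset.mem_filter.1 hq1').2.1
        simp only [Prod.mk.injEq] at he
        obtain ⟨⟨hX, hY, hZ⟩, hk⟩ := he
        subst hX
        have hY' : a • U = a' • U' := add_left_cancel hY
        have hZ' : b • U = b' • U' := add_left_cancel hZ
        by_cases ha : a = 0
        · have ha' : a' = 0 := by
            by_contra h
            rw [ha, zero_smul] at hY'
            exact hU' ((smul_eq_zero.1 hY'.symm).resolve_left h)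
          rw [if_pos ha, if_pos ha'] at hk
          subst hk
          have hb : b ≠ 0 := fun hb => hne (Prod.ext ha hb)
          have hUU : U = U' := smul_right_injective (Pt (ZMod p)) hb hZ'
          rw [ha, ha', hUU]
        · have ha' : a' ≠ 0 := by
            intro h
            rw [h, zero_smul] at hY'
            exact hU ((smul_eq_zero.1 hY').resolve_left ha)
          rw [if_neg ha, if_neg ha'] at hk
          subst hk
          have hUU : U = U' := smul_right_injective (Pt (ZMod p)) ha hY'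
          subst hUU
          have hbb : b = b' := smul_left_injective (ZMod p) hU hZ'
          rw [hbb]
    rw [Finset.card_product, Finset.card_univ, ZMod.card] at h
    unfold detCount
    rw [mul_comm]
    exact h
  · have h : (T.filter fun q => q.1 = 0).card ≤
        ((S ×ˢ (Finset.univ : Finset (Pt (ZMod p))))).card := by
      refine Finset.card_le_card_of_injOn (fun q => q.2) ?_ ?_
      · intro q hq
        obtain ⟨hq1, -⟩ := Finset.mem_filter.1 (Finset.mem_coe.1 hq)
        exact Finset.mem_coe.2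
          (Finset.mem_product.2 ⟨(Finset.mem_filter.1 hq1).2.2.1, Finset.mem_univ _⟩)
      · intro q hq q' hq' he
        exact Prod.ext ((Finset.mem_filter.1 (Finset.mem_coe.1 hq)).2.trans
          (Finset.mem_filter.1 (Finset.mem_coe.1 hq')).2.symm) he
    refine h.trans (le_of_eq ?_)
    rw [Finset.card_product, Finset.card_univ, Fintype.card_prod, ZMod.card]
    ring

end Count

end Vale.P036.Cascade
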