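import Mathlib

/-!
# P036 cascade construction: shared definitions

A lower bound `exp (c √(log n / log log n)) / n²` for Heilbronn's triangle problem.
The grid `[0,M)²` is filtered by, for each of `g r` primes `p`, a random affine image mod `p` lying in
a fixed set, whose determinants are coupled inside each group of `g` primes, and by a random
one-dimensional projection mod a large prime `Q` onto a sphere image.
-/

namespace Vale.P036.Cascade

abbrev Pt (R : Type*) := R × R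

/-- `det (y - x, z - x)`, twice the signed area of the triangle. -/
def det3 {R : Type*} [CommRing R] (x y z : Pt R) : R :=
  (y.1 - x.1) * (z.2 - x.2) - (y.2 - x.2) * (z.1 - x.1)

def castPt (n : ℕ) (v : Pt ℤ) : Pt (ZMod n) := ((v.1 : ZMod n), (v.2 : ZMod n))

def triples {α : Type*} (S : Finset α) : Finset (α × α × α) := S ×ˢ (S ×ˢ S)

/-- The integer square `[0, l)²`. -/
noncomputable def boxPts (l : ℕ) : Finset (Pt ℤ) := Finset.Ico (0 : ℤ) (l : ℤ) ×ˢ Finset.Ico (0 : ℤ) (l : ℤ)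

/-- The residues of the integer square mod `p`. -/
noncomputable def boxSet (p l : ℕ) : Finset (Pt (ZMod p)) := (boxPts l).image (castPt p)

/-- Ordered triples of `S` with determinant `j`. -/
def detCount {p : ℕ} (S : Finset (Pt (ZMod p))) (j : ZMod p) : ℕ :=
  ((triples S).filter fun t => det3 t.1 t.2.1 t.2.2 = j).card

/-- Fourier transform of the determinant of a random triple of `S`. -/
noncomputable def hatDet {p : ℕ} [NeZero p] (S : Finset (Pt (ZMod p))) (s : ZMod p) : ℂ :=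
  (∑ t ∈ triples S, ZMod.stdAddChar (s * det3 t.1 t.2.1 t.2.2)) / (S.card : ℂ) ^ 3

/-- Lines `X, X + aU, X + bU` with `U ≠ 0` inside `S`. -/
def lineCount {p : ℕ} [NeZero p] (S : Finset (Pt (ZMod p))) (a b : ZMod p) : ℕ :=
  (Finset.univ.filter fun t : Pt (ZMod p) × Pt (ZMod p) =>
    t.2 ≠ 0 ∧ t.1 ∈ S ∧ t.1 + a • t.2 ∈ S ∧ t.1 + b • t.2 ∈ S).card

/-- Parameters `(b, U, W)` of the affine maps of determinant one mod `p`. -/
def affMaps (p : ℕ) [NeZero p] :
    Finset (Pt (ZMod p) × (Pt (ZMod p) × Pt (ZMod p))) :=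
  Finset.univ.filter fun w => w.2.1.1 * w.2.2.2 - w.2.1.2 * w.2.2.1 = 1

/-- `x ↦ diag(1, μ) (b + x₁ U + x₂ W)`. -/
def affAct {p : ℕ} (μ : (ZMod p)ˣ) (w : Pt (ZMod p) × (Pt (ZMod p) × Pt (ZMod p)))
    (x : Pt ℤ) : Pt (ZMod p) :=
  (w.1.1 + (x.1 : ZMod p) * w.2.1.1 + (x.2 : ZMod p) * w.2.2.1,
    (μ : ZMod p) * (w.1.2 + (x.1 : ZMod p) * w.2.1.2 + (x.2 : ZMod p) * w.2.2.2))

/-- Number of affine maps sending all of `X` into `S`. -/
def affCount {p : ℕ} [NeZero p] (S : Finset (Pt (ZMod p))) (μ : (ZMod p)ˣ)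
    (X : Finset (Pt ℤ)) : ℕ :=
  ((affMaps p).filter fun w => ∀ x ∈ X, affAct μ w x ∈ S).card

/-- The eleven points in `(ℤ/6)²` whose mean of `cos (2π det / 6)` is negative. -/
def elevenPts : Finset (Pt ℤ) :=
  {(0, 0), (0, 3), (3, 0), (1, 1), (1, 3), (1, 5), (3, 1), (3, 5), (5, 1), (5, 3), (5, 5)}

/-- Blow-up of `elevenPts` with spacing `s` and blob side `t`. -/
noncomputable def negPts (s t : ℕ) : Finset (Pt ℤ) :=
  (elevenPts ×ˢ boxPts t).image fun w =>
    ((s : ℤ) * w.1.1 + w.2.1, (s : ℤ) * w.1.2 + w.2.2)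

end Vale.P036.Cascade
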