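import Mathlib
import Vale.Agent.P036.Cascade.Defs

/-!
# P036 cascade construction: counting lattice triangles of small determinant

The number of pairs of vectors of `[-l,l]²` with determinant `j` is at most
`36 l² ([j = 0] + ∑_{g ≤ l, g ∣ j} 1/g)`; from this, the number of lattice triangles of small
area, of triples of determinant `0` mod `p`, and the second moment of the determinant mod `p`.
-/

namespace Vale.P036.Cascade

open Finset
open scoped ComplexConjugate

/-- The square `[-l, l]²`. -/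
noncomputable def symBox (l : ℕ) : Finset (Pt ℤ) :=
  Icc (-(l : ℤ)) (l : ℤ) ×ˢ Icc (-(l : ℤ)) (l : ℤ)

/-- Pairs of vectors of the square `[-l,l]²` with determinant `j`. -/
noncomputable def detRep (l : ℕ) (j : ℤ) : ℕ :=
  ((symBox l ×ˢ symBox l).filter fun w => w.1.1 * w.2.2 - w.1.2 * w.2.1 = j).card

/-- The sum of `1/g` over the divisors `g ≤ l` of `j`. -/
noncomputable def divWeight (l : ℕ) (j : ℤ) : ℝ :=
  ∑ g ∈ Icc 1 l, if (g : ℤ) ∣ j then 1 / (g : ℝ) else 0

theorem mem_symBox {l : ℕ} {u : Pt ℤ} :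
    u ∈ symBox l ↔ (-(l : ℤ) ≤ u.1 ∧ u.1 ≤ l) ∧ (-(l : ℤ) ≤ u.2 ∧ u.2 ≤ l) := by
  simp only [symBox, mem_product, mem_Icc]

theorem card_congr_Icc (l : ℕ) {a : ℕ} (ha : 0 < a) (c : ℤ) :
    ((Icc (-(l : ℤ)) (l : ℤ)).filter fun x => (a : ℤ) ∣ x - c).card ≤ 2 * l / a + 1 := by
  have ha' : (0 : ℤ) < (a : ℤ) := by exact_mod_cast ha
  rw [← card_range (2 * l / a + 1)]
  refine card_le_card_of_injOn (fun x => (x + l).toNat / a) ?_ ?_
  · intro x hx
    simp only [coe_filter, mem_Icc, Set.mem_ofPred_eq] at hx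
    simp only [coe_range, Set.mem_Iio]
    exact Nat.lt_succ_of_le (Nat.div_le_div_right (by omega))
  · intro x hx y hy hxy
    simp only [coe_filter, mem_Icc, Set.mem_ofPred_eq] at hx hy hxy
    have hd : (a : ℤ) ∣ (x + l) - (y + l) := by
      have := dvd_sub hx.2 hy.2
      simpa using this
    have h1 : ((x + l).toNat : ℤ) = x + l := by omega
    have h2 : ((y + l).toNat : ℤ) = y + l := by omega
    have hm : (x + l).toNat % a = (y + l).toNat % a := by
      have : ((y + l).toNat : ℤ) ≡ ((x + l).toNat : ℤ) [ZMOD (a : ℤ)] := by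
        rw [h1, h2]; exact Int.modEq_iff_dvd.2 hd
      exact (Int.natCast_modEq_iff.1 this).symm
    have e : (x + l).toNat = (y + l).toNat := by
      rw [← Nat.div_add_mod (x + l).toNat a, ← Nat.div_add_mod (y + l).toNat a, hxy, hm]
    omega

/-- The second vectors with a given determinant against a primitive vector. -/
theorem card_line {l : ℕ} {a b j : ℤ} (ha : a ≠ 0) (hab : IsCoprime a b) :
    ((symBox l).filter fun v => a * v.2 - b * v.1 = j).card ≤ 2 * l / a.natAbs + 1 := by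
  rcases ((symBox l).filter fun v => a * v.2 - b * v.1 = j).eq_empty_or_nonempty with h | ⟨w, hw⟩
  · rw [h]; simp
  refine le_trans ?_ (card_congr_Icc l (Int.natAbs_pos.2 ha) w.1)
  refine card_le_card_of_injOn (fun v => v.1) ?_ ?_
  · intro v hv
    simp only [coe_filter, Set.mem_ofPred_eq, mem_symBox] at hv
    simp only [mem_filter] at hw
    simp only [coe_filter, Set.mem_ofPred_eq, mem_Icc]
    refine ⟨hv.1.1, Int.natAbs_dvd.2 (hab.dvd_of_dvd_mul_left ⟨v.2 - w.2, ?_⟩)⟩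
    linear_combination hw.2 - hv.2
  · intro v hv v' hv' e
    simp only [coe_filter, Set.mem_ofPred_eq] at hv hv'
    simp only at e
    refine Prod.ext e (mul_left_cancel₀ ha ?_)
    linear_combination hv.2 - hv'.2 + b * e

theorem card_line_le {l : ℕ} {a b j : ℤ} (ha : a ≠ 0) (hl : a.natAbs ≤ l) (hab : IsCoprime a b) :
    (((symBox l).filter fun v => a * v.2 - b * v.1 = j).card : ℝ) ≤
      3 * (l : ℝ) / (a.natAbs : ℝ) := by
  have h0 : (0 : ℝ) < (a.natAbs : ℝ) := by exact_mod_cast Int.natAbs_pos.2 ha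
  have h1 := card_line (l := l) (j := j) ha hab
  calc (((symBox l).filter fun v => a * v.2 - b * v.1 = j).card : ℝ)
      ≤ ((2 * l / a.natAbs + 1 : ℕ) : ℝ) := by exact_mod_cast h1
    _ ≤ 2 * (l : ℝ) / (a.natAbs : ℝ) + 1 := by
        have := Nat.cast_div_le (m := 2 * l) (n := a.natAbs) (α := ℝ)
        push_cast at this ⊢
        linarith
    _ ≤ 3 * (l : ℝ) / (a.natAbs : ℝ) := by
        rw [div_add_one h0.ne']
        refine div_le_div_of_nonneg_right ?_ h0.le
        have : (a.natAbs : ℝ) ≤ (l : ℝ) := by exact_mod_cast hl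
        linarith

theorem card_symBox_line {l : ℕ} {a b j : ℤ} (hab : IsCoprime a b) (hla : a.natAbs ≤ l)
    (hlb : b.natAbs ≤ l) :
    (((symBox l).filter fun v => a * v.2 - b * v.1 = j).card : ℝ) ≤
      3 * (l : ℝ) / ((max a.natAbs b.natAbs : ℕ) : ℝ) := by
  have hne : a ≠ 0 ∨ b ≠ 0 := hab.ne_zero_or_ne_zero
  by_cases h : b.natAbs ≤ a.natAbs
  · rw [max_eq_left h]
    exact card_line_le (by omega) hla hab
  · rw [max_eq_right (by omega)]
    have e : ((symBox l).filter fun v => a * v.2 - b * v.1 = j).card =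
        ((symBox l).filter fun v => b * v.2 - a * v.1 = -j).card := by
      refine card_equiv (Equiv.prodComm ℤ ℤ) fun v => ?_
      simp only [mem_filter, mem_symBox, Equiv.prodComm_apply, Prod.fst_swap, Prod.snd_swap]
      constructor
      · rintro ⟨⟨h1, h2⟩, h3⟩; exact ⟨⟨h2, h1⟩, by linarith⟩
      · rintro ⟨⟨h1, h2⟩, h3⟩; exact ⟨⟨h2, h1⟩, by linarith⟩
    rw [e]
    exact card_line_le (by omega) hlb hab.symm

/-- The sum of the reciprocal sup norms over a square. -/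
theorem sum_inv_norm (L : ℕ) :
    ∑ u ∈ (symBox L).filter (fun u => u ≠ 0), (1 : ℝ) / ((max u.1.natAbs u.2.natAbs : ℕ) : ℝ) ≤
      12 * (L : ℝ) := by
  set F : Pt ℤ → ℝ := fun u => (1 : ℝ) / ((max u.1.natAbs u.2.natAbs : ℕ) : ℝ) with hF
  have hF0 : ∀ u, 0 ≤ F u := fun u => by simp only [hF]; positivity
  set A : Finset (Pt ℤ) :=
    (symBox L).filter fun u => u.1 ≠ 0 ∧ u.2.natAbs ≤ u.1.natAbs with hA
  set B : Finset (Pt ℤ) :=
    (symBox L).filter fun u => u.2 ≠ 0 ∧ u.1.natAbs ≤ u.2.natAbs with hB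
  have hAB : ∑ u ∈ A, F u = ∑ u ∈ B, F u := by
    refine sum_equiv (Equiv.prodComm ℤ ℤ) (fun u => ?_) fun u _ => ?_
    · simp only [hA, hB, mem_filter, mem_symBox, Equiv.prodComm_apply, Prod.fst_swap,
        Prod.snd_swap]
      tauto
    · simp only [hF, Equiv.prodComm_apply, Prod.fst_swap, Prod.snd_swap, max_comm]
  have hA6 : ∑ u ∈ A, F u ≤ 6 * (L : ℝ) := by
    have hsub : ∑ u ∈ A, F u = ∑ a ∈ (Icc (-(L : ℤ)) (L : ℤ)).erase 0,
        ∑ b ∈ Icc (-(a.natAbs : ℤ)) (a.natAbs : ℤ), F (a, b) := by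
      refine sum_finset_product (f := F) A _ _ fun u => ?_
      simp only [hA, mem_filter, mem_symBox, mem_erase, mem_Icc]
      omega
    rw [hsub]
    calc ∑ a ∈ (Icc (-(L : ℤ)) (L : ℤ)).erase 0,
          ∑ b ∈ Icc (-(a.natAbs : ℤ)) (a.natAbs : ℤ), F (a, b)
        ≤ ∑ a ∈ (Icc (-(L : ℤ)) (L : ℤ)).erase 0, (3 : ℝ) := by
          refine sum_le_sum fun a ha => ?_
          have ha1 : 1 ≤ a.natAbs := Int.natAbs_pos.2 (mem_erase.1 ha).1
          have hval : ∀ b ∈ Icc (-(a.natAbs : ℤ)) (a.natAbs : ℤ),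
              F (a, b) = 1 / (a.natAbs : ℝ) := by
            intro b hb
            simp only [mem_Icc] at hb
            simp only [hF]
            rw [max_eq_left (by omega)]
          rw [sum_congr rfl hval, sum_const, Int.card_Icc, nsmul_eq_mul,
            show ((a.natAbs : ℤ) + 1 - -(a.natAbs : ℤ)).toNat = 2 * a.natAbs + 1 by omega,
            mul_one_div, div_le_iff₀ (by exact_mod_cast ha1)]
          have : (1 : ℝ) ≤ (a.natAbs : ℝ) := by exact_mod_cast ha1
          push_cast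
          linarith
      _ = 6 * (L : ℝ) := by
          rw [sum_const, card_erase_of_mem (by simp), Int.card_Icc, nsmul_eq_mul,
            show ((L : ℤ) + 1 - -(L : ℤ)).toNat - 1 = 2 * L by omega]
          push_cast
          ring
  calc ∑ u ∈ (symBox L).filter (fun u => u ≠ 0), F u
      ≤ ∑ u ∈ A ∪ B, F u := by
        refine sum_le_sum_of_subset_of_nonneg (fun u hu => ?_) fun u _ _ => hF0 u
        simp only [mem_filter] at hu
        simp only [hA, hB, mem_union, mem_filter, hu.1, true_and]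
        have : ¬ (u.1 = 0 ∧ u.2 = 0) := fun h => hu.2 (Prod.ext h.1 h.2)
        omega
    _ ≤ ∑ u ∈ A ∪ B, F u + ∑ u ∈ A ∩ B, F u :=
        le_add_of_nonneg_right (sum_nonneg fun u _ => hF0 u)
    _ = ∑ u ∈ A, F u + ∑ u ∈ B, F u := sum_union_inter
    _ ≤ 12 * (L : ℝ) := by rw [← hAB]; linarith

theorem divWeight_nonneg (l : ℕ) (j : ℤ) : 0 ≤ divWeight l j := by
  refine sum_nonneg fun g _ => ?_
  split_ifs <;> positivity

theorem divWeight_le (l : ℕ) (j : ℤ) : divWeight l j ≤ 1 + Real.log l := by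
  refine le_trans (sum_le_sum (g := fun g : ℕ => 1 / (g : ℝ)) fun g _ => ?_) (le_trans (le_of_eq ?_) (harmonic_le_one_add_log l))
  · show (if (g : ℤ) ∣ j then 1 / (g : ℝ) else 0) ≤ 1 / (g : ℝ)
    split_ifs
    · exact le_rfl
    · positivity
  · rw [harmonic_eq_sum_Icc]
    push_cast
    simp only [one_div]

theorem sum_inv_sq (l : ℕ) : ∑ g ∈ Icc 1 l, 1 / ((g : ℝ) ^ 2) ≤ 2 := by
  suffices h : ∀ m : ℕ, ∑ g ∈ Icc 1 (m + 1), 1 / ((g : ℝ) ^ 2) ≤ 2 - 1 / ((m : ℝ) + 1) by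
    cases l with
    | zero => simp
    | succ m =>
      refine (h m).trans ?_
      have : (0 : ℝ) ≤ 1 / ((m : ℝ) + 1) := by positivity
      linarith
  intro m
  induction m with
  | zero => norm_num
  | succ m ih =>
    rw [sum_Icc_succ_top (by omega)]
    have h1 : (0 : ℝ) < (m : ℝ) + 1 := by positivity
    have key : 1 / (((m : ℝ) + 1 + 1) ^ 2) + 1 / ((m : ℝ) + 1 + 1) ≤ 1 / ((m : ℝ) + 1) := by
      rw [div_add_div _ _ (by positivity) (by positivity), div_le_div_iff₀ (by positivity) h1]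
      nlinarith
    push_cast at ih ⊢
    linarith

/-- Pairs of vectors with a given determinant. -/
theorem detRep_le {l : ℕ} (hl : 1 ≤ l) (j : ℤ) :
    (detRep l j : ℝ) ≤ 36 * (l : ℝ) ^ 2 * ((if j = 0 then 1 else 0) + divWeight l j) := by
  set c : Pt ℤ → ℕ := fun u =>
    ((symBox l).filter fun v => u.1 * v.2 - u.2 * v.1 = j).card with hc
  have hsplit : detRep l j = ∑ u ∈ symBox l, c u := by
    simp only [detRep, hc, card_filter, sum_product]
  have hzero : ∀ u ∈ (symBox l).filter (fun u => ¬ u ≠ 0),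
      (c u : ℝ) ≤ 9 * (l : ℝ) ^ 2 * (if j = 0 then 1 else 0) := by
    intro u hu
    simp only [mem_filter, ne_eq, not_not] at hu
    obtain ⟨-, rfl⟩ := hu
    split_ifs with hj
    · have h1 : c 0 ≤ (symBox l).card := card_filter_le _ _
      have h2 : (symBox l).card ≤ 9 * l ^ 2 := by
        rw [symBox, card_product, Int.card_Icc,
          show ((l : ℤ) + 1 - -(l : ℤ)).toNat = 2 * l + 1 by omega]
        nlinarith
      rw [mul_one]
      exact_mod_cast h1.trans h2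
    · have : c 0 = 0 := card_eq_zero.2 (filter_eq_empty_iff.2 fun v _ h => hj (by simpa using h.symm))
      simp [this]
  have hmaps : ∀ u ∈ (symBox l).filter (fun u => u ≠ 0), Int.gcd u.1 u.2 ∈ Icc 1 l := by
    intro u hu
    simp only [mem_filter, mem_symBox] at hu
    have hne : u.1 ≠ 0 ∨ u.2 ≠ 0 := by
      by_contra h
      exact hu.2 (Prod.ext (by tauto) (by tauto))
    have hpos : 0 < Int.gcd u.1 u.2 := Int.gcd_pos_iff.2 hne
    refine mem_Icc.2 ⟨hpos, ?_⟩
    rcases hne with h | h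
    · exact (Nat.le_of_dvd (Int.natAbs_pos.2 h) (Nat.gcd_dvd_left _ _)).trans (by omega)
    · exact (Nat.le_of_dvd (Int.natAbs_pos.2 h) (Nat.gcd_dvd_right _ _)).trans (by omega)
  have hgroup : ∀ g ∈ Icc 1 l,
      ∑ u ∈ ((symBox l).filter (fun u => u ≠ 0)).filter (fun u => Int.gcd u.1 u.2 = g), (c u : ℝ) ≤
        36 * (l : ℝ) ^ 2 * (if (g : ℤ) ∣ j then 1 / (g : ℝ) else 0) := by
    intro g hg
    have hg1 : 1 ≤ g := (mem_Icc.1 hg).1
    by_cases hdvd : (g : ℤ) ∣ j
    · rw [if_pos hdvd]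
      obtain ⟨j', rfl⟩ := hdvd
      set L := l / g with hL
      set G : Pt ℤ → Pt ℤ := fun u => (u.1 / (g : ℤ), u.2 / (g : ℤ)) with hG
      set H : Pt ℤ → ℝ := fun u =>
        3 * (l : ℝ) * ((1 : ℝ) / ((max u.1.natAbs u.2.natAbs : ℕ) : ℝ)) with hH
      have key : ∀ u ∈ ((symBox l).filter (fun u => u ≠ 0)).filter
          (fun u => Int.gcd u.1 u.2 = g),
          G u ∈ (symBox L).filter (fun u => u ≠ 0) ∧ (c u : ℝ) ≤ H (G u) ∧
            u = ((g : ℤ) * (G u).1, (g : ℤ) * (G u).2) := by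
        intro u hu
        simp only [mem_filter, mem_symBox] at hu
        obtain ⟨⟨hbox, hne⟩, hgcd⟩ := hu
        obtain ⟨a, b, hab, ha, hb⟩ := Int.exists_gcd_one (m := u.1) (n := u.2) (by omega)
        rw [hgcd] at ha hb
        have hg0 : (g : ℤ) ≠ 0 := by omega
        have e1 : u.1 / (g : ℤ) = a := by rw [ha, Int.mul_ediv_cancel _ hg0]
        have e2 : u.2 / (g : ℤ) = b := by rw [hb, Int.mul_ediv_cancel _ hg0]
        have eG : G u = (a, b) := by simp only [hG, e1, e2]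
        have hla : a.natAbs ≤ L := by
          rw [hL, Nat.le_div_iff_mul_le hg1]
          have h := congrArg Int.natAbs ha
          rw [Int.natAbs_mul, Int.natAbs_natCast] at h
          omega
        have hlb : b.natAbs ≤ L := by
          rw [hL, Nat.le_div_iff_mul_le hg1]
          have h := congrArg Int.natAbs hb
          rw [Int.natAbs_mul, Int.natAbs_natCast] at h
          omega
        have hcop : IsCoprime a b := Int.isCoprime_iff_gcd_eq_one.2 hab
        rw [eG]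
        refine ⟨?_, ?_, Prod.ext (by rw [ha]; ring) (by rw [hb]; ring)⟩
        · simp only [mem_filter, mem_symBox]
          refine ⟨⟨by omega, by omega⟩, fun h => ?_⟩
          rw [Prod.mk_eq_zero] at h
          exact (hcop.ne_zero_or_ne_zero).elim (fun k => k h.1) (fun k => k h.2)
        · have hLl : L ≤ l := Nat.div_le_self _ _
          have hbd := card_symBox_line (l := l) (j := j') hcop (hla.trans hLl) (hlb.trans hLl)
          have hcu : c u = ((symBox l).filter fun v => a * v.2 - b * v.1 = j').card := by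
            simp only [hc]
            refine congrArg card (filter_congr fun v _ => ?_)
            rw [ha, hb, ← mul_right_inj' hg0 (b := a * v.2 - b * v.1) (c := j')]
            constructor <;> intro h <;> linarith
          rw [hcu]
          simp only [hH, mul_one_div]
          exact hbd
      calc ∑ u ∈ ((symBox l).filter (fun u => u ≠ 0)).filter (fun u => Int.gcd u.1 u.2 = g),
            (c u : ℝ)
          ≤ ∑ u ∈ ((symBox l).filter (fun u => u ≠ 0)).filter (fun u => Int.gcd u.1 u.2 = g),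
              H (G u) := sum_le_sum fun u hu => (key u hu).2.1
        _ = ∑ v ∈ (((symBox l).filter (fun u => u ≠ 0)).filter
              (fun u => Int.gcd u.1 u.2 = g)).image G, H v := by
            refine (sum_image ?_).symm
            intro u hu u' hu' e
            rw [(key u hu).2.2, (key u' hu').2.2, e]
        _ ≤ ∑ v ∈ (symBox L).filter (fun u => u ≠ 0), H v := by
            refine sum_le_sum_of_subset_of_nonneg (image_subset_iff.2 fun u hu => (key u hu).1)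
              fun v _ _ => ?_
            simp only [hH]; positivity
        _ = 3 * (l : ℝ) * ∑ v ∈ (symBox L).filter (fun u => u ≠ 0),
              (1 : ℝ) / ((max v.1.natAbs v.2.natAbs : ℕ) : ℝ) := by simp only [hH, mul_sum]
        _ ≤ 3 * (l : ℝ) * (12 * (L : ℝ)) := by
            gcongr
            exact sum_inv_norm L
        _ ≤ 3 * (l : ℝ) * (12 * ((l : ℝ) / (g : ℝ))) := by
            gcongr
            exact Nat.cast_div_le
        _ = 36 * (l : ℝ) ^ 2 * (1 / (g : ℝ)) := by ring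
    · rw [if_neg hdvd, mul_zero]
      refine le_of_eq (sum_eq_zero fun u hu => ?_)
      simp only [mem_filter] at hu
      have : c u = 0 := by
        refine card_eq_zero.2 (filter_eq_empty_iff.2 fun v _ h => hdvd ?_)
        rw [← h, ← hu.2]
        exact dvd_sub ((Int.gcd_dvd_left _ _).mul_right _) ((Int.gcd_dvd_right _ _).mul_right _)
      simp [this]
  have hnz : ∑ u ∈ (symBox l).filter (fun u => u ≠ 0), (c u : ℝ) ≤
      36 * (l : ℝ) ^ 2 * divWeight l j := by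
    rw [← sum_fiberwise_of_maps_to hmaps, divWeight, mul_sum]
    exact sum_le_sum hgroup
  have hz : ∑ u ∈ (symBox l).filter (fun u => ¬ u ≠ 0), (c u : ℝ) ≤
      9 * (l : ℝ) ^ 2 * (if j = 0 then 1 else 0) := by
    have e : (symBox l).filter (fun u => ¬ u ≠ 0) = {0} := by
      ext u
      simp only [mem_filter, mem_singleton, ne_eq, not_not, mem_symBox]
      refine ⟨fun h => h.2, fun h => ⟨?_, h⟩⟩
      subst h
      simp
    rw [e, sum_singleton]
    exact hzero 0 (by rw [e]; exact mem_singleton_self _)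
  have hj0 : (0 : ℝ) ≤ (l : ℝ) ^ 2 * (if j = 0 then 1 else 0) := by
    split_ifs <;> positivity
  rw [hsplit, Nat.cast_sum, ← sum_filter_add_sum_filter_not (symBox l) (fun u => u ≠ 0)]
  rw [mul_add]
  linarith

theorem detRep_le_log {l : ℕ} (hl : 1 ≤ l) (j : ℤ) :
    (detRep l j : ℝ) ≤ 36 * (l : ℝ) ^ 2 * (2 + Real.log l) := by
  refine (detRep_le hl j).trans (mul_le_mul_of_nonneg_left ?_ (by positivity))
  have := divWeight_le l j
  split_ifs <;> linarith

theorem card_dvd_ne_zero (N : ℕ) {g : ℕ} (hg : 0 < g) :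
    ((((Icc (-(N : ℤ)) (N : ℤ)).erase 0).filter fun j => (g : ℤ) ∣ j).card : ℝ) ≤
      2 * (N : ℝ) / (g : ℝ) := by
  have h := card_congr_Icc N hg 0
  simp only [sub_zero] at h
  have e : (((Icc (-(N : ℤ)) (N : ℤ)).erase 0).filter fun j => (g : ℤ) ∣ j) =
      ((Icc (-(N : ℤ)) (N : ℤ)).filter fun j => (g : ℤ) ∣ j).erase 0 := filter_erase _ _ _
  rw [e, card_erase_of_mem (by simp)]
  calc ((((Icc (-(N : ℤ)) (N : ℤ)).filter fun j => (g : ℤ) ∣ j).card - 1 : ℕ) : ℝ)
      ≤ ((2 * N / g : ℕ) : ℝ) := Nat.cast_le.2 (by generalize 2 * N / g = q at h ⊢; omega)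
    _ ≤ ((2 * N : ℕ) : ℝ) / (g : ℝ) := Nat.cast_div_le
    _ = 2 * (N : ℝ) / (g : ℝ) := by push_cast; ring

theorem sum_divWeight (l K : ℕ) :
    ∑ j ∈ (Icc (-(K : ℤ)) (K : ℤ)).erase 0, divWeight l j ≤ 4 * (K : ℝ) := by
  simp only [divWeight]
  rw [sum_comm]
  calc ∑ g ∈ Icc 1 l, ∑ j ∈ (Icc (-(K : ℤ)) (K : ℤ)).erase 0,
        (if (g : ℤ) ∣ j then 1 / (g : ℝ) else 0)
      ≤ ∑ g ∈ Icc 1 l, 2 * (K : ℝ) * (1 / ((g : ℝ) ^ 2)) := by
        refine sum_le_sum fun g hg => ?_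
        have hg0 : 0 < g := (mem_Icc.1 hg).1
        rw [← sum_filter, sum_const, nsmul_eq_mul]
        calc _ ≤ 2 * (K : ℝ) / (g : ℝ) * (1 / (g : ℝ)) := by
              gcongr
              exact card_dvd_ne_zero K hg0
          _ = _ := by ring
    _ = 2 * (K : ℝ) * ∑ g ∈ Icc 1 l, 1 / ((g : ℝ) ^ 2) := by rw [mul_sum]
    _ ≤ 2 * (K : ℝ) * 2 := by gcongr; exact sum_inv_sq l
    _ = 4 * (K : ℝ) := by ring

theorem sum_gcd_le (l : ℕ) :
    ∑ w ∈ Icc 1 l ×ˢ Icc 1 l, (Nat.gcd w.1 w.2 : ℝ) / ((w.1 : ℝ) * (w.2 : ℝ)) ^ 2 ≤ 8 := by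
  set F : ℕ × ℕ × ℕ → ℝ := fun t =>
    1 / (t.1 : ℝ) ^ 2 * (1 / (t.2.1 : ℝ) ^ 2 * (1 / (t.2.2 : ℝ) ^ 2)) with hF
  set G : ℕ × ℕ → ℕ × ℕ × ℕ := fun w =>
    (Nat.gcd w.1 w.2, w.1 / Nat.gcd w.1 w.2, w.2 / Nat.gcd w.1 w.2) with hG
  calc ∑ w ∈ Icc 1 l ×ˢ Icc 1 l, (Nat.gcd w.1 w.2 : ℝ) / ((w.1 : ℝ) * (w.2 : ℝ)) ^ 2
      ≤ ∑ w ∈ Icc 1 l ×ˢ Icc 1 l, F (G w) := by
        refine sum_le_sum fun w hw => ?_
        simp only [mem_product, mem_Icc] at hw
        have hd : 0 < Nat.gcd w.1 w.2 := Nat.gcd_pos_of_pos_left _ (by omega)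
        have hdR : (1 : ℝ) ≤ (Nat.gcd w.1 w.2 : ℝ) := by exact_mod_cast hd
        have h1 : (0 : ℝ) < (w.1 : ℝ) := by exact_mod_cast (by omega : 0 < w.1)
        have h2 : (0 : ℝ) < (w.2 : ℝ) := by exact_mod_cast (by omega : 0 < w.2)
        simp only [hF, hG]
        rw [Nat.cast_div (Nat.gcd_dvd_left _ _) (by positivity),
          Nat.cast_div (Nat.gcd_dvd_right _ _) (by positivity)]
        calc (Nat.gcd w.1 w.2 : ℝ) / ((w.1 : ℝ) * (w.2 : ℝ)) ^ 2
            ≤ (Nat.gcd w.1 w.2 : ℝ) ^ 2 / ((w.1 : ℝ) * (w.2 : ℝ)) ^ 2 := by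
              gcongr
              nlinarith
          _ = _ := by field_simp
    _ = ∑ t ∈ (Icc 1 l ×ˢ Icc 1 l).image G, F t := by
        refine (sum_image ?_).symm
        intro w _ w' _ e
        simp only [hG, Prod.mk.injEq] at e
        obtain ⟨e0, e1, e2⟩ := e
        refine Prod.ext ?_ ?_
        · rw [← Nat.div_mul_cancel (Nat.gcd_dvd_left w.1 w.2),
            ← Nat.div_mul_cancel (Nat.gcd_dvd_left w'.1 w'.2), e1, e0]
        · rw [← Nat.div_mul_cancel (Nat.gcd_dvd_right w.1 w.2),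
            ← Nat.div_mul_cancel (Nat.gcd_dvd_right w'.1 w'.2), e2, e0]
    _ ≤ ∑ t ∈ Icc 1 l ×ˢ (Icc 1 l ×ˢ Icc 1 l), F t := by
        refine sum_le_sum_of_subset_of_nonneg (image_subset_iff.2 fun w hw => ?_)
          fun t _ _ => by simp only [hF]; positivity
        simp only [mem_product, mem_Icc] at hw
        have hd : 0 < Nat.gcd w.1 w.2 := Nat.gcd_pos_of_pos_left _ (by omega)
        have h1 := Nat.le_of_dvd (by omega) (Nat.gcd_dvd_left w.1 w.2)
        have h2 := Nat.le_of_dvd (by omega) (Nat.gcd_dvd_right w.1 w.2)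
        simp only [hG, mem_product, mem_Icc]
        exact ⟨⟨hd, by omega⟩, ⟨Nat.div_pos h1 hd, (Nat.div_le_self _ _).trans (by omega)⟩,
          Nat.div_pos h2 hd, (Nat.div_le_self _ _).trans (by omega)⟩
    _ = (∑ a ∈ Icc 1 l, 1 / (a : ℝ) ^ 2) * ((∑ b ∈ Icc 1 l, 1 / (b : ℝ) ^ 2) *
          ∑ b ∈ Icc 1 l, 1 / (b : ℝ) ^ 2) := by
        simp only [hF, sum_product, ← mul_sum, ← sum_mul]
    _ ≤ 2 * (2 * 2) := by
        gcongr <;> exact sum_inv_sq l
    _ = 8 := by norm_num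

theorem sum_divWeight_sq (l N : ℕ) :
    ∑ j ∈ (Icc (-(N : ℤ)) (N : ℤ)).erase 0, divWeight l j ^ 2 ≤ 16 * (N : ℝ) := by
  set S := (Icc (-(N : ℤ)) (N : ℤ)).erase 0 with hS
  calc ∑ j ∈ S, divWeight l j ^ 2
      = ∑ j ∈ S, ∑ w ∈ Icc 1 l ×ˢ Icc 1 l,
          (if ((Nat.lcm w.1 w.2 : ℕ) : ℤ) ∣ j then 1 / ((w.1 : ℝ) * (w.2 : ℝ)) else 0) := by
        refine sum_congr rfl fun j _ => ?_
        rw [sq, divWeight, sum_mul_sum, ← sum_product']
        refine sum_congr rfl fun w _ => ?_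
        simp only [Int.natCast_dvd, Nat.lcm_dvd_iff]
        split_ifs <;> first | tauto | ring
    _ = ∑ w ∈ Icc 1 l ×ˢ Icc 1 l,
          ((S.filter fun j => ((Nat.lcm w.1 w.2 : ℕ) : ℤ) ∣ j).card : ℝ) *
            (1 / ((w.1 : ℝ) * (w.2 : ℝ))) := by
        rw [sum_comm]
        refine sum_congr rfl fun w _ => ?_
        rw [← sum_filter, sum_const, nsmul_eq_mul]
    _ ≤ ∑ w ∈ Icc 1 l ×ˢ Icc 1 l,
          2 * (N : ℝ) * ((Nat.gcd w.1 w.2 : ℝ) / ((w.1 : ℝ) * (w.2 : ℝ)) ^ 2) := by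
        refine sum_le_sum fun w hw => ?_
        simp only [mem_product, mem_Icc] at hw
        have h1 : (0 : ℝ) < (w.1 : ℝ) := by exact_mod_cast (by omega : 0 < w.1)
        have h2 : (0 : ℝ) < (w.2 : ℝ) := by exact_mod_cast (by omega : 0 < w.2)
        have hl : 0 < Nat.lcm w.1 w.2 := Nat.lcm_pos (by omega) (by omega)
        have hlR : (0 : ℝ) < (Nat.lcm w.1 w.2 : ℝ) := by exact_mod_cast hl
        have e : (Nat.gcd w.1 w.2 : ℝ) * (Nat.lcm w.1 w.2 : ℝ) = (w.1 : ℝ) * (w.2 : ℝ) := by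
          exact_mod_cast Nat.gcd_mul_lcm w.1 w.2
        calc ((S.filter fun j => ((Nat.lcm w.1 w.2 : ℕ) : ℤ) ∣ j).card : ℝ) *
              (1 / ((w.1 : ℝ) * (w.2 : ℝ)))
            ≤ 2 * (N : ℝ) / (Nat.lcm w.1 w.2 : ℝ) * (1 / ((w.1 : ℝ) * (w.2 : ℝ))) := by
              gcongr
              exact card_dvd_ne_zero N hl
          _ = 2 * (N : ℝ) * ((Nat.gcd w.1 w.2 : ℝ) / ((w.1 : ℝ) * (w.2 : ℝ)) ^ 2) := by
              rw [← e]
              have hgR : (0 : ℝ) < (Nat.gcd w.1 w.2 : ℝ) := by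
                exact_mod_cast Nat.gcd_pos_of_pos_left w.2 (by omega : 0 < w.1)
              field_simp
    _ = 2 * (N : ℝ) * ∑ w ∈ Icc 1 l ×ˢ Icc 1 l,
          (Nat.gcd w.1 w.2 : ℝ) / ((w.1 : ℝ) * (w.2 : ℝ)) ^ 2 := by rw [mul_sum]
    _ ≤ 2 * (N : ℝ) * 8 := by gcongr; exact sum_gcd_le l
    _ = 16 * (N : ℝ) := by ring

/-! ### Triples of a square -/

/-- Triples of the square with a given determinant. -/
theorem card_triples_det_le (l : ℕ) (j : ℤ) :
    ((triples (boxPts l)).filter fun t => det3 t.1 t.2.1 t.2.2 = j).card ≤ l ^ 2 * detRep l j := by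
  have hb : (boxPts l).card = l ^ 2 := by
    rw [boxPts, card_product, Int.card_Ico, sq]; simp
  rw [← hb, detRep, ← card_product]
  refine card_le_card_of_injOn (fun t => (t.1, (t.2.1 - t.1, t.2.2 - t.1))) ?_ ?_
  · intro t ht
    simp only [mem_coe, mem_filter] at ht
    simp only [triples, mem_product, boxPts, mem_Ico, det3] at ht
    obtain ⟨⟨⟨h1, h1'⟩, ⟨h2, h2'⟩, h3, h3'⟩, hd⟩ := ht
    simp only [coe_product, coe_filter, Set.mem_prod, Set.mem_ofPred_eq, mem_coe, mem_product,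
      mem_symBox, Prod.fst_sub, Prod.snd_sub]
    refine ⟨?_, ⟨⟨⟨by omega, by omega⟩, by omega, by omega⟩,
      ⟨by omega, by omega⟩, by omega, by omega⟩, hd⟩
    simp only [boxPts, mem_product, mem_Ico]
    exact ⟨h1, h1'⟩
  · intro t _ t' _ e
    simp only [Prod.mk.injEq] at e
    obtain ⟨e1, e2, e3⟩ := e
    refine Prod.ext e1 (Prod.ext ?_ ?_)
    · rw [e1] at e2; exact sub_left_injective e2
    · rw [e1] at e3; exact sub_left_injective e3

theorem abs_det3_le {l : ℕ} {t : Pt ℤ × Pt ℤ × Pt ℤ} (ht : t ∈ triples (boxPts l)) :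
    |det3 t.1 t.2.1 t.2.2| ≤ 2 * (l : ℤ) ^ 2 := by
  simp only [triples, mem_product, boxPts, mem_Ico] at ht
  obtain ⟨⟨⟨a1, b1⟩, a2, b2⟩, ⟨⟨a3, b3⟩, a4, b4⟩, ⟨a5, b5⟩, a6, b6⟩ := ht
  have k : ∀ x y : ℤ, |x| ≤ (l : ℤ) → |y| ≤ (l : ℤ) → |x * y| ≤ (l : ℤ) ^ 2 := fun x y hx hy => by
    rw [abs_mul, sq]; exact mul_le_mul hx hy (abs_nonneg _) (by positivity)
  refine (abs_sub _ _).trans ?_
  have h1 := k (t.2.1.1 - t.1.1) (t.2.2.2 - t.1.2) (abs_le.2 ⟨by omega, by omega⟩)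
    (abs_le.2 ⟨by omega, by omega⟩)
  have h2 := k (t.2.1.2 - t.1.2) (t.2.2.1 - t.1.1) (abs_le.2 ⟨by omega, by omega⟩)
    (abs_le.2 ⟨by omega, by omega⟩)
  linarith

/-- **L1**: lattice triangles of small area. -/
theorem triples_small_det :
    ∃ C : ℝ, 0 < C ∧ ∀ M K : ℕ, 1 ≤ M → 1 ≤ K →
      (((triples (boxPts M)).filter fun t =>
        1 ≤ |det3 t.1 t.2.1 t.2.2| ∧ |det3 t.1 t.2.1 t.2.2| ≤ (K : ℤ)).card : ℝ) ≤
        C * (M : ℝ) ^ 4 * (K : ℝ) := by
  refine ⟨144, by norm_num, fun M K hM _ => ?_⟩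
  set S := (Icc (-(K : ℤ)) (K : ℤ)).erase 0 with hS
  have h1 : ((triples (boxPts M)).filter fun t =>
      1 ≤ |det3 t.1 t.2.1 t.2.2| ∧ |det3 t.1 t.2.1 t.2.2| ≤ (K : ℤ)).card =
      ∑ j ∈ S, ((triples (boxPts M)).filter fun t => det3 t.1 t.2.1 t.2.2 = j).card := by
    rw [card_eq_sum_card_fiberwise (f := fun t => det3 t.1 t.2.1 t.2.2) (t := S)]
    · refine sum_congr rfl fun j hj => congrArg card ?_
      rw [filter_filter]
      refine filter_congr fun t _ => ⟨fun h => h.2, fun h => ⟨?_, h⟩⟩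
      simp only [hS, mem_erase, mem_Icc] at hj
      rw [h]
      exact ⟨Int.one_le_abs hj.1, abs_le.2 hj.2⟩
    · intro t ht
      simp only [coe_filter, Set.mem_ofPred_eq] at ht
      simp only [hS, mem_coe, mem_erase, mem_Icc]
      refine ⟨fun h => ?_, abs_le.1 ht.2.2⟩
      rw [h] at ht
      simp at ht
  rw [h1, Nat.cast_sum]
  calc ∑ j ∈ S, (((triples (boxPts M)).filter fun t => det3 t.1 t.2.1 t.2.2 = j).card : ℝ)
      ≤ ∑ j ∈ S, (M : ℝ) ^ 2 * (36 * (M : ℝ) ^ 2 * divWeight M j) := by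
        refine sum_le_sum fun j hj => ?_
        have hj0 : j ≠ 0 := (mem_erase.1 hj).1
        calc _ ≤ ((M ^ 2 * detRep M j : ℕ) : ℝ) := by exact_mod_cast card_triples_det_le M j
          _ ≤ _ := by
              push_cast
              gcongr
              simpa [hj0] using detRep_le hM j
    _ = 36 * (M : ℝ) ^ 4 * ∑ j ∈ S, divWeight M j := by
        rw [mul_sum]; exact sum_congr rfl fun j _ => by ring
    _ ≤ 36 * (M : ℝ) ^ 4 * (4 * (K : ℝ)) := by gcongr; exact sum_divWeight M K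
    _ = 144 * (M : ℝ) ^ 4 * (K : ℝ) := by ring

theorem det3_castPt (p : ℕ) (x y z : Pt ℤ) :
    det3 (castPt p x) (castPt p y) (castPt p z) = ((det3 x y z : ℤ) : ZMod p) := by
  simp [det3, castPt]

/-- **L2**: triples of determinant zero mod `p`. -/
theorem detCount_zero_le :
    ∀ A : ℝ, 0 < A → ∃ C : ℝ, 0 < C ∧ ∀ (p : ℕ) [Fact p.Prime] (l : ℕ) (T : Finset (Pt ℤ)),
      T ⊆ boxPts l → 1 ≤ l → l < p → (l : ℝ) ^ 2 ≤ A * (p : ℝ) →
        (detCount (T.image (castPt p)) 0 : ℝ) ≤ C * (l : ℝ) ^ 4 * (1 + Real.log p) := by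
  intro A hA
  refine ⟨72 * (1 + 4 * A), by positivity, fun p _ l T hT hl hlp hA' => ?_⟩
  have hp0 : 0 < p := by omega
  have hpR : (0 : ℝ) < (p : ℝ) := by exact_mod_cast hp0
  set J := (Icc (-((2 * l ^ 2 : ℕ) : ℤ)) ((2 * l ^ 2 : ℕ) : ℤ)).filter fun j => (p : ℤ) ∣ j
    with hJ
  set U := (triples (boxPts l)).filter fun t =>
    ((det3 t.1 t.2.1 t.2.2 : ℤ) : ZMod p) = 0 with hU
  have h1 : detCount (T.image (castPt p)) 0 ≤ U.card := by
    refine le_trans ?_ (card_image_le (s := U)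
      (f := fun t => (castPt p t.1, castPt p t.2.1, castPt p t.2.2)))
    refine card_le_card fun w hw => ?_
    simp only [triples, mem_filter, mem_product, mem_image] at hw
    obtain ⟨⟨⟨x, hx, ex⟩, ⟨y, hy, ey⟩, z, hz, ez⟩, hd⟩ := hw
    refine mem_image.2 ⟨(x, y, z), ?_, by rw [ex, ey, ez]⟩
    rw [← ex, ← ey, ← ez, det3_castPt] at hd
    simp only [hU, triples, mem_filter, mem_product]
    exact ⟨⟨hT hx, hT hy, hT hz⟩, hd⟩
  have h2 : U.card = ∑ j ∈ J, (U.filter fun t => det3 t.1 t.2.1 t.2.2 = j).card := by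
    refine card_eq_sum_card_fiberwise fun t ht => ?_
    simp only [hU, coe_filter, Set.mem_ofPred_eq] at ht
    simp only [hJ, coe_filter, Set.mem_ofPred_eq, mem_Icc]
    refine ⟨abs_le.1 ?_, (ZMod.intCast_zmod_eq_zero_iff_dvd _ _).1 ht.2⟩
    exact (abs_det3_le ht.1).trans (le_of_eq (by push_cast; ring))
  have hlog : 2 + Real.log l ≤ 2 * (1 + Real.log p) := by
    have := Real.log_le_log (by exact_mod_cast hl : (0 : ℝ) < (l : ℝ))
      (by exact_mod_cast hlp.le : (l : ℝ) ≤ (p : ℝ))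
    have := Real.log_nonneg (by exact_mod_cast hp0 : (1 : ℝ) ≤ (p : ℝ))
    linarith
  have hJcard : (J.card : ℝ) ≤ 1 + 4 * A := by
    have h := card_congr_Icc (2 * l ^ 2) hp0 0
    simp only [sub_zero] at h
    calc (J.card : ℝ) ≤ ((2 * (2 * l ^ 2) / p + 1 : ℕ) : ℝ) := by exact_mod_cast h
      _ ≤ ((2 * (2 * l ^ 2) : ℕ) : ℝ) / (p : ℝ) + 1 := by
          push_cast
          have := Nat.cast_div_le (m := 2 * (2 * l ^ 2)) (n := p) (α := ℝ)
          push_cast at this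
          linarith
      _ ≤ 1 + 4 * A := by
          have : ((2 * (2 * l ^ 2) : ℕ) : ℝ) / (p : ℝ) ≤ 4 * A := by
            rw [div_le_iff₀ hpR]; push_cast; nlinarith
          linarith
  calc (detCount (T.image (castPt p)) 0 : ℝ)
      ≤ (U.card : ℝ) := by exact_mod_cast h1
    _ = ∑ j ∈ J, ((U.filter fun t => det3 t.1 t.2.1 t.2.2 = j).card : ℝ) := by
        rw [h2, Nat.cast_sum]
    _ ≤ ∑ j ∈ J, (l : ℝ) ^ 2 * (36 * (l : ℝ) ^ 2 * (2 * (1 + Real.log p))) := by
        refine sum_le_sum fun j _ => ?_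
        have h : (U.filter fun t => det3 t.1 t.2.1 t.2.2 = j).card ≤ l ^ 2 * detRep l j :=
          (card_le_card (filter_subset_filter _ (filter_subset _ _))).trans
            (card_triples_det_le l j)
        calc _ ≤ ((l ^ 2 * detRep l j : ℕ) : ℝ) := by exact_mod_cast h
          _ ≤ _ := by
              push_cast
              gcongr
              refine (detRep_le_log hl j).trans ?_
              gcongr
    _ = (J.card : ℝ) * ((l : ℝ) ^ 4 * (72 * (1 + Real.log p))) := by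
        rw [sum_const, nsmul_eq_mul]; ring
    _ ≤ (1 + 4 * A) * ((l : ℝ) ^ 4 * (72 * (1 + Real.log p))) := by
        have := Real.log_nonneg (by exact_mod_cast hp0 : (1 : ℝ) ≤ (p : ℝ))
        gcongr
    _ = 72 * (1 + 4 * A) * (l : ℝ) ^ 4 * (1 + Real.log p) := by ring

theorem injOn_castPt {p l : ℕ} (h : l ≤ p) : Set.InjOn (castPt p) (boxPts l : Finset (Pt ℤ)) := by
  intro x hx y hy e
  simp only [boxPts, coe_product, Set.mem_prod, coe_Ico, Set.mem_Ico] at hx hy
  simp only [castPt, Prod.mk.injEq, ZMod.intCast_eq_intCast_iff'] at e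
  rw [Int.emod_eq_of_lt (by omega) (by omega), Int.emod_eq_of_lt (by omega) (by omega),
    Int.emod_eq_of_lt (by omega) (by omega), Int.emod_eq_of_lt (by omega) (by omega)] at e
  exact Prod.ext e.1 e.2

/-- Parseval for the determinant of a triple. -/
theorem sum_norm_sq_hatDet {p : ℕ} [Fact p.Prime] (S : Finset (Pt (ZMod p))) :
    ∑ s, ‖hatDet S s‖ ^ 2 = (p : ℝ) * (((triples S ×ˢ triples S).filter fun w =>
      det3 w.1.1 w.1.2.1 w.1.2.2 = det3 w.2.1 w.2.2.1 w.2.2.2).card : ℝ) / (S.card : ℝ) ^ 6 := by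
  set d : Pt (ZMod p) × Pt (ZMod p) × Pt (ZMod p) → ZMod p :=
    fun t => det3 t.1 t.2.1 t.2.2 with hd
  have key : ∑ s : ZMod p, ((‖∑ t ∈ triples S, ZMod.stdAddChar (s * d t)‖ ^ 2 : ℝ) : ℂ) =
      (((p : ℝ) * (((triples S ×ˢ triples S).filter fun w => d w.1 = d w.2).card : ℝ) : ℝ) : ℂ) := by
    have hterm : ∀ s : ZMod p,
        ((‖∑ t ∈ triples S, ZMod.stdAddChar (s * d t)‖ ^ 2 : ℝ) : ℂ) =
          ∑ t ∈ triples S, ∑ t' ∈ triples S, ZMod.stdAddChar (s * (d t - d t')) := by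
      intro s
      rw [Complex.ofReal_pow, ← Complex.mul_conj', map_sum, sum_mul_sum]
      refine sum_congr rfl fun t _ => sum_congr rfl fun t' _ => ?_
      rw [← AddChar.map_neg_eq_conj, ← AddChar.map_add_eq_mul, mul_sub, sub_eq_add_neg]
    simp only [hterm]
    rw [sum_comm]
    simp_rw [sum_comm (s := (univ : Finset (ZMod p))),
      AddChar.sum_mulShift _ (ZMod.isPrimitive_stdAddChar p), ZMod.card, sub_eq_zero]
    rw [card_filter, sum_product]
    push_cast
    rw [mul_sum]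
    refine sum_congr rfl fun t _ => ?_
    rw [mul_sum]
    refine sum_congr rfl fun t' _ => ?_
    split_ifs <;> simp
  have key' := Complex.ofReal_injective ((Complex.ofReal_sum _ _).trans key)
  rw [← key', sum_div]
  refine sum_congr rfl fun s _ => ?_
  simp only [hatDet, norm_div, norm_pow, Complex.norm_natCast, div_pow, ← pow_mul, hd]

/-- **L3**: the second moment of the determinant of a small square mod `p`. -/
theorem boxSet_card_hat_le :
    ∃ C : ℝ, 0 < C ∧ ∀ (p : ℕ) [Fact p.Prime] (l : ℕ), 1 ≤ l → 8 * l ^ 2 ≤ p →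
      (boxSet p l).card = l ^ 2 ∧
        ∑ s, ‖hatDet (boxSet p l) s‖ ^ 2 ≤ C * (p : ℝ) / (l : ℝ) ^ 2 := by
  refine ⟨60000, by norm_num, fun p _ l hl hp => ?_⟩
  have hlp : l ≤ p := by nlinarith
  have hinj := injOn_castPt (p := p) hlp
  have hb : (boxPts l).card = l ^ 2 := by
    rw [boxPts, card_product, Int.card_Ico, sq]; simp
  have hcard : (boxSet p l).card = l ^ 2 := by rw [boxSet, card_image_of_injOn hinj, hb]
  refine ⟨hcard, ?_⟩
  have hlR : (1 : ℝ) ≤ (l : ℝ) := by exact_mod_cast hl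
  set Z := triples (boxPts l) with hZ
  set J := Icc (-((2 * l ^ 2 : ℕ) : ℤ)) ((2 * l ^ 2 : ℕ) : ℤ) with hJ
  set cnt : ℤ → ℕ := fun j => (Z.filter fun t => det3 t.1 t.2.1 t.2.2 = j).card with hcnt
  set d : Pt ℤ × Pt ℤ × Pt ℤ → ℤ := fun t => det3 t.1 t.2.1 t.2.2 with hd
  have hpairs : (((triples (boxSet p l) ×ˢ triples (boxSet p l)).filter fun w =>
      det3 w.1.1 w.1.2.1 w.1.2.2 = det3 w.2.1 w.2.2.1 w.2.2.2).card) ≤
      ∑ j ∈ J, cnt j ^ 2 := by
    set F : Pt ℤ × Pt ℤ × Pt ℤ → Pt (ZMod p) × Pt (ZMod p) × Pt (ZMod p) :=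
      fun t => (castPt p t.1, castPt p t.2.1, castPt p t.2.2) with hF
    set V := (Z ×ˢ Z).filter fun w => d w.1 = d w.2 with hV
    have h1 : (((triples (boxSet p l) ×ˢ triples (boxSet p l)).filter fun w =>
        det3 w.1.1 w.1.2.1 w.1.2.2 = det3 w.2.1 w.2.2.1 w.2.2.2).card) ≤ V.card := by
      refine le_trans ?_ (card_image_le (s := V) (f := fun w => (F w.1, F w.2)))
      refine card_le_card fun w hw => ?_
      simp only [triples, mem_filter, mem_product, boxSet, mem_image] at hw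
      obtain ⟨⟨⟨⟨x, hx, ex⟩, ⟨y, hy, ey⟩, z, hz, ez⟩,
        ⟨x', hx', ex'⟩, ⟨y', hy', ey'⟩, z', hz', ez'⟩, he⟩ := hw
      refine mem_image.2 ⟨((x, y, z), (x', y', z')), ?_, ?_⟩
      · have m1 : (x, y, z) ∈ Z := by simp [hZ, triples, hx, hy, hz]
        have m2 : (x', y', z') ∈ Z := by simp [hZ, triples, hx', hy', hz']
        rw [← ex, ← ey, ← ez, ← ex', ← ey', ← ez', det3_castPt, det3_castPt,
          ZMod.intCast_eq_intCast_iff_dvd_sub] at he
        simp only [hV, mem_filter, mem_product, m1, m2, true_and, hd]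
        have b1 := abs_le.1 (abs_det3_le m1)
        have b2 := abs_le.1 (abs_det3_le m2)
        simp only at b1 b2
        have hp' : 8 * (l : ℤ) ^ 2 ≤ (p : ℤ) := by exact_mod_cast hp
        have hl2 : (0 : ℤ) < (l : ℤ) ^ 2 := by positivity
        have := Int.eq_zero_of_abs_lt_dvd he (abs_lt.2 ⟨by linarith, by linarith⟩)
        linarith
      · simp only [hF, ex, ey, ez, ex', ey', ez']
    refine h1.trans (le_of_eq ?_)
    rw [card_eq_sum_card_fiberwise (f := fun w => d w.1) (t := J)]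
    · refine sum_congr rfl fun j _ => ?_
      rw [sq, ← card_product]
      refine congrArg card ?_
      ext w
      simp only [hV, hd, mem_filter, mem_product]
      constructor
      · rintro ⟨⟨⟨a, b⟩, c⟩, e⟩; exact ⟨⟨a, e⟩, b, c.symm.trans e⟩
      · rintro ⟨⟨a, e⟩, b, e'⟩; exact ⟨⟨⟨a, b⟩, e.trans e'.symm⟩, e⟩
    · intro w hw
      simp only [hV, coe_filter, Set.mem_ofPred_eq, mem_product] at hw
      simp only [hJ, hd, coe_Icc, Set.mem_Icc]
      exact abs_le.1 ((abs_det3_le hw.1.1).trans (le_of_eq (by push_cast; ring)))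
  have hcb : ∀ j, (cnt j : ℝ) ≤
      (l : ℝ) ^ 2 * (36 * (l : ℝ) ^ 2 * ((if j = 0 then 1 else 0) + divWeight l j)) := by
    intro j
    calc (cnt j : ℝ) ≤ ((l ^ 2 * detRep l j : ℕ) : ℝ) := by exact_mod_cast card_triples_det_le l j
      _ ≤ _ := by
          push_cast
          gcongr
          exact detRep_le hl j
  have hsum : ∑ j ∈ J, ((cnt j : ℝ) ^ 2) ≤ 60000 * (l : ℝ) ^ 10 := by
    have h0 : (0 : ℤ) ∈ J := by simp [hJ]
    have hlog : 2 + Real.log l ≤ 3 * (l : ℝ) := by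
      have := Real.log_le_sub_one_of_pos (by linarith : (0 : ℝ) < (l : ℝ))
      linarith
    rw [← add_sum_erase J _ h0]
    have hA : ((cnt 0 : ℝ)) ^ 2 ≤ ((l : ℝ) ^ 2 * (36 * (l : ℝ) ^ 2 * (3 * (l : ℝ)))) ^ 2 := by
      gcongr
      refine (hcb 0).trans ?_
      gcongr
      have := divWeight_le l 0
      rw [if_pos rfl]
      linarith
    have hB : ∑ j ∈ J.erase 0, (cnt j : ℝ) ^ 2 ≤
        1296 * (l : ℝ) ^ 8 * (16 * ((2 * l ^ 2 : ℕ) : ℝ)) := by
      calc ∑ j ∈ J.erase 0, (cnt j : ℝ) ^ 2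
          ≤ ∑ j ∈ J.erase 0, 1296 * (l : ℝ) ^ 8 * divWeight l j ^ 2 := by
            refine sum_le_sum fun j hj => ?_
            have hj0 : j ≠ 0 := (mem_erase.1 hj).1
            have h := pow_le_pow_left₀ (by positivity) (hcb j) 2
            rw [if_neg hj0] at h
            refine h.trans (le_of_eq ?_)
            ring
        _ = 1296 * (l : ℝ) ^ 8 * ∑ j ∈ J.erase 0, divWeight l j ^ 2 := by rw [mul_sum]
        _ ≤ _ := by
            gcongr
            exact sum_divWeight_sq l (2 * l ^ 2)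
    have h10 : (0 : ℝ) ≤ (l : ℝ) ^ 10 := by positivity
    push_cast at hB
    linarith [show ((l : ℝ) ^ 2 * (36 * (l : ℝ) ^ 2 * (3 * (l : ℝ)))) ^ 2 = 11664 * (l : ℝ) ^ 10 by
      ring, show 1296 * (l : ℝ) ^ 8 * (16 * (2 * (l : ℝ) ^ 2)) = 41472 * (l : ℝ) ^ 10 by ring]
  rw [sum_norm_sq_hatDet, hcard]
  have hl0 : (0 : ℝ) < (l : ℝ) := by linarith
  calc (p : ℝ) * (((triples (boxSet p l) ×ˢ triples (boxSet p l)).filter fun w =>
        det3 w.1.1 w.1.2.1 w.1.2.2 = det3 w.2.1 w.2.2.1 w.2.2.2).card : ℝ) /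
        ((l ^ 2 : ℕ) : ℝ) ^ 6
      ≤ (p : ℝ) * (60000 * (l : ℝ) ^ 10) / ((l ^ 2 : ℕ) : ℝ) ^ 6 := by
        gcongr
        refine le_trans ?_ hsum
        exact_mod_cast hpairs
    _ = 60000 * (p : ℝ) / (l : ℝ) ^ 2 := by
        push_cast
        field_simp

end Vale.P036.Cascade
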