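import Mathlib
import Vale.Agent.P036.Cascade.Defs
import Vale.Agent.P036.Cascade.Lattice

/-!
# P036 cascade construction: weighted collinear triples

A collinear triple of the square `[0,M)²` is `x, x + a u, x + b u` with `max |a| |b| ≈ 2^k` and
`|u| ≤ M / 2^k`. Once `2^k` exceeds the product of the primes, a product of local weights is at
most its average.
-/

namespace Vale.P036.Cascade

open Finset
open scoped Classical

/-- A collinear triple of the square has a direction and two integer positions. -/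
theorem exists_collinear_param {M L : ℕ} (hL : M ≤ 2 ^ L) {t : Pt ℤ × Pt ℤ × Pt ℤ}
    (ht : t ∈ triples (boxPts M)) (h12 : t.1 ≠ t.2.1) (h13 : t.1 ≠ t.2.2) (h23 : t.2.1 ≠ t.2.2)
    (hdet : det3 t.1 t.2.1 t.2.2 = 0) :
    ∃ (k : ℕ) (a b : ℤ) (u : Pt ℤ), k ≤ L ∧ (a, b) ∈ symBox (2 ^ (k + 1)) ∧
      u ∈ symBox (M / 2 ^ k) ∧ u ≠ 0 ∧ a ≠ 0 ∧ b ≠ 0 ∧ a ≠ b ∧ |a| ≤ (M : ℤ) ∧ |b| ≤ (M : ℤ) ∧
      |u.1| ≤ (M : ℤ) ∧ |u.2| ≤ (M : ℤ) ∧
      t = (t.1, t.1 + a • u, t.1 + b • u) := by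
  simp only [triples, mem_product, boxPts, mem_Ico] at ht
  obtain ⟨⟨⟨x1, x1'⟩, x2, x2'⟩, ⟨⟨y1, y1'⟩, y2, y2'⟩, ⟨z1, z1'⟩, z2, z2'⟩ := ht
  obtain ⟨x, y, z⟩ := t
  simp only at x1 x1' x2 x2' y1 y1' y2 y2' z1 z1' z2 z2' h12 h13 h23
  have hg : 0 < Int.gcd (y.1 - x.1) (y.2 - x.2) := by
    refine Int.gcd_pos_iff.2 ?_
    by_contra h
    exact h12 (Prod.ext (by omega) (by omega))
  obtain ⟨v1, v2, hv, hd1, hd2⟩ := Int.exists_gcd_one hg
  set g : ℤ := (Int.gcd (y.1 - x.1) (y.2 - x.2) : ℤ) with hgdef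
  have hg0 : g ≠ 0 := by omega
  obtain ⟨r, s, hrs⟩ := Int.isCoprime_iff_gcd_eq_one.2 hv
  have hperp : v1 * (z.2 - x.2) = v2 * (z.1 - x.1) := by
    refine mul_left_cancel₀ hg0 ?_
    simp only [det3, hd1, hd2] at hdet
    linear_combination hdet
  set c : ℤ := r * (z.1 - x.1) + s * (z.2 - x.2) with hc
  have hc1 : c * v1 = z.1 - x.1 := by
    rw [hc]; linear_combination (z.1 - x.1) * hrs + s * hperp
  have hc2 : c * v2 = z.2 - x.2 := by
    rw [hc]; linear_combination (z.2 - x.2) * hrs - r * hperp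
  have hv0 : v1 ≠ 0 ∨ v2 ≠ 0 := (Int.isCoprime_iff_gcd_eq_one.2 hv).ne_zero_or_ne_zero
  have hc0 : c ≠ 0 := by
    intro h
    rw [h, zero_mul] at hc1 hc2
    exact h13 (Prod.ext (by omega) (by omega))
  have hgc : g ≠ c := by
    intro h
    exact h23 (Prod.ext (by rw [← h, mul_comm] at hc1; omega) (by rw [← h, mul_comm] at hc2; omega))
  have ey : y = x + g • (v1, v2) := by
    refine Prod.ext ?_ ?_ <;>
      simp only [Prod.fst_add, Prod.snd_add, Prod.smul_fst, Prod.smul_snd, smul_eq_mul]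
    · linarith
    · linarith
  have ez : z = x + c • (v1, v2) := by
    refine Prod.ext ?_ ?_ <;>
      simp only [Prod.fst_add, Prod.snd_add, Prod.smul_fst, Prod.smul_snd, smul_eq_mul] <;> omega
  set A := g.natAbs with hA
  set C := c.natAbs with hC
  set m := max A C with hm
  have bnd : A * v1.natAbs ≤ M ∧ A * v2.natAbs ≤ M ∧ C * v1.natAbs ≤ M ∧ C * v2.natAbs ≤ M := by
    rw [hA, hC, ← Int.natAbs_mul, ← Int.natAbs_mul, ← Int.natAbs_mul, ← Int.natAbs_mul]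
    have e1 : g * v1 = y.1 - x.1 := by linarith
    have e2 : g * v2 = y.2 - x.2 := by linarith
    rw [e1, e2, hc1, hc2]
    omega
  have hm1 : m * v1.natAbs ≤ M ∧ m * v2.natAbs ≤ M := by
    rcases max_cases A C with ⟨h, -⟩ | ⟨h, -⟩ <;> rw [hm, h]
    exacts [⟨bnd.1, bnd.2.1⟩, ⟨bnd.2.2.1, bnd.2.2.2⟩]
  have hAm : A ≤ m := le_max_left _ _
  have hCm : C ≤ m := le_max_right _ _
  have hA1 : 1 ≤ A := Int.natAbs_pos.2 hg0
  have hm0 : m ≠ 0 := by omega
  have hmM : m ≤ M := by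
    rcases hv0 with h | h
    · exact (Nat.le_mul_of_pos_right m (Int.natAbs_pos.2 h)).trans hm1.1
    · exact (Nat.le_mul_of_pos_right m (Int.natAbs_pos.2 h)).trans hm1.2
  set k := Nat.log 2 m with hk
  have hk1 : 2 ^ k ≤ m := Nat.pow_log_le_self 2 hm0
  have hk2 : m < 2 ^ (k + 1) := Nat.lt_pow_succ_log_self (by norm_num) m
  have hkL : k ≤ L := (Nat.pow_le_pow_iff_right (by norm_num)).1 (hk1.trans (hmM.trans hL))
  have hu1 : v1.natAbs ≤ M / 2 ^ k := by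
    rw [Nat.le_div_iff_mul_le (by positivity)]
    calc v1.natAbs * 2 ^ k ≤ v1.natAbs * m := Nat.mul_le_mul_left _ hk1
      _ ≤ M := by rw [mul_comm]; exact hm1.1
  have hu2 : v2.natAbs ≤ M / 2 ^ k := by
    rw [Nat.le_div_iff_mul_le (by positivity)]
    calc v2.natAbs * 2 ^ k ≤ v2.natAbs * m := Nat.mul_le_mul_left _ hk1
      _ ≤ M := by rw [mul_comm]; exact hm1.2
  have hu1M : v1.natAbs ≤ M := hu1.trans (Nat.div_le_self _ _)
  have hu2M : v2.natAbs ≤ M := hu2.trans (Nat.div_le_self _ _)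
  refine ⟨k, g, c, (v1, v2), hkL, ?_, ?_, ?_, hg0, hc0, hgc, ?_, ?_, ?_, ?_, ?_⟩
  · simp only [mem_symBox]; omega
  · simp only [mem_symBox]; omega
  · simp only [ne_eq, Prod.mk_eq_zero]; omega
  · rw [Int.abs_eq_natAbs]; omega
  · rw [Int.abs_eq_natAbs]; omega
  · rw [Int.abs_eq_natAbs]; omega
  · rw [Int.abs_eq_natAbs]; omega
  · show (x, y, z) = _
    rw [← ey, ← ez]

/-- Nonzero vectors of a square divisible by `q`. -/
theorem card_multiples (U : ℕ) {q : ℕ} (hq : 0 < q) :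
    ((((symBox U).filter fun u => u ≠ 0).filter
        fun u => (q : ℤ) ∣ u.1 ∧ (q : ℤ) ∣ u.2).card : ℝ) ≤ 8 * ((U : ℝ) / (q : ℝ)) ^ 2 := by
  set n := U / q with hn
  have hsub : ((symBox U).filter fun u => u ≠ 0).filter
      (fun u => (q : ℤ) ∣ u.1 ∧ (q : ℤ) ∣ u.2) ⊆
        (((symBox n).erase 0).image fun v : Pt ℤ => ((q : ℤ) * v.1, (q : ℤ) * v.2)) := by
    intro u hu
    simp only [mem_filter, mem_symBox] at hu
    obtain ⟨⟨hbox, hne⟩, ⟨a, ha⟩, b, hb⟩ := hu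
    have hA : a.natAbs ≤ n := by
      rw [hn, Nat.le_div_iff_mul_le hq]
      have h := congrArg Int.natAbs ha
      rw [Int.natAbs_mul, Int.natAbs_natCast, mul_comm] at h
      omega
    have hB : b.natAbs ≤ n := by
      rw [hn, Nat.le_div_iff_mul_le hq]
      have h := congrArg Int.natAbs hb
      rw [Int.natAbs_mul, Int.natAbs_natCast, mul_comm] at h
      omega
    refine mem_image.2 ⟨(a, b), ?_, Prod.ext ha.symm hb.symm⟩
    simp only [mem_erase, mem_symBox, ne_eq, Prod.mk_eq_zero]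
    refine ⟨fun h => hne (Prod.ext ?_ ?_), by omega, by omega⟩
    · rw [ha, h.1, mul_zero]; rfl
    · rw [hb, h.2, mul_zero]; rfl
  have h0 : (0 : Pt ℤ) ∈ symBox n := by simp [mem_symBox]
  have hcard : (((symBox U).filter fun u => u ≠ 0).filter
      fun u => (q : ℤ) ∣ u.1 ∧ (q : ℤ) ∣ u.2).card ≤ 8 * n ^ 2 := by
    refine (card_le_card hsub).trans (card_image_le.trans ?_)
    rw [card_erase_of_mem h0, symBox, card_product, Int.card_Icc,
      show ((n : ℤ) + 1 - -(n : ℤ)).toNat = 2 * n + 1 by omega, Nat.sub_le_iff_le_add]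
    nlinarith [Nat.le_self_pow two_ne_zero n]
  calc _ ≤ ((8 * n ^ 2 : ℕ) : ℝ) := by exact_mod_cast hcard
    _ ≤ _ := by
        push_cast
        gcongr
        exact Nat.cast_div_le

variable {ι : Type} {p : ι → ℕ}

theorem sum_dvd_weights (hp : ∀ i, (p i).Prime) (hinj : Function.Injective p) {R : ι → ℝ}
    (hR : ∀ i, 0 ≤ R i) (U : ℕ) (T : Finset ι) :
    ∑ u ∈ (symBox U).filter (fun u => u ≠ 0),
        ∏ i ∈ T, (if (p i : ℤ) ∣ u.1 ∧ (p i : ℤ) ∣ u.2 then R i else 0) ≤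
      (∏ i ∈ T, R i) * (8 * ((U : ℝ) / ∏ i ∈ T, (p i : ℝ)) ^ 2) := by
  set q := ∏ i ∈ T, p i with hq
  have hq0 : 0 < q := prod_pos fun i _ => (hp i).pos
  have hdvd : ∀ z : ℤ, (∀ i ∈ T, (p i : ℤ) ∣ z) ↔ (q : ℤ) ∣ z := by
    intro z
    rw [hq, Nat.cast_prod]
    refine ⟨fun h => Finset.prod_dvd_of_coprime ?_ h,
      fun h i hi => (dvd_prod_of_mem (fun i => (p i : ℤ)) hi).trans h⟩
    intro i _ j _ hij
    exact Nat.isCoprime_iff_coprime.2
      ((Nat.coprime_primes (hp i) (hp j)).2 fun e => hij (hinj e))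
  calc ∑ u ∈ (symBox U).filter (fun u => u ≠ 0),
        ∏ i ∈ T, (if (p i : ℤ) ∣ u.1 ∧ (p i : ℤ) ∣ u.2 then R i else 0)
      = ∑ u ∈ (symBox U).filter (fun u => u ≠ 0),
          if (q : ℤ) ∣ u.1 ∧ (q : ℤ) ∣ u.2 then ∏ i ∈ T, R i else 0 := by
        refine sum_congr rfl fun u _ => ?_
        simp only [← hdvd]
        by_cases h : ∀ i ∈ T, (p i : ℤ) ∣ u.1 ∧ (p i : ℤ) ∣ u.2
        · rw [if_pos ⟨fun i hi => (h i hi).1, fun i hi => (h i hi).2⟩]
          exact prod_congr rfl fun i hi => if_pos (h i hi)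
        · rw [if_neg fun h' => h fun i hi => ⟨h'.1 i hi, h'.2 i hi⟩]
          obtain ⟨i, hi, hni⟩ : ∃ i ∈ T, ¬ ((p i : ℤ) ∣ u.1 ∧ (p i : ℤ) ∣ u.2) := by
            by_contra hc
            exact h fun i hi => by_contra fun hh => hc ⟨i, hi, hh⟩
          exact prod_eq_zero hi (if_neg hni)
    _ = (∏ i ∈ T, R i) * ((((symBox U).filter fun u => u ≠ 0).filter
          fun u => (q : ℤ) ∣ u.1 ∧ (q : ℤ) ∣ u.2).card : ℝ) := by
        rw [← sum_filter, sum_const, nsmul_eq_mul, mul_comm]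
    _ ≤ _ := by
        have : (q : ℝ) = ∏ i ∈ T, (p i : ℝ) := by rw [hq]; push_cast; rfl
        rw [← this]
        exact mul_le_mul_of_nonneg_left (card_multiples U hq0) (prod_nonneg fun i _ => hR i)

theorem sum_class_weights [∀ i, NeZero (p i)] (hp : ∀ i, (p i).Prime)
    (hinj : Function.Injective p) {ψ : ∀ i, ZMod (p i) → ZMod (p i) → ℝ}
    (hψ : ∀ i a b, 0 ≤ ψ i a b) (N : ℕ) (S : Finset ι) (hN : ∏ i ∈ S, p i ≤ N) :
    ∑ w ∈ symBox N, ∏ i ∈ S, ψ i (w.1 : ZMod (p i)) (w.2 : ZMod (p i)) ≤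
      (3 * (N : ℝ) / ∏ i ∈ S, (p i : ℝ)) ^ 2 * ∏ i ∈ S, ∑ a, ∑ b, ψ i a b := by
  set q := ∏ i ∈ S, p i with hq
  have hq0 : 0 < q := prod_pos fun i _ => (hp i).pos
  have hqR : (q : ℝ) = ∏ i ∈ S, (p i : ℝ) := by rw [hq]; push_cast; rfl
  rw [← hqR]
  set red : Pt ℤ → (∀ i : {i // i ∈ S}, ZMod (p i) × ZMod (p i)) :=
    fun w i => ((w.1 : ZMod (p i)), (w.2 : ZMod (p i))) with hred
  have hclass : ∀ r, ((((symBox N).filter fun w => red w = r).card : ℝ)) ≤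
      (3 * (N : ℝ) / (q : ℝ)) ^ 2 := by
    intro r
    rcases ((symBox N).filter fun w => red w = r).eq_empty_or_nonempty with h | ⟨w0, hw0⟩
    · rw [h]; simp only [card_empty, Nat.cast_zero]; positivity
    have hsub : ((symBox N).filter fun w => red w = r) ⊆
        ((Icc (-(N : ℤ)) (N : ℤ)).filter fun x => (q : ℤ) ∣ x - w0.1) ×ˢ
          ((Icc (-(N : ℤ)) (N : ℤ)).filter fun x => (q : ℤ) ∣ x - w0.2) := by
      intro w hw
      simp only [mem_filter, mem_symBox] at hw hw0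
      have e : ∀ i (hi : i ∈ S), ((w.1 : ZMod (p i)) = (w0.1 : ZMod (p i))) ∧
          ((w.2 : ZMod (p i)) = (w0.2 : ZMod (p i))) := by
        intro i hi
        have h := congrFun (hw.2.trans hw0.2.symm) ⟨i, hi⟩
        simp only [hred, Prod.mk.injEq] at h
        exact h
      have hd : ∀ z z' : ℤ, (∀ i ∈ S, (z : ZMod (p i)) = (z' : ZMod (p i))) →
          (q : ℤ) ∣ z - z' := by
        intro z z' h
        rw [hq, Nat.cast_prod]
        refine Finset.prod_dvd_of_coprime ?_ fun i hi => ?_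
        · intro i _ j _ hij
          exact Nat.isCoprime_iff_coprime.2
            ((Nat.coprime_primes (hp i) (hp j)).2 fun e => hij (hinj e))
        · exact (ZMod.intCast_eq_intCast_iff_dvd_sub _ _ _).1 (h i hi).symm
      simp only [mem_product, mem_filter, mem_Icc]
      exact ⟨⟨hw.1.1, hd _ _ fun i hi => (e i hi).1⟩, ⟨hw.1.2, hd _ _ fun i hi => (e i hi).2⟩⟩
    have h2 : ∀ c : ℤ, ((((Icc (-(N : ℤ)) (N : ℤ)).filter fun x => (q : ℤ) ∣ x - c).card : ℝ)) ≤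
        3 * (N : ℝ) / (q : ℝ) := by
      intro c
      have hqR0 : (0 : ℝ) < (q : ℝ) := by exact_mod_cast hq0
      calc _ ≤ ((2 * N / q + 1 : ℕ) : ℝ) := by exact_mod_cast card_congr_Icc N hq0 c
        _ ≤ 2 * (N : ℝ) / (q : ℝ) + 1 := by
            have := Nat.cast_div_le (m := 2 * N) (n := q) (α := ℝ)
            push_cast at this ⊢
            linarith
        _ ≤ _ := by
            rw [div_add_one hqR0.ne']
            refine div_le_div_of_nonneg_right ?_ hqR0.le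
            have : (q : ℝ) ≤ (N : ℝ) := by exact_mod_cast hN
            linarith
    calc (((symBox N).filter fun w => red w = r).card : ℝ)
        ≤ _ := Nat.cast_le.2 (card_le_card hsub)
      _ = _ * _ := by rw [card_product, Nat.cast_mul]
      _ ≤ (3 * (N : ℝ) / (q : ℝ)) * (3 * (N : ℝ) / (q : ℝ)) :=
          mul_le_mul (h2 _) (h2 _) (by positivity) (by positivity)
      _ = _ := (sq _).symm
  calc ∑ w ∈ symBox N, ∏ i ∈ S, ψ i (w.1 : ZMod (p i)) (w.2 : ZMod (p i))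
      = ∑ w ∈ symBox N, ∏ i : {i // i ∈ S}, ψ i (red w i).1 (red w i).2 := by
        refine sum_congr rfl fun w _ => ?_
        rw [← prod_coe_sort]
    _ = ∑ r, ∑ w ∈ (symBox N).filter (fun w => red w = r),
          ∏ i : {i // i ∈ S}, ψ i (r i).1 (r i).2 := by
        rw [← sum_fiberwise (symBox N) red]
        refine sum_congr rfl fun r _ => sum_congr rfl fun w hw => ?_
        rw [(mem_filter.1 hw).2]
    _ ≤ ∑ r : (∀ i : {i // i ∈ S}, ZMod (p i) × ZMod (p i)),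
          (3 * (N : ℝ) / (q : ℝ)) ^ 2 * ∏ i : {i // i ∈ S}, ψ i (r i).1 (r i).2 := by
        refine sum_le_sum fun r _ => ?_
        rw [sum_const, nsmul_eq_mul]
        exact mul_le_mul_of_nonneg_right (hclass r) (prod_nonneg fun i _ => hψ _ _ _)
    _ = (3 * (N : ℝ) / (q : ℝ)) ^ 2 * ∏ i ∈ S, ∑ a, ∑ b, ψ i a b := by
        rw [← mul_sum, ← prod_coe_sort]
        congr 1
        rw [← Fintype.prod_sum (f := fun (i : {i // i ∈ S}) (c : ZMod (p i) × ZMod (p i)) =>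
          ψ i c.1 c.2)]
        refine prod_congr rfl fun i _ => ?_
        rw [Fintype.sum_prod_type]

/-- **Collinear triples**: weights that are bounded by `A` at small height, and by `A` plus a
product of local weights at large height, add up to `(L+1) M⁴ (A + B ∏ average)`. -/
theorem collinear_sum_le : ∃ C : ℝ, 0 < C ∧
    ∀ {ι : Type} [Fintype ι] (p : ι → ℕ) (_ : ∀ i, (p i).Prime) (_ : Function.Injective p)
      [∀ i, NeZero (p i)] (ψ : ∀ i, ZMod (p i) → ZMod (p i) → ℝ) (R : ι → ℝ)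
      (_ : ∀ i a b, 0 ≤ ψ i a b) (_ : ∀ i, 0 ≤ R i) (M L H : ℕ) (_ : 1 ≤ M)
      (_ : ∏ i, p i ≤ H) (_ : M ≤ 2 ^ L) (A B : ℝ) (_ : 0 ≤ A) (_ : 0 ≤ B)
      (f : Pt ℤ × Pt ℤ × Pt ℤ → ℝ)
      (_ : ∀ (x u : Pt ℤ) (a b : ℤ), x ∈ boxPts M → x + a • u ∈ boxPts M →
        x + b • u ∈ boxPts M → a ≠ 0 → b ≠ 0 → a ≠ b → u ≠ 0 → |a| ≤ (M : ℤ) → |b| ≤ (M : ℤ) →
        |u.1| ≤ (M : ℤ) → |u.2| ≤ (M : ℤ) →
        f (x, x + a • u, x + b • u) ≤ A + (if |a| ≤ (H : ℤ) ∧ |b| ≤ (H : ℤ) then 0 else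
          B * ∏ i, ((if (p i : ℤ) ∣ u.1 ∧ (p i : ℤ) ∣ u.2 then R i else 0) +
            ψ i (a : ZMod (p i)) (b : ZMod (p i))))),
      ∑ t ∈ (triples (boxPts M)).filter (fun t =>
          t.1 ≠ t.2.1 ∧ t.1 ≠ t.2.2 ∧ t.2.1 ≠ t.2.2 ∧ det3 t.1 t.2.1 t.2.2 = 0), f t ≤
        C * ((L : ℝ) + 1) * (M : ℝ) ^ 4 *
          (A + B * ∏ i, ((R i + ∑ a, ∑ b, ψ i a b) / (p i : ℝ) ^ 2)) := by
  refine ⟨288, by norm_num, ?_⟩
  intro ι _ p hp hinj _ ψ R hψ hR M L H _ hH hL A B hA hB f hf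
  set W : Pt ℤ → Pt ℤ → ℝ := fun w u =>
    ∏ i, ((if (p i : ℤ) ∣ u.1 ∧ (p i : ℤ) ∣ u.2 then R i else 0) +
      ψ i (w.1 : ZMod (p i)) (w.2 : ZMod (p i))) with hW
  have hW0 : ∀ w u, 0 ≤ W w u := fun w u => by
    refine prod_nonneg fun i _ => add_nonneg ?_ (hψ _ _ _)
    split_ifs
    exacts [hR i, le_rfl]
  set G : (Σ _ : ℕ, Pt ℤ × Pt ℤ × Pt ℤ) → ℝ := fun w =>
    A + if H < 2 ^ (w.1 + 1) then B * W w.2.2.1 w.2.2.2 else 0 with hG
  have hG0 : ∀ w, 0 ≤ G w := fun w => by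
    simp only [hG]
    have := mul_nonneg hB (hW0 w.2.2.1 w.2.2.2)
    split_ifs <;> linarith
  set Par := (range (L + 1)).sigma fun k =>
    boxPts M ×ˢ (symBox (2 ^ (k + 1)) ×ˢ (symBox (M / 2 ^ k)).filter fun u => u ≠ 0) with hPar
  set S := (triples (boxPts M)).filter (fun t =>
    t.1 ≠ t.2.1 ∧ t.1 ≠ t.2.2 ∧ t.2.1 ≠ t.2.2 ∧ det3 t.1 t.2.1 t.2.2 = 0) with hS
  set φ : (Σ _ : ℕ, Pt ℤ × Pt ℤ × Pt ℤ) → Pt ℤ × Pt ℤ × Pt ℤ :=
    fun w => (w.2.1, w.2.1 + w.2.2.1.1 • w.2.2.2, w.2.1 + w.2.2.1.2 • w.2.2.2) with hφ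
  have key : ∀ t ∈ S, ∃ w ∈ Par, φ w = t ∧ f t ≤ G w := by
    intro t ht
    simp only [hS, mem_filter] at ht
    obtain ⟨k, a, b, u, hk, hab, hu, hu0, ha0, hb0, hne, haM, hbM, hu1, hu2, et⟩ :=
      exists_collinear_param hL ht.1 ht.2.1 ht.2.2.1 ht.2.2.2.1 ht.2.2.2.2
    have hx := (mem_product.1 ht.1).1
    have hy := (mem_product.1 (mem_product.1 ht.1).2).1
    have hz := (mem_product.1 (mem_product.1 ht.1).2).2
    refine ⟨⟨k, t.1, (a, b), u⟩, ?_, et.symm, ?_⟩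
    · simp only [hPar, mem_sigma, mem_range, mem_product, mem_filter]
      exact ⟨Nat.lt_succ_of_le hk, hx, hab, hu, hu0⟩
    · have e1 : t.2.1 = t.1 + a • u := congrArg (fun q => q.2.1) et
      have e2 : t.2.2 = t.1 + b • u := congrArg (fun q => q.2.2) et
      rw [e1] at hy
      rw [e2] at hz
      have h := hf t.1 u a b hx hy hz ha0 hb0 hne hu0 haM hbM hu1 hu2
      rw [← et] at h
      refine h.trans (add_le_add le_rfl ?_)
      simp only
      by_cases hbig : H < 2 ^ (k + 1)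
      · rw [if_pos hbig]
        split_ifs
        · exact mul_nonneg hB (hW0 _ _)
        · exact le_rfl
      · rw [if_neg hbig, if_pos]
        simp only [mem_symBox] at hab
        have : ((2 ^ (k + 1) : ℕ) : ℤ) ≤ (H : ℤ) := by exact_mod_cast not_lt.1 hbig
        exact ⟨abs_le.2 ⟨by omega, by omega⟩, abs_le.2 ⟨by omega, by omega⟩⟩
  choose! w hwP hwφ hwG using key
  have hstep : ∑ t ∈ S, f t ≤ ∑ w ∈ Par, G w := by
    calc ∑ t ∈ S, f t ≤ ∑ t ∈ S, G (w t) := sum_le_sum hwG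
      _ = ∑ v ∈ S.image w, G v := by
          refine (sum_image fun t ht t' ht' e => ?_).symm
          rw [← hwφ t ht, ← hwφ t' ht', e]
      _ ≤ _ := sum_le_sum_of_subset_of_nonneg (image_subset_iff.2 hwP) fun v _ _ => hG0 v
  refine hstep.trans ?_
  set Q := ∏ i, ((R i + ∑ a, ∑ b, ψ i a b) / (p i : ℝ) ^ 2) with hQ
  have hQ0 : 0 ≤ Q := prod_nonneg fun i _ => div_nonneg
    (add_nonneg (hR i) (sum_nonneg fun a _ => sum_nonneg fun b _ => hψ i a b)) (by positivity)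
  have hk : ∀ k ∈ range (L + 1), ∑ v ∈ boxPts M ×ˢ (symBox (2 ^ (k + 1)) ×ˢ
      (symBox (M / 2 ^ k)).filter fun u => u ≠ 0), G ⟨k, v⟩ ≤
      288 * (M : ℝ) ^ 4 * (A + B * Q) := by
    intro k _
    have hbox : ((boxPts M).card : ℝ) = (M : ℝ) ^ 2 := by
      rw [boxPts, card_product, Int.card_Ico]; simp [sq]
    have h2k : (0 : ℝ) < (2 : ℝ) ^ k := by positivity
    have hUM : ((M / 2 ^ k : ℕ) : ℝ) * (2 : ℝ) ^ k ≤ (M : ℝ) := by
      exact_mod_cast Nat.div_mul_le_self M (2 ^ k)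
    set U := M / 2 ^ k with hU
    set N := 2 ^ (k + 1) with hN
    have hNR : (N : ℝ) = 2 * (2 : ℝ) ^ k := by rw [hN]; push_cast; ring
    have hN1 : (1 : ℝ) ≤ (2 : ℝ) ^ k := one_le_pow₀ (by norm_num)
    have hcount : ((symBox N ×ˢ (symBox U).filter fun u => u ≠ 0).card : ℝ) ≤
        288 * (M : ℝ) ^ 2 := by
      have h1 : (((symBox U).filter fun u => u ≠ 0).card : ℝ) ≤ 8 * (U : ℝ) ^ 2 := by
        have h := card_multiples U (q := 1) one_pos
        simpa using h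
      have h2 : ((symBox N).card : ℝ) ≤ 25 * ((2 : ℝ) ^ k) ^ 2 := by
        rw [symBox, card_product, Int.card_Icc,
          show ((N : ℤ) + 1 - -(N : ℤ)).toNat = 2 * N + 1 by omega]
        push_cast
        rw [hNR]
        nlinarith
      rw [card_product, Nat.cast_mul]
      calc _ ≤ 25 * ((2 : ℝ) ^ k) ^ 2 * (8 * (U : ℝ) ^ 2) :=
            mul_le_mul h2 h1 (by positivity) (by positivity)
        _ = 200 * ((U : ℝ) * (2 : ℝ) ^ k) ^ 2 := by ring
        _ ≤ 288 * ((U : ℝ) * (2 : ℝ) ^ k) ^ 2 :=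
            mul_le_mul_of_nonneg_right (by norm_num) (sq_nonneg _)
        _ ≤ 288 * (M : ℝ) ^ 2 := by gcongr
    have hweights : ∀ hbig : H < N,
        ∑ v ∈ symBox N ×ˢ (symBox U).filter (fun u => u ≠ 0), W v.1 v.2 ≤
          288 * (M : ℝ) ^ 2 * Q := by
      intro hbig
      set δ : Pt ℤ → ι → ℝ := fun u i =>
        if (p i : ℤ) ∣ u.1 ∧ (p i : ℤ) ∣ u.2 then R i else 0 with hδ
      calc ∑ v ∈ symBox N ×ˢ (symBox U).filter (fun u => u ≠ 0), W v.1 v.2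
          = ∑ T : Finset ι, (∑ v ∈ symBox N, ∏ i ∈ Tᶜ, ψ i (v.1 : ZMod (p i)) (v.2 : ZMod (p i))) *
              ∑ u ∈ (symBox U).filter (fun u => u ≠ 0), ∏ i ∈ T, δ u i := by
            simp only [hW, Fintype.prod_add]
            rw [sum_comm]
            refine sum_congr rfl fun T _ => ?_
            rw [sum_mul_sum, ← sum_product']
            exact sum_congr rfl fun v _ => mul_comm _ _
        _ ≤ ∑ T : Finset ι, ((3 * (N : ℝ) / ∏ i ∈ Tᶜ, (p i : ℝ)) ^ 2 *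
              ∏ i ∈ Tᶜ, ∑ a, ∑ b, ψ i a b) *
              ((∏ i ∈ T, R i) * (8 * ((U : ℝ) / ∏ i ∈ T, (p i : ℝ)) ^ 2)) := by
            refine sum_le_sum fun T _ => mul_le_mul (sum_class_weights hp hinj hψ N Tᶜ ?_)
              (sum_dvd_weights hp hinj hR U T) (sum_nonneg fun u _ => prod_nonneg fun i _ => ?_)
              (mul_nonneg (sq_nonneg _) (prod_nonneg fun i _ =>
                sum_nonneg fun a _ => sum_nonneg fun b _ => hψ i a b))
            · refine le_trans ?_ (hH.trans hbig.le)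
              exact prod_le_prod_of_subset_of_one_le' (subset_univ _) fun i _ _ => (hp i).one_le
            · simp only [hδ]
              split_ifs
              exacts [hR i, le_rfl]
        _ = 288 * ((U : ℝ) * (2 : ℝ) ^ k) ^ 2 * ∑ T : Finset ι,
              (∏ i ∈ T, R i / (p i : ℝ) ^ 2) *
                ∏ i ∈ Tᶜ, (∑ a, ∑ b, ψ i a b) / (p i : ℝ) ^ 2 := by
            rw [mul_sum]
            refine sum_congr rfl fun T _ => ?_
            rw [prod_div_distrib, prod_div_distrib, prod_pow, prod_pow, hNR]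
            simp only [div_eq_mul_inv, mul_pow, inv_pow]
            ring
        _ = 288 * ((U : ℝ) * (2 : ℝ) ^ k) ^ 2 * Q := by
            rw [hQ, ← Fintype.prod_add]
            congr 1
            exact prod_congr rfl fun i _ => (add_div _ _ _).symm
        _ ≤ 288 * (M : ℝ) ^ 2 * Q := by gcongr
    rw [sum_product]
    simp only [hG]
    rw [sum_const, nsmul_eq_mul, hbox, sum_add_distrib, sum_const, nsmul_eq_mul]
    have hM : (0 : ℝ) ≤ (M : ℝ) ^ 2 := by positivity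
    have hA' := mul_le_mul_of_nonneg_right hcount hA
    have hBQ : (0 : ℝ) ≤ 288 * (M : ℝ) ^ 2 * (B * Q) := by positivity
    by_cases hbig : H < 2 ^ (k + 1)
    · simp only [if_pos hbig]
      rw [← mul_sum]
      have hB' := mul_le_mul_of_nonneg_left (hweights hbig) hB
      calc _ ≤ (M : ℝ) ^ 2 * (288 * (M : ℝ) ^ 2 * A + B * (288 * (M : ℝ) ^ 2 * Q)) :=
            mul_le_mul_of_nonneg_left (add_le_add hA' hB') hM
        _ = _ := by ring
    · simp only [if_neg hbig, sum_const_zero, add_zero]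
      calc _ ≤ (M : ℝ) ^ 2 * (288 * (M : ℝ) ^ 2 * A + 288 * (M : ℝ) ^ 2 * (B * Q)) :=
            mul_le_mul_of_nonneg_left (by linarith) hM
        _ = _ := by ring
  calc ∑ v ∈ Par, G v
      = ∑ k ∈ range (L + 1), ∑ v ∈ boxPts M ×ˢ (symBox (2 ^ (k + 1)) ×ˢ
          (symBox (M / 2 ^ k)).filter fun u => u ≠ 0), G ⟨k, v⟩ := by rw [hPar, sum_sigma]
    _ ≤ ∑ _k ∈ range (L + 1), 288 * (M : ℝ) ^ 4 * (A + B * Q) := sum_le_sum hk
    _ = 288 * ((L : ℝ) + 1) * (M : ℝ) ^ 4 * (A + B * Q) := by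
        rw [sum_const, card_range, nsmul_eq_mul]; push_cast; ring

end Vale.P036.Cascade
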