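import Mathlib

/-!
# P036 cascade: averaging over parameters and deletion of one point per bad triple
-/

namespace Vale.P036.Cascade

open Finset

lemma exists_pos_aux {Ω : Type*} {s : Finset Ω} {w : Ω → ℝ}
    (hW : 0 < ∑ o ∈ s, w o) : ∃ o ∈ s, 0 < w o := by
  by_contra hc
  push Not at hc
  exact absurd (sum_nonpos hc) (not_le.2 hW)

/-- If the weighted count of accepted points exceeds `n` plus that of accepted bad triples, some
parameter gives `n` accepted points with no bad triple. -/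
lemma exists_sub_bad {Ω α : Type*} [DecidableEq α] (s : Finset Ω) (w : Ω → ℝ)
    (hw : ∀ o ∈ s, 0 ≤ w o) (hW : 0 < ∑ o ∈ s, w o) (X : Finset α) (A : Ω → α → Bool)
    (bad : Finset (α × α × α)) (n : ℕ)
    (h : (n : ℝ) * ∑ o ∈ s, w o +
        ∑ t ∈ bad, ∑ o ∈ s, w o * (if A o t.1 ∧ A o t.2.1 ∧ A o t.2.2 then 1 else 0)
      ≤ ∑ x ∈ X, ∑ o ∈ s, w o * (if A o x then 1 else 0)) :
    ∃ P ⊆ X, P.card = n ∧ ∀ t ∈ bad, ¬(t.1 ∈ P ∧ t.2.1 ∈ P ∧ t.2.2 ∈ P) := by
  set f : Ω → ℝ := fun o => (#(X.filter fun x => A o x) : ℝ)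
    - #(bad.filter fun t => A o t.1 ∧ A o t.2.1 ∧ A o t.2.2) with hf
  have hex : ∃ o ∈ s, (n : ℝ) ≤ f o := by
    by_contra hc
    push Not at hc
    have h1 : ∑ o ∈ s, w o * f o < ∑ o ∈ s, w o * (n : ℝ) := by
      obtain ⟨o, ho, hpos⟩ := exists_pos_aux hW
      exact sum_lt_sum (fun i hi => mul_le_mul_of_nonneg_left (hc i hi).le (hw i hi))
        ⟨o, ho, mul_lt_mul_of_pos_left (hc o ho) hpos⟩
    have h2 : ∑ o ∈ s, w o * f o = (∑ x ∈ X, ∑ o ∈ s, w o * (if A o x then 1 else 0))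
        - ∑ t ∈ bad, ∑ o ∈ s, w o * (if A o t.1 ∧ A o t.2.1 ∧ A o t.2.2 then 1 else 0) := by
      rw [sum_comm (s := X), sum_comm (s := bad), ← sum_sub_distrib]
      refine sum_congr rfl fun o _ => ?_
      rw [hf, ← mul_sum, ← mul_sum, ← mul_sub, sum_boole, sum_boole]
    rw [h2, ← sum_mul] at h1
    linarith
  obtain ⟨o, _, hn⟩ := hex
  set B := bad.filter fun t => A o t.1 ∧ A o t.2.1 ∧ A o t.2.2 with hB
  set P' := (X.filter fun x => A o x) \ B.image Prod.fst with hP'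
  have hcard : n ≤ P'.card := by
    have h1 : #(X.filter fun x => A o x) - (B.image Prod.fst).card ≤ P'.card := le_card_sdiff _ _
    have h2 : (B.image Prod.fst).card ≤ B.card := card_image_le
    have h3 : n + B.card ≤ #(X.filter fun x => A o x) := by
      have : (n : ℝ) + (B.card : ℝ) ≤ (#(X.filter fun x => A o x) : ℝ) := by
        simp only [hf] at hn
        linarith
      exact_mod_cast this
    omega
  obtain ⟨P, hPs, hPc⟩ := exists_subset_card_eq hcard
  have hacc : ∀ x ∈ P, A o x = true := fun x hx =>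
    (mem_filter.1 (mem_sdiff.1 (hPs hx)).1).2
  refine ⟨P, fun x hx => (mem_filter.1 (mem_sdiff.1 (hPs hx)).1).1, hPc, ?_⟩
  intro t ht ⟨h1, h2, h3⟩
  exact (mem_sdiff.1 (hPs h1)).2 (mem_image_of_mem _
    (mem_filter.2 ⟨ht, hacc _ h1, hacc _ h2, hacc _ h3⟩))

end Vale.P036.Cascade
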