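import Vale.Agent.P036.Cascade.Defs

/-!
# P036 cascade construction: the killer of collinear triples

A random one-dimensional projection mod a prime `Q`, tested against the image of sphere points of
`[0, d)^6` under a random Freiman model `β`. Low-height collinear triples survive only through
coinciding images; every other collinear triple survives with about the generic probability.
-/

namespace Vale.P036.Cascade

open Finset

variable {Q : ℕ}

/-- The linear form `β` at the integer vector `v`. -/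
private def kphi (β : Fin 6 → ZMod Q) (v : Fin 6 → ℤ) : ZMod Q := ∑ i, β i * (v i : ZMod Q)

private def kaff (c : ZMod Q × Pt (ZMod Q)) (x : Pt ℤ) : ZMod Q :=
  c.1 + c.2.1 * (x.1 : ZMod Q) + c.2.2 * (x.2 : ZMod Q)

private lemma killer_cast_eq_zero {z : ℤ} (hz : |z| < (Q : ℤ)) (h : (z : ZMod Q) = 0) : z = 0 :=
  Int.eq_zero_of_abs_lt_dvd ((ZMod.intCast_zmod_eq_zero_iff_dvd z Q).1 h) hz

/-- A hyperplane of `(ℤ/Q)^6` has at most `Q^5` points. -/
private lemma killer_hyper [Fact Q.Prime] {W : Fin 6 → ZMod Q} (hW : W ≠ 0) :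
    #{β : Fin 6 → ZMod Q | ∑ i, β i * W i = 0} ≤ Q ^ 5 := by
  obtain ⟨j, hj⟩ := Function.ne_iff.1 hW
  let f : (Fin 6 → ZMod Q) → ({i : Fin 6 // i ≠ j} → ZMod Q) := fun β i => β i.1
  have h : #{β : Fin 6 → ZMod Q | ∑ i, β i * W i = 0} ≤
      #(Finset.univ : Finset ({i : Fin 6 // i ≠ j} → ZMod Q)) := by
    refine Finset.card_le_card_of_injOn f (fun _ _ => by simp) ?_
    intro β hβ γ hγ hfg
    simp only [coe_filter, mem_univ, true_and, Set.mem_ofPred_eq] at hβ hγ
    funext i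
    by_cases hi : i = j
    · subst hi
      rw [← Finset.add_sum_erase _ _ (mem_univ i)] at hβ hγ
      have he : ∑ k ∈ univ.erase i, β k * W k = ∑ k ∈ univ.erase i, γ k * W k := by
        refine Finset.sum_congr rfl fun k hk => ?_
        have hk' : β k = γ k := congrFun hfg ⟨k, (Finset.mem_erase.1 hk).1⟩
        rw [hk']
      rw [he] at hβ
      exact mul_right_cancel₀ hj (add_right_cancel (hβ.trans hγ.symm))
    · exact congrFun hfg ⟨i, hi⟩
  simpa [Fintype.card_pi] using h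

/-- Many points of `[0, d)^6` on one sphere. -/
private lemma killer_sphere (d s : ℕ) (hd : 1 ≤ d) (hs : 6 * s ≤ d ^ 4) :
    ∃ (V : Finset (Fin 6 → ℤ)) (m : ℤ), #V = s ∧
      (∀ v ∈ V, ∀ i, 0 ≤ v i ∧ v i < d) ∧ ∀ v ∈ V, ∑ i, v i ^ 2 = m := by
  set P := Fintype.piFinset (fun _ : Fin 6 => Finset.Ico (0 : ℤ) d)
  have hP : #P = d ^ 6 := by simp [P]
  have hmaps : ∀ v ∈ P, (∑ i, v i ^ 2).toNat ∈ Finset.range (6 * d ^ 2) := by
    intro v hv
    have hv' : ∀ i, v i ^ 2 < (d : ℤ) ^ 2 := fun i => by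
      obtain ⟨h1, h2⟩ := Finset.mem_Ico.1 (Fintype.mem_piFinset.1 hv i)
      nlinarith
    have h1 : ∑ i, v i ^ 2 < ∑ _i : Fin 6, (d : ℤ) ^ 2 :=
      Finset.sum_lt_sum_of_nonempty univ_nonempty fun i _ => hv' i
    have h0 : 0 ≤ ∑ i, v i ^ 2 := Finset.sum_nonneg fun i _ => sq_nonneg _
    simp only [sum_const, card_univ, Fintype.card_fin, nsmul_eq_mul] at h1
    rw [Finset.mem_range]
    zify
    rw [Int.toNat_of_nonneg h0]
    simpa using h1
  obtain ⟨m, -, hm⟩ := Finset.exists_le_card_fiber_of_mul_le_card_of_maps_to hmaps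
    (nonempty_range_iff.2 (Nat.mul_ne_zero (by norm_num) (pow_ne_zero 2 (by omega)))) (n := s) (by
      rw [card_range, hP]; calc 6 * d ^ 2 * s = d ^ 2 * (6 * s) := by ring
        _ ≤ d ^ 2 * d ^ 4 := Nat.mul_le_mul_left _ hs
        _ = d ^ 6 := by ring)
  obtain ⟨V, hV, hc⟩ := Finset.exists_subset_card_eq hm
  refine ⟨V, m, hc, fun v hv i => ?_, fun v hv => ?_⟩
  · exact Finset.mem_Ico.1 (Fintype.mem_piFinset.1 (Finset.mem_filter.1 (hV hv)).1 i)
  · rw [← (Finset.mem_filter.1 (hV hv)).2,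
      Int.toNat_of_nonneg (Finset.sum_nonneg fun i _ => sq_nonneg _)]

/-- No three distinct points of a sphere are collinear, even mod a large prime. -/
private lemma killer_noline [Fact Q.Prime] {d : ℕ} (hQd : 2 * d ^ 2 < Q) {x y z : Fin 6 → ℤ} {m : ℤ}
    (hx : ∀ i, 0 ≤ x i ∧ x i < d) (hy : ∀ i, 0 ≤ y i ∧ y i < d) (hz : ∀ i, 0 ≤ z i ∧ z i < d)
    (sx : ∑ i, x i ^ 2 = m) (sy : ∑ i, y i ^ 2 = m) (sz : ∑ i, z i ^ 2 = m)
    (hxy : x ≠ y) (hxz : x ≠ z) (hyz : y ≠ z) {a b : ZMod Q} (ha : a ≠ 0) :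
    ¬∀ i, b * ((y i - x i : ℤ) : ZMod Q) - a * ((z i - x i : ℤ) : ZMod Q) = 0 := by
  intro h
  set p : Fin 6 → ℤ := fun i => y i - x i with hp
  set q : Fin 6 → ℤ := fun i => z i - x i with hq
  have hpar : ∀ i j, q i * p j = q j * p i := by
    intro i j
    have hb : ∀ k, |p k| ≤ d ∧ |q k| ≤ d := fun k => by
      simp only [hp, hq, abs_le]
      refine ⟨⟨?_, ?_⟩, ?_, ?_⟩ <;> linarith [hx k, hy k, hz k, (hx k).1, (hx k).2, (hy k).1,
        (hy k).2, (hz k).1, (hz k).2]
    have hlt : |q i * p j - q j * p i| < (Q : ℤ) := by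
      refine (abs_sub _ _).trans_lt ?_
      rw [abs_mul, abs_mul]
      have h1 := mul_le_mul (hb i).2 (hb j).1 (abs_nonneg _) (by positivity)
      have h2 := mul_le_mul (hb j).2 (hb i).1 (abs_nonneg _) (by positivity)
      have h3 : 2 * (d : ℤ) ^ 2 < Q := by exact_mod_cast hQd
      linarith
    have h0 : ((q i * p j - q j * p i : ℤ) : ZMod Q) = 0 := by
      have hi := h i
      have hj := h j
      refine (mul_eq_zero.1 (?_ : a * _ = 0)).resolve_left ha
      simp only [hp, hq]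
      push_cast at hi hj ⊢
      linear_combination ((x j : ZMod Q) - y j) * hi + ((y i : ZMod Q) - x i) * hj
    linarith [killer_cast_eq_zero hlt h0]
  obtain ⟨j, hj⟩ : ∃ j, p j ≠ 0 := by
    by_contra hc
    push Not at hc
    exact hxy (funext fun i => by linarith [hc i, show p i = y i - x i from rfl])
  set P := ∑ i, p i ^ 2 with hPdef
  set C := ∑ i, x i * p i with hC
  set R := ∑ i, q i ^ 2
  set D := ∑ i, x i * q i
  have e1 : P + 2 * C = 0 := by
    have : ∑ i, (p i ^ 2 + 2 * (x i * p i)) = ∑ i, (y i ^ 2 - x i ^ 2) :=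
      Finset.sum_congr rfl fun i _ => by simp only [hp]; ring
    rw [sum_add_distrib, ← mul_sum, sum_sub_distrib, sx, sy, sub_self] at this
    exact this
  have e2 : R + 2 * D = 0 := by
    have : ∑ i, (q i ^ 2 + 2 * (x i * q i)) = ∑ i, (z i ^ 2 - x i ^ 2) :=
      Finset.sum_congr rfl fun i _ => by simp only [hq]; ring
    rw [sum_add_distrib, ← mul_sum, sum_sub_distrib, sx, sz, sub_self] at this
    exact this
  have e3 : p j ^ 2 * R = q j ^ 2 * P := by
    rw [mul_sum, hPdef, mul_sum]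
    exact Finset.sum_congr rfl fun i _ => by rw [← mul_pow, ← mul_pow, mul_comm, hpar i j]
  have e4 : p j * D = q j * C := by
    rw [mul_sum, hC, mul_sum]
    exact Finset.sum_congr rfl fun i _ => by linear_combination x i * hpar i j
  have hPpos : 0 < P :=
    Finset.sum_pos' (fun i _ => sq_nonneg _) ⟨j, mem_univ j, by positivity⟩
  have key : q j * (q j - p j) * P = 0 := by
    linear_combination (-1 : ℤ) * e3 + p j ^ 2 * e2 - 2 * p j * e4 - q j * p j * e1
  have hall : ∀ c : ℤ, q j = c * p j → ∀ i, q i = c * p i := fun c hc i =>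
    mul_right_cancel₀ hj (by rw [hpar i j, hc]; ring)
  rcases mul_eq_zero.1 ((mul_eq_zero.1 key).resolve_right hPpos.ne') with h0 | h0
  · refine hxz (funext fun i => ?_)
    have := hall 0 (by rw [h0, zero_mul]) i
    simp only [hq, zero_mul] at this
    linarith
  · refine hyz (funext fun i => ?_)
    have := hall 1 (by linarith) i
    simp only [hp, hq, one_mul] at this
    linarith

private lemma killer_card_prod {α β : Type*} [Fintype α] [Fintype β] (p : α × β → Prop)
    [DecidablePred p] : #{w : α × β | p w} = ∑ a, #{c : β | p (a, c)} := by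
  simp only [Finset.card_filter]
  exact Fintype.sum_prod_type _

/-- Images of one point. -/
private lemma killer_one [NeZero Q] (I : Finset (ZMod Q)) (x : Pt ℤ) :
    #{c : ZMod Q × Pt (ZMod Q) | kaff c x ∈ I} = #I * Q ^ 2 := by
  let e : ZMod Q × Pt (ZMod Q) ≃ ZMod Q × Pt (ZMod Q) :=
    { toFun := fun c => (kaff c x, c.2)
      invFun := fun c => (c.1 - c.2.1 * x.1 - c.2.2 * x.2, c.2)
      left_inv := fun c => by ext <;> simp [kaff] <;> ring
      right_inv := fun c => by ext <;> simp [kaff]; ring }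
  rw [Finset.card_equiv e (t := I ×ˢ (univ : Finset (Pt (ZMod Q)))) (by intro c; simp [e])]
  simp [Fintype.card_prod, ZMod.card, sq]

/-- Images of three points spanning the plane mod `Q`. -/
private lemma killer_three [Fact Q.Prime] (I : Finset (ZMod Q)) (x y z : Pt ℤ)
    (h : ((det3 x y z : ℤ) : ZMod Q) ≠ 0) :
    #{c : ZMod Q × Pt (ZMod Q) | kaff c x ∈ I ∧ kaff c y ∈ I ∧ kaff c z ∈ I} = #I ^ 3 := by
  let f : ZMod Q × Pt (ZMod Q) → ZMod Q × ZMod Q × ZMod Q :=
    fun c => (kaff c x, kaff c y, kaff c z)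
  have hf : Function.Bijective f := by
    rw [Fintype.bijective_iff_injective_and_card]
    refine ⟨fun c c' hcc => ?_, rfl⟩
    simp only [f, kaff, Prod.mk.injEq] at hcc
    obtain ⟨h1, h2, h3⟩ := hcc
    simp only [det3] at h
    push_cast at h
    have u1 : c.2.1 = c'.2.1 := mul_left_cancel₀ h (by
      linear_combination ((z.2 : ZMod Q) - x.2) * (h2 - h1) - ((y.2 : ZMod Q) - x.2) * (h3 - h1))
    have u2 : c.2.2 = c'.2.2 := mul_left_cancel₀ h (by
      linear_combination ((y.1 : ZMod Q) - x.1) * (h3 - h1) - ((z.1 : ZMod Q) - x.1) * (h2 - h1))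
    rw [u1, u2] at h1
    exact Prod.ext (add_right_cancel (add_right_cancel h1)) (Prod.ext u1 u2)
  rw [Finset.card_equiv (Equiv.ofBijective f hf) (t := I ×ˢ (I ×ˢ I)) (by intro c; simp [f])]
  simp only [card_product]
  ring

/-- Images of a collinear triple, in terms of the base image and the step. -/
private lemma killer_line [Fact Q.Prime] (I : Finset (ZMod Q)) (x u : Pt ℤ) (a b : ℤ)
    (hu : castPt Q u ≠ 0) :
    #{c : ZMod Q × Pt (ZMod Q) | kaff c x ∈ I ∧ kaff c (x + a • u) ∈ I ∧ kaff c (x + b • u) ∈ I} =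
      #{w : ZMod Q × ZMod Q | w.1 ∈ I ∧ w.1 + a * w.2 ∈ I ∧ w.1 + b * w.2 ∈ I} * Q := by
  have hk : ∀ (c : ZMod Q × Pt (ZMod Q)) (k : ℤ), kaff c (x + k • u) =
      kaff c x + (k : ZMod Q) * (c.2.1 * u.1 + c.2.2 * u.2) := by
    intro c k
    simp only [kaff, Prod.fst_add, Prod.snd_add, Prod.smul_fst, Prod.smul_snd, smul_eq_mul]
    push_cast
    ring
  have main : ∀ f : ZMod Q × Pt (ZMod Q) → ZMod Q, Function.Injective
      (fun c : ZMod Q × Pt (ZMod Q) => ((kaff c x, c.2.1 * u.1 + c.2.2 * u.2), f c)) →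
      #{c : ZMod Q × Pt (ZMod Q) |
          kaff c x ∈ I ∧ kaff c (x + a • u) ∈ I ∧ kaff c (x + b • u) ∈ I} =
        #{w : ZMod Q × ZMod Q | w.1 ∈ I ∧ w.1 + a * w.2 ∈ I ∧ w.1 + b * w.2 ∈ I} * Q := by
    intro f hf
    have hb : Function.Bijective
        (fun c : ZMod Q × Pt (ZMod Q) => ((kaff c x, c.2.1 * u.1 + c.2.2 * u.2), f c)) := by
      rw [Fintype.bijective_iff_injective_and_card]
      exact ⟨hf, by simp [Fintype.card_prod]; ring⟩
    rw [Finset.card_equiv (Equiv.ofBijective _ hb)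
      (t := ({w : ZMod Q × ZMod Q | w.1 ∈ I ∧ w.1 + a * w.2 ∈ I ∧ w.1 + b * w.2 ∈ I} : Finset _) ×ˢ
        (univ : Finset (ZMod Q))) (by
        intro c
        simp only [mem_filter, mem_product, mem_univ, Equiv.ofBijective_apply, true_and, and_true,
          hk]), card_product, card_univ, ZMod.card]
  by_cases hu1 : (u.1 : ZMod Q) = 0
  · have hu2 : (u.2 : ZMod Q) ≠ 0 := fun h2 => hu (Prod.ext hu1 h2)
    refine main (fun c => c.2.1) fun c c' hcc => ?_
    simp only [kaff, Prod.mk.injEq] at hcc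
    obtain ⟨⟨h1, h2⟩, h3⟩ := hcc
    rw [h3] at h1 h2
    have u2' : c.2.2 = c'.2.2 := mul_right_cancel₀ hu2 (add_left_cancel h2)
    rw [u2'] at h1
    exact Prod.ext (add_right_cancel (add_right_cancel h1)) (Prod.ext h3 u2')
  · refine main (fun c => c.2.2) fun c c' hcc => ?_
    simp only [kaff, Prod.mk.injEq] at hcc
    obtain ⟨⟨h1, h2⟩, h3⟩ := hcc
    rw [h3] at h1 h2
    have u1' : c.2.1 = c'.2.1 := mul_right_cancel₀ hu1 (add_right_cancel h2)
    rw [u1'] at h1
    exact Prod.ext (add_right_cancel (add_right_cancel h1)) (Prod.ext u1' h3)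

/-- Base images and steps: degenerate steps, and steps from distinct points of the model. -/
private lemma killer_steps [Fact Q.Prime] (V : Finset (Fin 6 → ℤ)) (β : Fin 6 → ZMod Q)
    {a b : ZMod Q} (ha : a ≠ 0) (hb : b ≠ 0) (hab : a ≠ b) :
    #{w : ZMod Q × ZMod Q | w.1 ∈ V.image (kphi β) ∧ w.1 + a * w.2 ∈ V.image (kphi β) ∧
        w.1 + b * w.2 ∈ V.image (kphi β)} ≤
      #V + #{t ∈ triples V | (t.1 ≠ t.2.1 ∧ t.1 ≠ t.2.2 ∧ t.2.1 ≠ t.2.2) ∧
        ∑ i, β i * (b * ((t.2.1 i - t.1 i : ℤ) : ZMod Q) -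
          a * ((t.2.2 i - t.1 i : ℤ) : ZMod Q)) = 0} := by
  classical
  refine le_trans (Finset.card_le_card (t := V.image (fun v => (kphi β v, (0 : ZMod Q))) ∪
    {t ∈ triples V | (t.1 ≠ t.2.1 ∧ t.1 ≠ t.2.2 ∧ t.2.1 ≠ t.2.2) ∧
        ∑ i, β i * (b * ((t.2.1 i - t.1 i : ℤ) : ZMod Q) -
          a * ((t.2.2 i - t.1 i : ℤ) : ZMod Q)) = 0}.image
      (fun t => (kphi β t.1, (kphi β t.2.1 - kphi β t.1) * a⁻¹))) ?_)
    ((card_union_le _ _).trans (Nat.add_le_add card_image_le card_image_le))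
  rintro ⟨X, T⟩ hw
  simp only [mem_filter, mem_univ, true_and, mem_image] at hw
  obtain ⟨⟨vx, hx, ex⟩, ⟨vy, hy, ey⟩, ⟨vz, hz, ez⟩⟩ := hw
  by_cases hT : T = 0
  · exact mem_union_left _ (mem_image.2 ⟨vx, hx, by rw [ex, hT]⟩)
  refine mem_union_right _ (mem_image.2 ⟨(vx, vy, vz), mem_filter.2 ⟨?_, ⟨?_, ?_, ?_⟩, ?_⟩, ?_⟩)
  · exact mem_product.2 ⟨hx, mem_product.2 ⟨hy, hz⟩⟩
  · rintro (rfl : vx = vy); rw [ex] at ey; simp [ha, hT] at ey
  · rintro (rfl : vx = vz); rw [ex] at ez; simp [hb, hT] at ez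
  · rintro (rfl : vy = vz); rw [ey] at ez
    exact hab (mul_right_cancel₀ hT (add_left_cancel ez))
  · have : ∀ v w : Fin 6 → ℤ,
        ∑ i, β i * ((v i - w i : ℤ) : ZMod Q) = kphi β v - kphi β w := fun v w => by
      simp only [kphi, ← sum_sub_distrib]
      exact sum_congr rfl fun i _ => by push_cast; ring
    calc ∑ i, β i * (b * ((vy i - vx i : ℤ) : ZMod Q) - a * ((vz i - vx i : ℤ) : ZMod Q))
        = b * ∑ i, β i * ((vy i - vx i : ℤ) : ZMod Q)
            - a * ∑ i, β i * ((vz i - vx i : ℤ) : ZMod Q) := by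
          rw [mul_sum, mul_sum, ← sum_sub_distrib]
          exact sum_congr rfl fun i _ => by ring
      _ = 0 := by rw [this, this, ex, ey, ez]; ring
  · rw [ex, ey, add_sub_cancel_left, mul_comm a T, mul_assoc, mul_inv_cancel₀ ha, mul_one]

/-- The killer: a finite probability space of sets `{x | acc w x}`. -/
theorem exists_killer (H d s Q : ℕ) [Fact Q.Prime] (hH : 1 ≤ H) (hd : 1 ≤ d)
    (hQ : 2 * (5 * H * d) ^ 6 ≤ Q) (_hs : 1 ≤ s) (hs' : 6 * s ≤ d ^ 4) :
    ∃ (Ω : Type) (_ : Fintype Ω) (acc : Ω → Pt ℤ → Bool), 0 < Fintype.card Ω ∧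
      (∀ x, #{w | acc w x = true} * Q = s * Fintype.card Ω) ∧
      (∀ x y z : Pt ℤ, ((det3 x y z : ℤ) : ZMod Q) ≠ 0 →
        #{w | acc w x = true ∧ acc w y = true ∧ acc w z = true} * Q ^ 3 =
          s ^ 3 * Fintype.card Ω) ∧
      ∀ (x u : Pt ℤ) (a b : ℤ), (a : ZMod Q) ≠ 0 → (b : ZMod Q) ≠ 0 →
        (a : ZMod Q) ≠ (b : ZMod Q) → castPt Q u ≠ 0 →
        (|a| ≤ (H : ℤ) → |b| ≤ (H : ℤ) →
          #{w | acc w x = true ∧ acc w (x + a • u) = true ∧ acc w (x + b • u) = true} * Q ^ 2 ≤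
            s * Fintype.card Ω) ∧
        #{w | acc w x = true ∧ acc w (x + a • u) = true ∧ acc w (x + b • u) = true} * Q ^ 3 ≤
          (s * Q + 2 * s ^ 3) * Fintype.card Ω := by
  classical
  obtain ⟨V, m, hVc, hVr, hVs⟩ := killer_sphere d s hd hs'
  have hn1 : 5 * d ≤ 5 * H * d := Nat.mul_le_mul_right d (by omega)
  have hnpos : 1 ≤ 5 * H * d := by omega
  have hn2 : (5 * H * d) ^ 2 ≤ (5 * H * d) ^ 6 := Nat.pow_le_pow_right hnpos (by norm_num)
  have hn3 : 5 * H * d ≤ (5 * H * d) ^ 6 := Nat.le_self_pow (by norm_num) _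
  have hQd : 2 * d ^ 2 < Q := by nlinarith [Nat.pow_le_pow_left hn1 2]
  have hHQ : 2 * (H : ℤ) * d < Q := by
    have : 2 * H * d < Q := by nlinarith
    exact_mod_cast this
  set L : ℤ := 2 * (H : ℤ) * d with hL
  set B := (Fintype.piFinset (fun _ : Fin 6 => Finset.Icc (-L) L)).erase 0 with hB
  set good : (Fin 6 → ZMod Q) → Prop := fun β => ∀ W ∈ B, kphi β W ≠ 0 with hgood
  have hBW : ∀ W ∈ B, (fun i => (W i : ZMod Q)) ≠ 0 := by
    intro W hW h0
    obtain ⟨hne, hmem⟩ := mem_erase.1 hW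
    refine hne (funext fun i => killer_cast_eq_zero ?_ (congrFun h0 i))
    have := Finset.mem_Icc.1 (Fintype.mem_piFinset.1 hmem i)
    exact (abs_le.2 this).trans_lt hHQ
  set g := Fintype.card {β // good β} with hg
  have hgQ : Q ^ 6 ≤ 2 * g := by
    have hbad : #{β : Fin 6 → ZMod Q | ¬good β} ≤ #B * Q ^ 5 := by
      refine le_trans (card_le_card (t := B.biUnion fun W =>
        {β : Fin 6 → ZMod Q | ∑ i, β i * (W i : ZMod Q) = 0}) ?_)
        (card_biUnion_le_card_mul _ _ _ fun W hW => killer_hyper (hBW W hW))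
      intro β hβ
      simp only [mem_filter, mem_univ, true_and, hgood, not_forall, not_not] at hβ
      obtain ⟨W, hW, h0⟩ := hβ
      exact mem_biUnion.2 ⟨W, hW, mem_filter.2 ⟨mem_univ _, h0⟩⟩
    have hBc : #B ≤ (5 * H * d) ^ 6 := by
      refine (card_erase_le).trans ?_
      rw [Fintype.card_piFinset, prod_const, card_univ, Fintype.card_fin]
      refine Nat.pow_le_pow_left ?_ 6
      rw [Int.card_Icc, hL]
      have : 1 ≤ H * d := Nat.one_le_iff_ne_zero.2 (Nat.mul_ne_zero (by omega) (by omega))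
      rw [Int.toNat_le]
      push_cast
      have : (1 : ℤ) ≤ (H : ℤ) * d := by exact_mod_cast this
      nlinarith
    have htot : g + #{β : Fin 6 → ZMod Q | ¬good β} = Q ^ 6 := by
      rw [hg, Fintype.card_subtype, card_filter_add_card_filter_not]
      simp [Fintype.card_pi]
    have h6 : 2 * #{β : Fin 6 → ZMod Q | ¬good β} ≤ Q * Q ^ 5 := by
      calc _ ≤ 2 * ((5 * H * d) ^ 6 * Q ^ 5) :=
            Nat.mul_le_mul_left 2 (hbad.trans (Nat.mul_le_mul_right _ hBc))
        _ ≤ _ := by rw [← mul_assoc]; exact Nat.mul_le_mul_right _ hQ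
    have : Q * Q ^ 5 = Q ^ 6 := by ring
    omega
  have hgpos : 0 < g := by
    have : 0 < Q ^ 6 := pow_pos (Fact.out : Q.Prime).pos 6
    omega
  have hinj : ∀ β : {β // good β}, #(V.image (kphi β.1)) = s := by
    intro β
    rw [card_image_of_injOn, hVc]
    intro v hv w hw hvw
    by_contra hne
    refine β.2 (v - w) (mem_erase.2 ⟨sub_ne_zero.2 hne, Fintype.mem_piFinset.2 fun i => ?_⟩) ?_
    · have h1 := hVr v hv i
      have h2 := hVr w hw i
      have hH' : (1 : ℤ) ≤ H := by exact_mod_cast hH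
      have : (d : ℤ) ≤ L := by rw [hL]; nlinarith [h1.1, h1.2]
      simp only [Finset.mem_Icc, Pi.sub_apply]
      constructor <;> linarith [h1.1, h1.2, h2.1, h2.2]
    · have : kphi β.1 (v - w) = kphi β.1 v - kphi β.1 w := by
        simp only [kphi, ← sum_sub_distrib, Pi.sub_apply]
        exact sum_congr rfl fun i _ => by push_cast; ring
      rw [this, hvw, sub_self]
  have hcard : Fintype.card ({β // good β} × (ZMod Q × Pt (ZMod Q))) = g * Q ^ 3 := by
    simp only [Fintype.card_prod, ZMod.card, ← hg]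
    ring
  refine ⟨{β // good β} × (ZMod Q × Pt (ZMod Q)), inferInstance,
    fun w x => decide (kaff w.2 x ∈ V.image (kphi w.1.1)), ?_, ?_, ?_, ?_⟩
  · rw [hcard]; exact Nat.mul_pos hgpos (pow_pos (Fact.out : Q.Prime).pos 3)
  · intro x
    simp only [decide_eq_true_eq]
    rw [killer_card_prod]
    dsimp only
    rw [ sum_congr rfl fun β _ => killer_one _ x]
    simp only [hinj, sum_const, card_univ, smul_eq_mul, hcard, ← hg]
    ring
  · intro x y z hdet
    simp only [decide_eq_true_eq]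
    rw [killer_card_prod]
    dsimp only
    rw [ sum_congr rfl fun β _ => killer_three _ x y z hdet]
    simp only [hinj, sum_const, card_univ, smul_eq_mul, hcard, ← hg]
    ring
  · intro x u a b ha hb hab hu
    simp only [decide_eq_true_eq]
    rw [killer_card_prod]
    dsimp only
    rw [ sum_congr rfl fun β _ => killer_line _ x u a b hu, ← sum_mul]
    set cond : (Fin 6 → ZMod Q) → (Fin 6 → ℤ) × (Fin 6 → ℤ) × (Fin 6 → ℤ) → Prop := fun β t =>
      (t.1 ≠ t.2.1 ∧ t.1 ≠ t.2.2 ∧ t.2.1 ≠ t.2.2) ∧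
        ∑ i, β i * ((b : ZMod Q) * ((t.2.1 i - t.1 i : ℤ) : ZMod Q) -
          (a : ZMod Q) * ((t.2.2 i - t.1 i : ℤ) : ZMod Q)) = 0 with hcond
    have hW : ∀ t ∈ triples V, t.1 ≠ t.2.1 ∧ t.1 ≠ t.2.2 ∧ t.2.1 ≠ t.2.2 →
        (fun i => (b : ZMod Q) * ((t.2.1 i - t.1 i : ℤ) : ZMod Q) -
          (a : ZMod Q) * ((t.2.2 i - t.1 i : ℤ) : ZMod Q)) ≠ 0 := by
      rintro ⟨p, q, r⟩ ht ⟨h1, h2, h3⟩ h0
      simp only [triples, mem_product] at ht
      exact killer_noline hQd (hVr p ht.1) (hVr q ht.2.1) (hVr r ht.2.2) (hVs p ht.1)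
        (hVs q ht.2.1) (hVs r ht.2.2) h1 h2 h3 ha fun i => congrFun h0 i
    have hS := sum_le_sum fun (β : {β // good β}) (_ : β ∈ univ) =>
      killer_steps V β.1 ha hb hab
    rw [sum_add_distrib, sum_const, card_univ, smul_eq_mul, ← hg, hVc] at hS
    set S := ∑ β : {β // good β}, #{w : ZMod Q × ZMod Q | w.1 ∈ V.image (kphi β.1) ∧
      w.1 + (a : ZMod Q) * w.2 ∈ V.image (kphi β.1) ∧
      w.1 + (b : ZMod Q) * w.2 ∈ V.image (kphi β.1)}
    refine ⟨fun haH hbH => ?_, ?_⟩
    · have hzero : ∑ β : {β // good β}, #{t ∈ triples V | cond β.1 t} = 0 := by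
        refine sum_eq_zero fun β _ => card_eq_zero.2 (filter_eq_empty_iff.2 fun t ht hc => ?_)
        obtain ⟨hd3, hsum⟩ := hc
        set W : Fin 6 → ℤ := fun i => b * (t.2.1 i - t.1 i) - a * (t.2.2 i - t.1 i) with hWd
        have hWc : ∀ i, (W i : ZMod Q) = (b : ZMod Q) * ((t.2.1 i - t.1 i : ℤ) : ZMod Q) -
            (a : ZMod Q) * ((t.2.2 i - t.1 i : ℤ) : ZMod Q) := fun i => by
          simp only [hWd]; push_cast; ring
        refine β.2 W (mem_erase.2 ⟨fun h0 => hW t ht hd3 (funext fun i => ?_),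
          Fintype.mem_piFinset.2 fun i => ?_⟩) ?_
        · rw [← hWc, h0]; simp
        · simp only [triples, mem_product] at ht
          have h1 := hVr _ ht.1 i
          have h2 := hVr _ ht.2.1 i
          have h3 := hVr _ ht.2.2 i
          have p1 : |b * (t.2.1 i - t.1 i)| ≤ (H : ℤ) * d := by
            rw [abs_mul]
            refine mul_le_mul hbH ?_ (abs_nonneg _) (by positivity)
            rw [abs_le]; constructor <;> linarith [h1.1, h1.2, h2.1, h2.2]
          have p2 : |a * (t.2.2 i - t.1 i)| ≤ (H : ℤ) * d := by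
            rw [abs_mul]
            refine mul_le_mul haH ?_ (abs_nonneg _) (by positivity)
            rw [abs_le]; constructor <;> linarith [h1.1, h1.2, h3.1, h3.2]
          rw [Finset.mem_Icc, ← abs_le]
          exact (abs_sub _ _).trans (by rw [hL]; linarith)
        · rw [← hsum]
          exact sum_congr rfl fun i _ => by rw [hWc]
      rw [hzero, add_zero] at hS
      calc S * Q * Q ^ 2 ≤ g * s * Q * Q ^ 2 := by gcongr
        _ = _ := by rw [hcard]; ring
    · have hsum : ∑ β : {β // good β}, #{t ∈ triples V | cond β.1 t} ≤ s ^ 3 * Q ^ 5 := by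
        simp only [card_filter]
        rw [sum_comm]
        refine le_trans (sum_le_card_nsmul (triples V) _ (Q ^ 5) fun t ht => ?_) ?_
        · rw [← card_filter]
          by_cases hd3 : t.1 ≠ t.2.1 ∧ t.1 ≠ t.2.2 ∧ t.2.1 ≠ t.2.2
          · refine le_trans ?_ (killer_hyper (hW t ht hd3))
            refine card_le_card_of_injOn (fun β => β.1) (fun β hβ => ?_)
              Subtype.val_injective.injOn
            simp only [coe_filter, mem_univ, true_and, Set.mem_ofPred_eq, hcond] at hβ ⊢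
            exact hβ.2
          · rw [card_eq_zero.2 (filter_eq_empty_iff.2 fun β _ hc => hd3 hc.1)]
            exact Nat.zero_le _
        · simp only [triples, card_product, hVc, smul_eq_mul]
          exact le_of_eq (by ring)
      calc S * Q * Q ^ 3 ≤ (g * s + s ^ 3 * Q ^ 5) * Q * Q ^ 3 := by
            have := hS.trans (Nat.add_le_add_left hsum _)
            gcongr
        _ = g * s * Q * Q ^ 3 + s ^ 3 * Q ^ 6 * Q ^ 3 := by ring
        _ ≤ g * s * Q * Q ^ 3 + s ^ 3 * (2 * g) * Q ^ 3 := by gcongr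
        _ = _ := by rw [hcard]; ring

end Vale.P036.Cascade
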