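import Vale.Agent.P036.Cascade.Space
import Vale.Agent.P036.Cascade.Killer
import Vale.Agent.P036.Cascade.Lattice
import Vale.Agent.P036.Cascade.Collinear
import Vale.Agent.P036.Cascade.Derand

/-!
# P036 cascade: averaging over all parameters
-/

namespace Vale.P036.Cascade

open Finset

/-- The choice of the size of the sphere sample. -/
lemma exists_sample_size {n M Q d : ℕ} {αo Y : ℝ} (hn : 1 ≤ n) (hM : 1 ≤ M)
    (hαpos : 0 < αo) (hαone : αo ≤ 1) (hY : 0 < Y) (hαlow : 1 / Y ≤ αo) (h4M : 4 * M ^ 2 ≤ Q)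
    (hcap : 6 * (4 * n * Q * Y / (M : ℝ) ^ 2 + 1) ≤ (d : ℝ) ^ 4) :
    ∃ s : ℕ, 1 ≤ s ∧ 6 * s ≤ d ^ 4 ∧ 4 * (n : ℝ) ≤ (s : ℝ) / Q * αo * (M : ℝ) ^ 2 ∧
      (s : ℝ) / Q * αo * (M : ℝ) ^ 2 ≤ 5 * (n : ℝ) := by
  have hM1 : 1 ≤ M ^ 2 := Nat.one_le_pow _ _ (by omega)
  have hnR : (1 : ℝ) ≤ n := by exact_mod_cast hn
  have hMR : (0 : ℝ) < M := by exact_mod_cast hM
  have hQR : (0 : ℝ) < Q := by exact_mod_cast (show 0 < Q by omega)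
  set s : ℕ := ⌈4 * (n : ℝ) * Q / (αo * (M : ℝ) ^ 2)⌉₊ with hs
  have h1 : (s : ℝ) ≤ 4 * (n : ℝ) * Q / (αo * (M : ℝ) ^ 2) + 1 :=
    (Nat.ceil_lt_add_one (by positivity)).le
  refine ⟨s, Nat.ceil_pos.2 (by positivity), ?_, ?_, ?_⟩
  · have h2 : 4 * (n : ℝ) * Q / (αo * (M : ℝ) ^ 2) ≤ 4 * n * Q * Y / (M : ℝ) ^ 2 := by
      rw [div_le_iff₀ hY] at hαlow
      rw [div_le_div_iff₀ (by positivity) (by positivity)]
      calc 4 * (n : ℝ) * Q * (M : ℝ) ^ 2 = 4 * (n : ℝ) * Q * (M : ℝ) ^ 2 * 1 := (mul_one _).symm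
        _ ≤ 4 * (n : ℝ) * Q * (M : ℝ) ^ 2 * (αo * Y) :=
          mul_le_mul_of_nonneg_left hαlow (by positivity)
        _ = _ := by ring
    have h3 : (6 : ℝ) * s ≤ (d : ℝ) ^ 4 := by linarith
    exact_mod_cast h3
  · have h2 : 4 * (n : ℝ) * Q / (αo * (M : ℝ) ^ 2) ≤ s := Nat.le_ceil _
    rw [div_le_iff₀ (by positivity)] at h2
    rw [div_mul_eq_mul_div, div_mul_eq_mul_div, le_div_iff₀ hQR]
    linarith
  · have h2 := mul_le_mul_of_nonneg_right h1 (show 0 ≤ αo * (M : ℝ) ^ 2 by positivity)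
    rw [add_mul, div_mul_cancel₀ _ (by positivity), one_mul] at h2
    have h3 : αo * (M : ℝ) ^ 2 ≤ (n : ℝ) * Q := by
      have : (4 : ℝ) * (M : ℝ) ^ 2 ≤ Q := by exact_mod_cast h4M
      calc αo * (M : ℝ) ^ 2 ≤ 1 * (M : ℝ) ^ 2 := mul_le_mul_of_nonneg_right hαone (by positivity)
        _ ≤ 1 * (Q : ℝ) := by linarith [sq_nonneg (M : ℝ)]
        _ ≤ _ := mul_le_mul_of_nonneg_right hnR hQR.le
    rw [div_mul_eq_mul_div, div_mul_eq_mul_div, div_le_iff₀ hQR]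
    linarith

/-- The averaged count, for given sets and a given killer. -/
lemma points_core {r g n M K H Q L s : ℕ} {δ Lam Cs C Cl Cc : ℝ} (p : Fin r → Fin g → ℕ)
    [∀ γ i, Fact (p γ i).Prime] (S : ∀ γ i, Finset (Pt (ZMod (p γ i))))
    {Ω : Type} [Fintype Ω] (acc : Ω → Pt ℤ → Bool)
    (hCs : 1 ≤ Cs) (hC : 5 * Cs ^ 2 + 250 * Cl + 1000 * Cc ≤ C) (hCl : 0 < Cl) (hCc : 0 < Cc)
    (hLam0 : 0 ≤ Lam)
    (hgood : ∀ γ i, (S γ i).Nonempty ∧ (p γ i : ℝ) ≤ Cs * (S γ i).card ∧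
      (p γ i : ℝ) * detCount (S γ i) 0
        ≤ Cs * (1 + Real.log (p γ i)) * ((S γ i).card : ℝ) ^ 3)
    (hp : ∀ γ i, 8 * (K + 1) ≤ p γ i ∧ 1 + Real.log (p γ i) ≤ Lam)
    (hgain : ∀ γ, ∀ k : ℤ, k ≠ 0 → |k| ≤ (K : ℤ) →
        ∑ μ : ∀ i, (ZMod (p γ i))ˣ, unitWeight (p γ) (2 * K + 1) μ *
            ∏ i, (detCount (S γ i) ((μ i : ZMod (p γ i)) * (k : ZMod (p γ i))) : ℝ)
          ≤ Real.exp (-δ) * (∑ μ : ∀ i, (ZMod (p γ i))ˣ, unitWeight (p γ) (2 * K + 1) μ) *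
            ∏ i, (((p γ i : ℝ) ^ 2 - 1) / (p γ i : ℝ) ^ 3 * ((S γ i).card : ℝ) ^ 3))
    (hmass : ∀ γ, 0 < groupMass (p γ) (2 * K + 1)) (hWpos : 0 < spaceMass p Ω (2 * K + 1))
    (hk1 : ∀ x, #{w : Ω | acc w x = true} * Q = s * Fintype.card Ω)
    (hk3 : ∀ x y z : Pt ℤ, ((det3 x y z : ℤ) : ZMod Q) ≠ 0 →
      #{w : Ω | acc w x = true ∧ acc w y = true ∧ acc w z = true} * Q ^ 3 = s ^ 3 * Fintype.card Ω)
    (hkl : ∀ (x u : Pt ℤ) (a b : ℤ), (a : ZMod Q) ≠ 0 → (b : ZMod Q) ≠ 0 →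
      (a : ZMod Q) ≠ (b : ZMod Q) → castPt Q u ≠ 0 →
      (|a| ≤ (H : ℤ) → |b| ≤ (H : ℤ) →
        #{w : Ω | acc w x = true ∧ acc w (x + a • u) = true ∧ acc w (x + b • u) = true} * Q ^ 2
          ≤ s * Fintype.card Ω) ∧
      #{w : Ω | acc w x = true ∧ acc w (x + a • u) = true ∧ acc w (x + b • u) = true} * Q ^ 3
        ≤ (s * Q + 2 * s ^ 3) * Fintype.card Ω)
    (hn : 1 ≤ n) (hM : 1 ≤ M) (hK : 1 ≤ K) (hQp : Q.Prime)
    (h4M : 4 * M ^ 2 ≤ Q)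
    (hsmall : (((triples (boxPts M)).filter fun t =>
        1 ≤ |det3 t.1 t.2.1 t.2.2| ∧ |det3 t.1 t.2.1 t.2.2| ≤ (K : ℤ)).card : ℝ)
      ≤ Cl * (M : ℝ) ^ 4 * K)
    (hcol : ∀ (A B : ℝ), 0 ≤ A → 0 ≤ B → ∀ (f : Pt ℤ × Pt ℤ × Pt ℤ → ℝ),
      (∀ (x u : Pt ℤ) (a b : ℤ), x ∈ boxPts M → x + a • u ∈ boxPts M → x + b • u ∈ boxPts M →
        a ≠ 0 → b ≠ 0 → a ≠ b → u ≠ 0 → |a| ≤ (M : ℤ) → |b| ≤ (M : ℤ) →
        |u.1| ≤ (M : ℤ) → |u.2| ≤ (M : ℤ) →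
        f (x, x + a • u, x + b • u) ≤ A + (if |a| ≤ (H : ℤ) ∧ |b| ≤ (H : ℤ) then 0 else
          B * ∏ x : Fin r × Fin g,
            ((if ((p x.1 x.2 : ℕ) : ℤ) ∣ u.1 ∧ ((p x.1 x.2 : ℕ) : ℤ) ∣ u.2
                then (p x.1 x.2 : ℝ) ^ 4 / ((S x.1 x.2).card : ℝ) ^ 2 else 0)
              + lineRatio (S x.1 x.2) (a : ZMod (p x.1 x.2)) (b : ZMod (p x.1 x.2))))) →
      ∑ t ∈ (triples (boxPts M)).filter (fun t =>
          t.1 ≠ t.2.1 ∧ t.1 ≠ t.2.2 ∧ t.2.1 ≠ t.2.2 ∧ det3 t.1 t.2.1 t.2.2 = 0), f t ≤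
        Cc * ((L : ℝ) + 1) * (M : ℝ) ^ 4 * (A + B * ∏ x : Fin r × Fin g,
          (((p x.1 x.2 : ℝ) ^ 4 / ((S x.1 x.2).card : ℝ) ^ 2
            + ∑ a, ∑ b, lineRatio (S x.1 x.2) a b) / (p x.1 x.2 : ℝ) ^ 2)))
    (hQM : C * (L + 1) * (M : ℝ) ^ 2 ≤ Q)
    (hnon : C * (n : ℝ) ^ 2 * K * Real.exp (-(δ * r)) ≤ (M : ℝ) ^ 2)
    (hcoll : C * (n : ℝ) ^ 2 * (L + 1) * (C * Lam) ^ (g * r) ≤ (M : ℝ) ^ 2)
    (hαlo : 4 * (n : ℝ) ≤ (s : ℝ) / Q * (∏ γ, groupDensity (p γ) (S γ)) * (M : ℝ) ^ 2)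
    (hαhi : (s : ℝ) / Q * (∏ γ, groupDensity (p γ) (S γ)) * (M : ℝ) ^ 2 ≤ 5 * (n : ℝ)) :
    ∃ P : Finset (Pt ℤ), P ⊆ boxPts M ∧ P.card = n ∧
      ∀ x ∈ P, ∀ y ∈ P, ∀ z ∈ P, x ≠ y → x ≠ z → y ≠ z → (K : ℤ) < |det3 x y z| := by
  classical
  set N := 2 * K + 1 with hN
  set α : ℝ := (s : ℝ) / Q * ∏ γ, groupDensity (p γ) (S γ) with hα
  have hα0 : 0 ≤ α :=
    mul_nonneg (by positivity) (prod_nonneg fun γ _ => groupDensity_nonneg _ _)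
  have hQR : (0 : ℝ) < Q := by exact_mod_cast hQp.pos
  have hnR : (1 : ℝ) ≤ n := by exact_mod_cast hn
  have hMR : (1 : ℝ) ≤ M := by exact_mod_cast hM
  have hMMz : (M : ℤ) ≤ (M : ℤ) ^ 2 := by exact_mod_cast Nat.le_self_pow (by norm_num) M
  have hzero : ∀ v : ℤ, |v| ≤ 2 * (M : ℤ) ^ 2 → (v : ZMod Q) = 0 → v = 0 := by
    intro v hv h
    rw [ZMod.intCast_zmod_eq_zero_iff_dvd] at h
    refine Int.eq_zero_of_abs_lt_dvd h ?_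
    have h1 : (4 : ℤ) * (M : ℤ) ^ 2 ≤ (Q : ℤ) := by exact_mod_cast h4M
    have h2 : (0 : ℤ) < Q := by exact_mod_cast hQp.pos
    linarith
  have hfdet : ∀ t ∈ (triples (boxPts M)).filter (fun t =>
      1 ≤ |det3 t.1 t.2.1 t.2.2| ∧ |det3 t.1 t.2.1 t.2.2| ≤ (K : ℤ)),
      tripleSum p S acc N t ≤ α ^ 3 * Real.exp (-(δ * r)) * spaceMass p Ω N := by
    rintro ⟨x, y, z⟩ ht
    rw [mem_filter] at ht
    obtain ⟨hmem, hk0, hkK⟩ := ht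
    have hb := abs_det3_le hmem
    simp only at hk0 hkK hb
    have hne : det3 x y z ≠ 0 := by rintro h; rw [h] at hk0; norm_num at hk0
    refine tripleSum_det_le p S acc N x y z hQp.pos
      (hk3 x y z fun h => hne (hzero _ hb h)) ?_ (fun γ => hgain γ _ hne hkK)
    intro γ i h
    rw [ZMod.intCast_zmod_eq_zero_iff_dvd] at h
    refine hne (Int.eq_zero_of_abs_lt_dvd h ?_)
    have := (hp γ i).1
    omega
  have hfline : ∀ (x u : Pt ℤ) (a b : ℤ), x ∈ boxPts M → x + a • u ∈ boxPts M →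
      x + b • u ∈ boxPts M → a ≠ 0 → b ≠ 0 → a ≠ b → u ≠ 0 → |a| ≤ (M : ℤ) → |b| ≤ (M : ℤ) →
      |u.1| ≤ (M : ℤ) → |u.2| ≤ (M : ℤ) →
      tripleSum p S acc N (x, x + a • u, x + b • u) ≤ α / Q * spaceMass p Ω N
        + (if |a| ≤ (H : ℤ) ∧ |b| ≤ (H : ℤ) then 0 else
          2 * α ^ 3 * spaceMass p Ω N * ∏ x : Fin r × Fin g,
            ((if ((p x.1 x.2 : ℕ) : ℤ) ∣ u.1 ∧ ((p x.1 x.2 : ℕ) : ℤ) ∣ u.2
                then (p x.1 x.2 : ℝ) ^ 4 / ((S x.1 x.2).card : ℝ) ^ 2 else 0)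
              + lineRatio (S x.1 x.2) (a : ZMod (p x.1 x.2)) (b : ZMod (p x.1 x.2)))) := by
    intro x u a b _ _ _ ha0 hb0 hab hu0 haM hbM hu1 hu2
    have hM0 : (0 : ℤ) ≤ M := Nat.cast_nonneg M
    obtain ⟨hlow, hany⟩ := hkl x u a b (fun h => ha0 (hzero a (by linarith) h))
      (fun h => hb0 (hzero b (by linarith) h))
      (fun h => hab (sub_eq_zero.1 (hzero (a - b) (by linarith [abs_sub a b])
        (by rw [Int.cast_sub, h, sub_self]))))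
      (fun h => hu0 (by
        simp only [castPt, Prod.ext_iff, Prod.fst_zero, Prod.snd_zero] at h ⊢
        exact ⟨hzero _ (by linarith) h.1, hzero _ (by linarith) h.2⟩))
    exact tripleSum_line_le p S acc N (fun γ i => (hgood γ i).1) x u a b hQp.pos
      (fun γ => (hmass γ).le) hlow hany
  have hsumcol := hcol (α / Q * spaceMass p Ω N) (2 * α ^ 3 * spaceMass p Ω N) (by positivity)
    (by positivity) (tripleSum p S acc N) hfline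
  have hprodLam := prod_ratio_le p S hCs hgood (fun γ i => (hp γ i).2)
  have hpow : (5 * Cs ^ 2 * Lam) ^ (g * r) ≤ (C * Lam) ^ (g * r) :=
    pow_le_pow_left₀ (by positivity) (mul_le_mul_of_nonneg_right (by linarith) hLam0) _
  have hpow0 : 0 ≤ (C * Lam) ^ (g * r) := pow_nonneg (mul_nonneg (by linarith [sq_nonneg Cs]) hLam0) _
  set bad := (triples (boxPts M)).filter (fun t => t.1 ≠ t.2.1 ∧ t.1 ≠ t.2.2 ∧ t.2.1 ≠ t.2.2 ∧
    |det3 t.1 t.2.1 t.2.2| ≤ (K : ℤ)) with hbad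
  have hbound : (n : ℝ) * ∑ o ∈ spaceSet p Ω, spaceWeight p N o
        + ∑ t ∈ bad, tripleSum p S acc N t
      ≤ ∑ x ∈ boxPts M, ∑ o ∈ spaceSet p Ω, spaceWeight p N o *
          (if spaceAccept p S acc o x = true then (1 : ℝ) else 0) := by
    have hcard : ((boxPts M).card : ℝ) = (M : ℝ) ^ 2 := by
      rw [boxPts, card_product, Int.card_Ico]
      simp [sq]
    rw [sum_congr rfl fun x _ => sum_single p S acc N x hQp.pos (hk1 x), sum_const,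
      sum_spaceWeight, nsmul_eq_mul, hcard, ← hα,
      ← sum_filter_add_sum_filter_not bad (fun t => det3 t.1 t.2.1 t.2.2 = 0)]
    have hA1 : ∑ t ∈ bad.filter (fun t => ¬det3 t.1 t.2.1 t.2.2 = 0), tripleSum p S acc N t
        ≤ Cl * (M : ℝ) ^ 4 * K * (α ^ 3 * Real.exp (-(δ * r)) * spaceMass p Ω N) := by
      refine (sum_le_sum_of_subset_of_nonneg ?_ fun t _ _ => tripleSum_nonneg p S acc N t).trans
        ((sum_le_sum hfdet).trans ?_)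
      · intro t ht
        simp only [hbad, mem_filter] at ht ⊢
        exact ⟨ht.1.1, Int.one_le_abs ht.2, ht.1.2.2.2.2⟩
      rw [sum_const, nsmul_eq_mul]
      exact mul_le_mul_of_nonneg_right hsmall (by positivity)
    have hA2 : ∑ t ∈ bad.filter (fun t => det3 t.1 t.2.1 t.2.2 = 0), tripleSum p S acc N t
        ≤ Cc * ((L : ℝ) + 1) * (M : ℝ) ^ 4 * (α / Q * spaceMass p Ω N
            + 2 * α ^ 3 * spaceMass p Ω N * (C * Lam) ^ (g * r)) := by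
      refine (sum_le_sum_of_subset_of_nonneg ?_ fun t _ _ => tripleSum_nonneg p S acc N t).trans
        (hsumcol.trans ?_)
      · intro t ht
        simp only [hbad, mem_filter] at ht ⊢
        exact ⟨ht.1.1, ht.1.2.1, ht.1.2.2.1, ht.1.2.2.2.1, ht.2⟩
      exact mul_le_mul_of_nonneg_left (add_le_add le_rfl
        (mul_le_mul_of_nonneg_left (hprodLam.trans hpow) (by positivity))) (by positivity)
    have := average_arith (E := Real.exp (-(δ * r))) (Z := (C * Lam) ^ (g * r)) hnR hMR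
      (Nat.cast_nonneg (α := ℝ) K) (Nat.cast_nonneg (α := ℝ) L) hQR
      hα0 hWpos.le (Real.exp_pos _).le hpow0 hCl hCc
      (show 250 * Cl + 1000 * Cc ≤ C by linarith [sq_nonneg Cs]) hαlo hαhi hQM hnon hcoll
    linarith
  obtain ⟨P, hPs, hPc, hP⟩ := exists_sub_bad (spaceSet p Ω) (spaceWeight p N)
    (fun o _ => spaceWeight_nonneg p N o) (by rw [sum_spaceWeight]; exact hWpos) (boxPts M)
    (spaceAccept p S acc) bad n hbound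
  refine ⟨P, hPs, hPc, fun x hx y hy z hz hxy hxz hyz => ?_⟩
  by_contra hc
  refine hP (x, y, z) ?_ ⟨hx, hy, hz⟩
  simp only [hbad, triples, mem_filter, mem_product]
  exact ⟨⟨hPs hx, hPs hy, hPs hz⟩, hxy, hxz, hyz, not_lt.1 hc⟩


/-- Tilted sets modulo every large prime give `n` grid points in `[0,M)²` all of whose triangles
have `|det| > K`. -/
theorem exists_points_of_sets {a₀ η B Cs : ℝ} {p₀ : ℕ} (ha₀ : 0 < a₀) (hη : 0 < η) (hη1 : η ≤ 1)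
    (hB : 0 < B) (hCs : 1 ≤ Cs)
    (hsets : ∀ (p : ℕ) [Fact p.Prime], p₀ ≤ p →
      (∃ S : Finset (Pt (ZMod p)), (S.Nonempty ∧ (p : ℝ) ≤ Cs * S.card ∧
          (p : ℝ) * detCount S 0 ≤ Cs * (1 + Real.log p) * (S.card : ℝ) ^ 3) ∧
        ∃ a : ℝ, hatDet S 1 = (a : ℂ) ∧ a ≤ -a₀) ∧
      (∃ S : Finset (Pt (ZMod p)), (S.Nonempty ∧ (p : ℝ) ≤ Cs * S.card ∧
          (p : ℝ) * detCount S 0 ≤ Cs * (1 + Real.log p) * (S.card : ℝ) ^ 3) ∧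
        ∃ b : ℝ, hatDet S 1 = (b : ℂ) ∧ 1 / 2 ≤ b ∧
          (∀ s, s ≠ 0 → s ≠ 1 → s ≠ -1 → ‖hatDet S s‖ ≤ b - η) ∧
          ∑ s, ‖hatDet S s‖ ^ 2 ≤ B)) :
    ∃ (g : ℕ) (δ C : ℝ) (P₀ : ℕ), 3 ≤ g ∧ 0 < δ ∧ δ ≤ 1 ∧ 4 ≤ C ∧
      ∀ (r n M K H d Q L : ℕ) (Lam : ℝ) (p : Fin r → Fin g → ℕ),
      1 ≤ n → 1 ≤ M → 1 ≤ K → 1 ≤ H → 1 ≤ d → Q.Prime → (∀ γ i, (p γ i).Prime) →
      Function.Injective (fun x : Fin r × Fin g => p x.1 x.2) →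
      (∀ γ i, P₀ ≤ p γ i ∧ 8 * (K + 1) ≤ p γ i ∧ 1 + Real.log (p γ i) ≤ Lam) →
      (∏ γ, ∏ i, p γ i) ≤ H → 2 * (5 * H * d) ^ 6 ≤ Q → M ≤ 2 ^ L →
      C * (L + 1) * (M : ℝ) ^ 2 ≤ Q →
      6 * (4 * n * Q * C ^ (g * r) * (∏ γ, ∏ i, (p γ i : ℝ)) / (M : ℝ) ^ 2 + 1) ≤ (d : ℝ) ^ 4 →
      C * (n : ℝ) ^ 2 * K * Real.exp (-(δ * r)) ≤ (M : ℝ) ^ 2 →
      C * (n : ℝ) ^ 2 * (L + 1) * (C * Lam) ^ (g * r) ≤ (M : ℝ) ^ 2 →
      ∃ P : Finset (Pt ℤ), P ⊆ boxPts M ∧ P.card = n ∧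
        ∀ x ∈ P, ∀ y ∈ P, ∀ z ∈ P, x ≠ y → x ≠ z → y ≠ z → (K : ℤ) < |det3 x y z| := by
  classical
  obtain ⟨m, δ, hδ, hδ1, P₁, hgain⟩ := group_gain ha₀ hη hη1 hB
  obtain ⟨Cl, hCl, hsmall⟩ := triples_small_det
  obtain ⟨Cc, hCc, hcol⟩ := collinear_sum_le
  set C : ℝ := 5 * Cs ^ 2 + 250 * Cl + 1000 * Cc + 4 with hC
  have hCCs : Cs ≤ C := by nlinarith
  refine ⟨m + 3, δ, C, max P₁ p₀, by omega, hδ, hδ1, by nlinarith, ?_⟩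
  intro r n M K H d Q L Lam p hn hM hK hH hd hQp hpp hinj hp hprod hQ hL hQM hcap hnon hcoll
  have : Fact Q.Prime := ⟨hQp⟩
  have hF : ∀ γ i, Fact (p γ i).Prime := fun γ i => ⟨hpp γ i⟩
  have hchoice : ∀ γ i, ∃ S : Finset (Pt (ZMod (p γ i))), (S.Nonempty ∧
      (p γ i : ℝ) ≤ Cs * S.card ∧
      (p γ i : ℝ) * detCount S 0 ≤ Cs * (1 + Real.log (p γ i)) * (S.card : ℝ) ^ 3) ∧
      (i = 0 → ∃ a : ℝ, hatDet S 1 = (a : ℂ) ∧ a ≤ -a₀) ∧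
      (i ≠ 0 → ∃ b : ℝ, hatDet S 1 = (b : ℂ) ∧ 1 / 2 ≤ b ∧
        (∀ s, s ≠ 0 → s ≠ 1 → s ≠ -1 → ‖hatDet S s‖ ≤ b - η) ∧
        ∑ s, ‖hatDet S s‖ ^ 2 ≤ B) := by
    intro γ i
    obtain ⟨⟨S, hg, hn'⟩, S', hg', hp'⟩ :=
      hsets (p γ i) ((le_max_right _ _).trans (hp γ i).1)
    by_cases hi : i = 0
    · exact ⟨S, hg, fun _ => hn', fun h => absurd hi h⟩
    · exact ⟨S', hg', fun h => absurd h hi, fun _ => hp'⟩
  choose S hgood hSneg hSpos using hchoice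
  set N := 2 * K + 1 with hN
  have hgr : ∀ γ, 0 < ∑ μ : ∀ i, (ZMod (p γ i))ˣ, unitWeight (p γ) N μ ∧
      ∀ k : ℤ, k ≠ 0 → |k| ≤ (K : ℤ) →
        ∑ μ : ∀ i, (ZMod (p γ i))ˣ, unitWeight (p γ) N μ *
            ∏ i, (detCount (S γ i) ((μ i : ZMod (p γ i)) * (k : ZMod (p γ i))) : ℝ)
          ≤ Real.exp (-δ) * (∑ μ : ∀ i, (ZMod (p γ i))ˣ, unitWeight (p γ) N μ) *
            ∏ i, (((p γ i : ℝ) ^ 2 - 1) / (p γ i : ℝ) ^ 3 * ((S γ i).card : ℝ) ^ 3) :=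
    fun γ => hgain (p γ) (S γ) K (fun i => (hgood γ i).1) (fun i => (hp γ i).2.1)
      (fun i => (le_max_left _ _).trans (hp γ i).1) (hSneg γ 0 rfl)
      (fun i => hSpos γ i.succ (Fin.succ_ne_zero i))
  -- sizes
  have h4M : 4 * M ^ 2 ≤ Q := by
    have h1 : (4 : ℝ) * (M : ℝ) ^ 2 ≤ C * ((L : ℝ) + 1) * (M : ℝ) ^ 2 := by
      refine mul_le_mul_of_nonneg_right ?_ (by positivity)
      nlinarith [Nat.cast_nonneg (α := ℝ) L]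
    exact_mod_cast h1.trans hQM
  -- the density of the prime sieve
  set αo : ℝ := ∏ γ, groupDensity (p γ) (S γ) with hαo
  have hPpos : (0 : ℝ) < ∏ γ, ∏ i, (p γ i : ℝ) :=
    prod_pos fun γ _ => prod_pos fun i _ => by exact_mod_cast (hpp γ i).pos
  have hCpos : 0 < C := by nlinarith
  have hαlow : 1 / (C ^ ((m + 3) * r) * ∏ γ, ∏ i, (p γ i : ℝ)) ≤ αo :=
    inv_le_prod_density p S hCpos fun γ i =>
      (hgood γ i).2.1.trans (mul_le_mul_of_nonneg_right hCCs (Nat.cast_nonneg _))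
  have hαpos : 0 < αo := lt_of_lt_of_le (by positivity) hαlow
  have hαone : αo ≤ 1 :=
    prod_le_one (fun γ _ => groupDensity_nonneg _ _) fun γ _ => groupDensity_le_one _ _
  have hmass : ∀ γ, 0 < groupMass (p γ) N := by
    intro γ
    refine mul_pos (hgr γ).1 (prod_pos fun i _ => ?_)
    rw [card_affMaps_real]
    have : (2 : ℝ) ≤ p γ i := by exact_mod_cast (hpp γ i).two_le
    exact mul_pos (by positivity) (by nlinarith)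
  rcases Nat.eq_zero_or_pos r with hr | hr
  all_goals
    obtain ⟨s, hs1, hs4, hαlo, hαhi⟩ := exists_sample_size hn hM hαpos hαone
      (mul_pos (pow_pos hCpos _) hPpos) hαlow h4M (by rw [← mul_assoc (4 * (n : ℝ) * Q)]; exact hcap)
    obtain ⟨Ω, hΩf, acc, hΩpos, hk1, hk3, hkl⟩ := exists_killer H d s Q hH hd hQ hs1 hs4
    have hF' : ∀ x : Fin r × Fin (m + 3), NeZero (p x.1 x.2) :=
      fun x => ⟨(hpp x.1 x.2).ne_zero⟩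
    refine points_core (δ := δ) (Lam := max Lam 0) (Cs := Cs) (C := C) (Cl := Cl) (Cc := Cc) p S acc
      hCs (by linarith) hCl hCc (le_max_right _ _) hgood
      (fun γ i => ⟨(hp γ i).2.1, (hp γ i).2.2.trans (le_max_left _ _)⟩) (fun γ => (hgr γ).2) hmass
      (mul_pos (by exact_mod_cast hΩpos) (prod_pos fun γ _ => hmass γ)) hk1 hk3 hkl hn hM hK hQp
      h4M (hsmall M K hM hK) ?_ hQM hnon ?_ hαlo hαhi
    · intro A B hA hB' f hf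
      exact hcol (fun x : Fin r × Fin (m + 3) => p x.1 x.2) (fun x => hpp x.1 x.2) hinj
        (fun x => lineRatio (S x.1 x.2))
        (fun x => (p x.1 x.2 : ℝ) ^ 4 / ((S x.1 x.2).card : ℝ) ^ 2)
        (fun x a b => lineRatio_nonneg _ a b) (fun x => by positivity) M L H hM
        (by rw [Fintype.prod_prod_type]; exact hprod) hL A B hA hB' f hf
  · simpa [hr] using hcoll
  · have h1 := (hp ⟨0, hr⟩ 0).2.2
    have := Real.log_nonneg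
      (show (1 : ℝ) ≤ p ⟨0, hr⟩ 0 by exact_mod_cast (hpp ⟨0, hr⟩ 0).one_lt.le)
    rw [max_eq_left (by linarith)]
    exact hcoll

end Vale.P036.Cascade
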