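import Vale.Agent.P036.Cascade.Defs

/-!
# P036: spectral gap of the determinant of three random points of a small box
-/

namespace Vale.P036.Cascade

open Complex Finset

namespace BoxGap

/-- The cosine sum of the determinant of triples in the box. -/
noncomputable def G (l : ℕ) (θ : ℝ) : ℝ :=
  ∑ t ∈ triples (boxPts l), Real.cos (θ * (det3 t.1 t.2.1 t.2.2 : ℤ))

noncomputable def F (n : ℕ) (φ : ℝ) : ℂ :=
  ∑ z ∈ range n, Complex.exp ((φ : ℂ) * I) ^ z

lemma sum_Ico_cast {β : Type*} [AddCommMonoid β] (l : ℕ) (f : ℤ → β) :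
    ∑ z ∈ Finset.Ico (0 : ℤ) (l : ℤ), f z = ∑ z ∈ range l, f (z : ℤ) := by
  refine Finset.sum_nbij' Int.toNat (fun z : ℕ => (z : ℤ)) ?_ ?_ ?_ ?_ ?_
  all_goals intro a ha
  all_goals simp only [Finset.mem_Ico, Finset.mem_range, Finset.mem_coe] at ha ⊢
  all_goals first | omega | (congr 1; omega)

lemma card_boxPts (l : ℕ) : (boxPts l).card = l ^ 2 := by
  simp [boxPts, sq]

lemma det_le {l : ℕ} {t : Pt ℤ × Pt ℤ × Pt ℤ} (ht : t ∈ triples (boxPts l)) :
    |det3 t.1 t.2.1 t.2.2| ≤ 2 * (l : ℤ) ^ 2 := by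
  simp only [triples, boxPts, mem_product, Finset.mem_Ico] at ht
  obtain ⟨⟨⟨a1, a2⟩, a3, a4⟩, ⟨⟨b1, b2⟩, b3, b4⟩, ⟨c1, c2⟩, c3, c4⟩ := ht
  have m : ∀ u v : ℤ, |u| ≤ l → |v| ≤ l → |u * v| ≤ (l : ℤ) * l := fun u v hu hv => by
    rw [abs_mul]; exact mul_le_mul hu hv (abs_nonneg _) (Int.natCast_nonneg l)
  refine (abs_sub _ _).trans ?_
  have e1 := m (t.2.1.1 - t.1.1) (t.2.2.2 - t.1.2) (by rw [abs_le]; omega) (by rw [abs_le]; omega)
  have e2 := m (t.2.1.2 - t.1.2) (t.2.2.1 - t.1.1) (by rw [abs_le]; omega) (by rw [abs_le]; omega)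
  linarith [pow_two (l : ℤ)]

lemma det_le_real {l : ℕ} {t : Pt ℤ × Pt ℤ × Pt ℤ} (ht : t ∈ triples (boxPts l)) :
    |((det3 t.1 t.2.1 t.2.2 : ℤ) : ℝ)| ≤ 2 * (l : ℝ) ^ 2 := by
  exact_mod_cast det_le ht

lemma sum_exp_eq (l : ℕ) (θ : ℝ) :
    ∑ t ∈ triples (boxPts l),
      Complex.exp (((θ * (det3 t.1 t.2.1 t.2.2 : ℤ) : ℝ) : ℂ) * I) = (G l θ : ℂ) := by
  apply Complex.ext
  · rw [Complex.re_sum, Complex.ofReal_re, G]
    simp only [Complex.exp_ofReal_mul_I_re]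
  · rw [Complex.im_sum, Complex.ofReal_im]
    simp only [Complex.exp_ofReal_mul_I_im]
    have h : ∑ t ∈ triples (boxPts l), Real.sin (θ * (det3 t.1 t.2.1 t.2.2 : ℤ)) =
        ∑ t ∈ triples (boxPts l), -Real.sin (θ * (det3 t.1 t.2.1 t.2.2 : ℤ)) := by
      refine Finset.sum_nbij' (fun t => (t.1, t.2.2, t.2.1)) (fun t => (t.1, t.2.2, t.2.1))
        ?_ ?_ ?_ ?_ ?_
      · intro t ht; simp_all [triples]
      · intro t ht; simp_all [triples]
      · intro t _; rfl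
      · intro t _; rfl
      · intro t _
        show _ = -Real.sin (θ * (det3 t.1 t.2.2 t.2.1 : ℤ))
        rw [← Real.sin_neg]
        congr 1
        simp only [det3]
        push_cast
        ring
    rw [Finset.sum_neg_distrib] at h
    linarith

lemma hatDet_box {p : ℕ} [NeZero p] {l : ℕ} (hl : l ≤ p) (m : ℤ) :
    (boxSet p l).card = l ^ 2 ∧
      hatDet (boxSet p l) (m : ZMod p) =
        ((G l (2 * Real.pi * m / p) / (l : ℝ) ^ 6 : ℝ) : ℂ) := by
  have hinj : Set.InjOn (castPt p) (boxPts l : Set (Pt ℤ)) := by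
    have key : ∀ a b : ℤ, 0 ≤ a → a < l → 0 ≤ b → b < l → (a : ZMod p) = b → a = b := by
      intro a b ha ha' hb hb' h
      rw [ZMod.intCast_eq_intCast_iff'] at h
      rwa [Int.emod_eq_of_lt ha (by omega), Int.emod_eq_of_lt hb (by omega)] at h
    intro x hx y hy h
    simp only [boxPts, Finset.mem_coe, mem_product, Finset.mem_Ico] at hx hy
    simp only [castPt, Prod.mk.injEq] at h
    exact Prod.ext (key _ _ hx.1.1 hx.1.2 hy.1.1 hy.1.2 h.1)
      (key _ _ hx.2.1 hx.2.2 hy.2.1 hy.2.2 h.2)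
  have hcard : (boxSet p l).card = l ^ 2 := by
    rw [boxSet, Finset.card_image_of_injOn hinj, card_boxPts]
  refine ⟨hcard, ?_⟩
  have h : ∑ t ∈ triples (boxSet p l), ZMod.stdAddChar ((m : ZMod p) * det3 t.1 t.2.1 t.2.2) =
      (G l (2 * Real.pi * m / p) : ℂ) := by
    rw [← sum_exp_eq]
    simp only [triples, boxSet, Finset.sum_product, Finset.sum_image hinj]
    refine Finset.sum_congr rfl fun x _ => Finset.sum_congr rfl fun y _ =>
      Finset.sum_congr rfl fun z _ => ?_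
    have e : (m : ZMod p) * det3 (castPt p x) (castPt p y) (castPt p z) =
        ((m * det3 x y z : ℤ) : ZMod p) := by
      simp [det3, castPt]
    rw [e, ZMod.stdAddChar_coe]
    congr 1
    push_cast
    ring
  rw [hatDet, h, hcard]
  push_cast
  ring

lemma F_period (n : ℕ) (φ : ℝ) (k : ℤ) : F n (φ - 2 * Real.pi * k) = F n φ := by
  unfold F
  refine Finset.sum_congr rfl fun z _ => ?_
  congr 1
  have : ((φ - 2 * Real.pi * k : ℝ) : ℂ) * I = (φ : ℂ) * I + ((-k : ℤ) : ℂ) * (2 * Real.pi * I) := by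
    push_cast; ring
  rw [this, Complex.exp_add, Complex.exp_int_mul_two_pi_mul_I, mul_one]

lemma norm_F_le (n : ℕ) (φ : ℝ) : ‖F n φ‖ ≤ n := by
  refine (norm_sum_le _ _).trans ?_
  simp [norm_pow, Complex.norm_exp_ofReal_mul_I]

/-- `κ₀`. -/
noncomputable def κ₀ : ℝ := (1 - Real.cos (1 / 128)) / 2

lemma κ₀_pos : 0 < κ₀ := by
  have := Real.cos_lt_cos_of_nonneg_of_le_pi (x := 0) (y := 1 / 128) le_rfl
    (by linarith [Real.pi_gt_three]) (by norm_num)
  rw [Real.cos_zero] at this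
  unfold κ₀; linarith

lemma κ₀_le : κ₀ ≤ 1 / 2 := by
  have : 0 ≤ Real.cos (1 / 128) :=
    Real.cos_nonneg_of_mem_Icc ⟨by linarith [Real.pi_gt_three], by linarith [Real.pi_gt_three]⟩
  unfold κ₀; linarith

lemma F_far {n : ℕ} (hn : 10 ≤ n) {ψ : ℝ} (h1 : 1 / (16 * (n : ℝ)) ≤ |ψ|) (h2 : |ψ| ≤ Real.pi) :
    ‖F n ψ‖ ≤ (1 - κ₀) * n := by
  have hn0 : (0 : ℝ) < n := by exact_mod_cast (by omega : 0 < n)
  have hψ : 0 < |ψ| := lt_of_lt_of_le (by positivity) h1
  have hpi := Real.pi_pos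
  rcases le_or_gt (2 * Real.pi / n) |ψ| with hb | hb
  · have e : F n ψ * (Complex.exp ((ψ : ℂ) * I) - 1) = Complex.exp ((ψ : ℂ) * I) ^ n - 1 :=
      geom_sum_mul _ _
    have hw : 2 / Real.pi * |ψ| ≤ ‖Complex.exp ((ψ : ℂ) * I) - 1‖ := by
      rw [mul_comm (ψ : ℂ) I, Complex.norm_exp_I_mul_ofReal_sub_one, Real.norm_eq_abs, abs_mul,
        abs_two]
      have := Real.mul_abs_le_abs_sin (x := ψ / 2) (by rw [abs_div, abs_two]; linarith)
      rw [abs_div, abs_two] at this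
      linarith
    have h3 : ‖F n ψ‖ * ‖Complex.exp ((ψ : ℂ) * I) - 1‖ ≤ 2 := by
      rw [← norm_mul, e]
      refine (norm_sub_le _ _).trans ?_
      rw [norm_pow, Complex.norm_exp_ofReal_mul_I, one_pow, norm_one]
      norm_num
    have h4 : ‖F n ψ‖ * (2 / Real.pi * (2 * Real.pi / n)) ≤ 2 :=
      le_trans (mul_le_mul_of_nonneg_left
        (le_trans (mul_le_mul_of_nonneg_left hb (by positivity)) hw) (norm_nonneg _)) h3
    have h5 : (2 : ℝ) / Real.pi * (2 * Real.pi / n) = 4 / n := by field_simp; ring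
    rw [h5, mul_div, div_le_iff₀ hn0] at h4
    nlinarith [κ₀_le]
  · obtain ⟨h, hh⟩ : ∃ h, h = n / 3 := ⟨_, rfl⟩
    have hh1 : (h : ℝ) * 3 ≤ n := by exact_mod_cast (by omega : h * 3 ≤ n)
    have hh2 : (n : ℝ) ≤ 4 * h := by exact_mod_cast (by omega : n ≤ 4 * h)
    obtain ⟨r, hr⟩ : ∃ r, n = h + h + r := ⟨n - (h + h), by omega⟩
    set w := Complex.exp ((ψ : ℂ) * I) with hw
    have hwn : ‖w‖ = 1 := Complex.norm_exp_ofReal_mul_I ψ
    have hsplit : F n ψ = (1 + w ^ h) * ∑ z ∈ range h, w ^ z + ∑ z ∈ range r, w ^ (h + h + z) := by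
      rw [F, ← hw, hr, Finset.sum_range_add, Finset.sum_range_add, add_mul, one_mul, Finset.mul_sum]
      congr 2
      exact Finset.sum_congr rfl fun z _ => pow_add w h z
    have hpair : ‖(1 : ℂ) + w ^ h‖ ≤ 2 * Real.cos (1 / 128) := by
      have e : (1 : ℂ) + w ^ h =
          Complex.exp (((ψ * h / 2 : ℝ) : ℂ) * I) * ((2 * Real.cos (ψ * h / 2) : ℝ) : ℂ) := by
        rw [hw, ← Complex.exp_nat_mul]
        push_cast
        rw [Complex.two_cos, mul_add, ← Complex.exp_add, ← Complex.exp_add]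
        rw [add_comm]
        congr 1
        · congr 1; ring
        · rw [← Complex.exp_zero]; congr 1; ring
      rw [e, norm_mul, Complex.norm_exp_ofReal_mul_I, one_mul, Complex.norm_real, Real.norm_eq_abs,
        abs_mul, abs_two]
      have e2 : Real.cos (ψ * h / 2) = Real.cos (|ψ| * h / 2) := by
        rw [← Real.cos_abs (ψ * h / 2), abs_div, abs_mul, Nat.abs_cast, abs_two]
      have hlo : (1 : ℝ) / 128 ≤ |ψ| * h / 2 := by
        rw [div_le_iff₀ (by positivity)] at h1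
        nlinarith [mul_le_mul_of_nonneg_left hh2 hψ.le]
      have hhi : |ψ| * h / 2 ≤ Real.pi / 3 := by
        rw [lt_div_iff₀ hn0] at hb
        nlinarith [mul_le_mul_of_nonneg_left hh1 hψ.le]
      have h0 : 0 ≤ Real.cos (|ψ| * h / 2) :=
        Real.cos_nonneg_of_mem_Icc ⟨by linarith, by linarith⟩
      rw [e2, abs_of_nonneg h0]
      have := Real.cos_le_cos_of_nonneg_of_le_pi (by norm_num : (0 : ℝ) ≤ 1 / 128)
        (by linarith : |ψ| * h / 2 ≤ Real.pi) hlo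
      linarith
    have hA : ‖∑ z ∈ range h, w ^ z‖ ≤ h := by
      refine (norm_sum_le _ _).trans ?_
      simp [norm_pow, hwn]
    have hB : ‖∑ z ∈ range r, w ^ (h + h + z)‖ ≤ r := by
      refine (norm_sum_le _ _).trans ?_
      simp [norm_pow, hwn]
    have hn' : (n : ℝ) = h + h + r := by exact_mod_cast hr
    rw [hsplit]
    refine (norm_add_le _ _).trans ?_
    rw [norm_mul]
    have hm := mul_le_mul hpair hA (norm_nonneg _) ((norm_nonneg _).trans hpair)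
    have hk : κ₀ * (n : ℝ) ≤ κ₀ * (4 * h) := mul_le_mul_of_nonneg_left hh2 κ₀_pos.le
    have : Real.cos (1 / 128) = 1 - 2 * κ₀ := by unfold κ₀; ring
    rw [this] at hm
    nlinarith

lemma F_near {n : ℕ} (hn : 10 ≤ n) {φ : ℝ} (h : (1 - κ₀) * n < ‖F n φ‖) :
    ∃ k : ℤ, |φ - 2 * Real.pi * k| < 1 / (16 * (n : ℝ)) := by
  refine ⟨round (φ / (2 * Real.pi)), lt_of_not_ge fun hge => ?_⟩
  have hpi := Real.pi_pos
  have hr := abs_sub_round (φ / (2 * Real.pi))
  have e : φ - 2 * Real.pi * (round (φ / (2 * Real.pi)) : ℝ) =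
      2 * Real.pi * (φ / (2 * Real.pi) - round (φ / (2 * Real.pi))) := by field_simp
  have h2 : |φ - 2 * Real.pi * (round (φ / (2 * Real.pi)) : ℝ)| ≤ Real.pi := by
    rw [e, abs_mul, abs_of_pos (by positivity : (0 : ℝ) < 2 * Real.pi)]
    nlinarith
  have := F_far hn hge h2
  rw [F_period] at this
  linarith

lemma row_sum {n : ℕ} (hn : 10 ≤ n) {θ : ℝ} (hθ : 0 ≤ θ) (hθπ : θ ≤ Real.pi)
    (hbig : 1 / 4 < θ * (n : ℝ) ^ 2) {x : ℕ} (hx : x < n) :
    ∑ y ∈ range n, ‖F n (θ * ((y : ℝ) - x))‖ ≤ (1 - κ₀ / 10) * (n : ℝ) ^ 2 := by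
  classical
  have hn0 : (0 : ℝ) < n := by exact_mod_cast (by omega : 0 < n)
  have hn10 : (10 : ℝ) ≤ n := by exact_mod_cast hn
  have hpi := Real.pi_gt_three
  set B := (range n).filter fun y : ℕ => (1 - κ₀) * n < ‖F n (θ * ((y : ℝ) - x))‖ with hB
  have hc : (1 : ℝ) / (16 * n) ≤ 1 / 160 := one_div_le_one_div_of_le (by norm_num) (by linarith)
  have hBcard : (B.card : ℝ) ≤ 9 / 10 * n := by
    rcases le_or_gt θ (1 / (8 * n)) with hs | hs
    · -- no wrap: an interval around x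
      have hsub : B ⊆ Finset.Icc (x - n / 4) (x + n / 4) := by
        intro y hy
        rw [hB, mem_filter, mem_range] at hy
        obtain ⟨k, hk⟩ := F_near hn hy.2
        have hyx : |(y : ℝ) - x| ≤ n := by
          rw [abs_le]
          have h1 : (y : ℝ) ≤ n := by exact_mod_cast hy.1.le
          have h2 : (x : ℝ) ≤ n := by exact_mod_cast hx.le
          constructor <;> linarith [Nat.cast_nonneg (α := ℝ) y, Nat.cast_nonneg (α := ℝ) x]
        have hsm : |θ * ((y : ℝ) - x)| ≤ 1 / 8 := by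
          rw [abs_mul, abs_of_nonneg hθ]
          rw [le_div_iff₀ (by positivity)] at hs
          nlinarith [mul_le_mul_of_nonneg_left hyx hθ]
        have hk0 : k = 0 := by
          by_contra hne
          have h1 : (1 : ℝ) ≤ |(k : ℝ)| := by
            exact_mod_cast Int.one_le_abs hne
          have h3 : |2 * Real.pi * (k : ℝ)| ≤ 1 / 8 + 1 / 160 := by
            calc |2 * Real.pi * (k : ℝ)|
                = |θ * ((y : ℝ) - x) - (θ * ((y : ℝ) - x) - 2 * Real.pi * k)| := by ring_nf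
              _ ≤ _ := (abs_sub _ _).trans (add_le_add hsm (hk.le.trans hc))
          rw [abs_mul, abs_of_pos (by positivity : (0 : ℝ) < 2 * Real.pi)] at h3
          nlinarith
        subst hk0
        simp only [Int.cast_zero, mul_zero, sub_zero, abs_mul, abs_of_nonneg hθ] at hk
        have hd : |(y : ℝ) - x| * 4 < n := by
          rw [lt_div_iff₀ (by positivity)] at hk
          by_contra hcon
          push Not at hcon
          nlinarith [mul_le_mul_of_nonneg_left hcon (mul_nonneg hθ hn0.le)]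
        have hd' : |(y : ℤ) - x| * 4 < n := by exact_mod_cast hd
        have := abs_le.1 (le_refl |(y : ℤ) - x|)
        rw [Finset.mem_Icc]
        omega
      have := Finset.card_le_card hsub
      rw [Nat.card_Icc] at this
      have h2 : (B.card : ℝ) * 2 ≤ n + 2 := by exact_mod_cast (by omega : B.card * 2 ≤ n + 2)
      linarith
    · -- no two adjacent
      have hdis : Disjoint B (B.image (· + 1)) := by
        rw [Finset.disjoint_left]
        intro y hy hy'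
        rw [Finset.mem_image] at hy'
        obtain ⟨z, hz, rfl⟩ := hy'
        rw [hB, mem_filter] at hy hz
        obtain ⟨k, hk⟩ := F_near hn hy.2
        obtain ⟨j, hj⟩ := F_near hn hz.2
        have hdiff : |θ - 2 * Real.pi * ((k - j : ℤ) : ℝ)| < 1 / (8 * (n : ℝ)) := by
          calc |θ - 2 * Real.pi * ((k - j : ℤ) : ℝ)|
              = |(θ * (((z + 1 : ℕ) : ℝ) - x) - 2 * Real.pi * k) -
                  (θ * ((z : ℝ) - x) - 2 * Real.pi * j)| := by
                congr 1; push_cast; ring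
            _ ≤ _ := abs_sub _ _
            _ < 1 / (16 * (n : ℝ)) + 1 / (16 * (n : ℝ)) := add_lt_add hk hj
            _ = _ := by ring
        rcases eq_or_ne (k - j) 0 with h0 | h0
        · rw [h0, Int.cast_zero, mul_zero, sub_zero, abs_of_nonneg hθ] at hdiff
          linarith
        · have h1 : (1 : ℝ) ≤ |((k - j : ℤ) : ℝ)| := by exact_mod_cast Int.one_le_abs h0
          have h2 : |2 * Real.pi * ((k - j : ℤ) : ℝ)| ≤ θ + 1 / (8 * (n : ℝ)) := by
            calc |2 * Real.pi * ((k - j : ℤ) : ℝ)|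
                = |θ - (θ - 2 * Real.pi * ((k - j : ℤ) : ℝ))| := by rw [sub_sub_cancel]
              _ ≤ |θ| + |θ - 2 * Real.pi * ((k - j : ℤ) : ℝ)| := abs_sub _ _
              _ ≤ _ := by rw [abs_of_nonneg hθ]; linarith
          rw [abs_mul, abs_of_pos (by positivity : (0 : ℝ) < 2 * Real.pi)] at h2
          have h3 : (1 : ℝ) / (8 * n) ≤ 1 / 8 := one_div_le_one_div_of_le (by norm_num) (by linarith)
          nlinarith
      have h1 : (B ∪ B.image (· + 1)).card ≤ (range (n + 1)).card := by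
        refine Finset.card_le_card (Finset.union_subset ?_ ?_)
        · intro y hy; rw [hB, mem_filter, mem_range] at hy; rw [mem_range]; omega
        · intro y hy
          rw [Finset.mem_image] at hy
          obtain ⟨z, hz, rfl⟩ := hy
          rw [hB, mem_filter, mem_range] at hz; rw [mem_range]; omega
      rw [Finset.card_union_of_disjoint hdis,
        Finset.card_image_of_injective _ (add_left_injective 1), card_range] at h1
      have h2 : (B.card : ℝ) + B.card ≤ n + 1 := by exact_mod_cast h1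
      linarith
  have hsum : ∑ y ∈ range n, ‖F n (θ * ((y : ℝ) - x))‖ ≤
      (B.card : ℝ) * n + ((n : ℝ) - B.card) * ((1 - κ₀) * n) := by
    rw [← Finset.sum_filter_add_sum_filter_not (range n)
      (fun y : ℕ => (1 - κ₀) * n < ‖F n (θ * ((y : ℝ) - x))‖)]
    rw [← hB]
    refine add_le_add ?_ ?_
    · calc _ ≤ ∑ _y ∈ B, (n : ℝ) := Finset.sum_le_sum fun y _ => norm_F_le _ _
        _ = _ := by simp
    · calc _ ≤ ∑ _y ∈ (range n).filter (fun y : ℕ => ¬(1 - κ₀) * n < ‖F n (θ * ((y : ℝ) - x))‖),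
            (1 - κ₀) * n := Finset.sum_le_sum fun y hy => not_lt.1 (mem_filter.1 hy).2
        _ = _ := by
          rw [Finset.sum_const, nsmul_eq_mul]
          congr 1
          have := Finset.card_filter_add_card_filter_not (s := range n)
            (fun y : ℕ => (1 - κ₀) * n < ‖F n (θ * ((y : ℝ) - x))‖)
          rw [← hB, card_range] at this
          rw [eq_sub_iff_add_eq, ← Nat.cast_add]
          congr 1
          omega
  nlinarith [mul_le_mul_of_nonneg_left hBcard (mul_nonneg κ₀_pos.le hn0.le)]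

lemma G_large {n : ℕ} (hn : 10 ≤ n) {θ : ℝ} (hθ : 0 ≤ θ) (hθπ : θ ≤ Real.pi)
    (hbig : 1 / 4 < θ * (n : ℝ) ^ 2) : |G n θ| ≤ (1 - κ₀ / 10) * (n : ℝ) ^ 6 := by
  rw [← Real.norm_eq_abs, ← Complex.norm_real, ← sum_exp_eq]
  have inner : ∀ (x y : Pt ℤ) (z₁ : ℤ),
      ‖∑ z₂ ∈ Finset.Ico (0 : ℤ) (n : ℤ),
        Complex.exp (((θ * (det3 x y (z₁, z₂) : ℤ) : ℝ) : ℂ) * I)‖ =
      ‖F n (θ * ((y.1 : ℝ) - x.1))‖ := by
    intro x y z₁
    rw [sum_Ico_cast]
    have e : ∀ z : ℕ, Complex.exp (((θ * (det3 x y (z₁, (z : ℤ)) : ℤ) : ℝ) : ℂ) * I) =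
        Complex.exp (((θ * (det3 x y (z₁, 0) : ℤ) : ℝ) : ℂ) * I) *
          Complex.exp (((θ * ((y.1 : ℝ) - x.1) : ℝ) : ℂ) * I) ^ z := by
      intro z
      rw [← Complex.exp_nat_mul, ← Complex.exp_add]
      congr 1
      simp only [det3]
      push_cast
      ring
    rw [Finset.sum_congr rfl fun z _ => e z, ← Finset.mul_sum, norm_mul,
      Complex.norm_exp_ofReal_mul_I, one_mul]
    rfl
  calc ‖∑ t ∈ triples (boxPts n),
        Complex.exp (((θ * (det3 t.1 t.2.1 t.2.2 : ℤ) : ℝ) : ℂ) * I)‖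
      ≤ ∑ x ∈ boxPts n, ∑ y ∈ boxPts n, ∑ _z ∈ range n, ‖F n (θ * ((y.1 : ℝ) - x.1))‖ := by
        simp only [triples, Finset.sum_product]
        refine (norm_sum_le _ _).trans (Finset.sum_le_sum fun x _ => ?_)
        refine (norm_sum_le _ _).trans (Finset.sum_le_sum fun y _ => ?_)
        conv_lhs => rw [boxPts, Finset.sum_product, sum_Ico_cast]
        refine (norm_sum_le _ _).trans (Finset.sum_le_sum fun z₁ _ => ?_)
        exact (inner x y _).le
    _ = (n : ℝ) ^ 3 * ∑ x ∈ range n, ∑ y ∈ range n, ‖F n (θ * ((y : ℝ) - x))‖ := by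
        simp only [boxPts, Finset.sum_product, sum_Ico_cast, Finset.sum_const, card_range,
          Int.cast_natCast, nsmul_eq_mul, Finset.mul_sum, Finset.card_product, Int.card_Ico, sub_zero,
          Int.toNat_natCast]
        refine Finset.sum_congr rfl fun x _ => Finset.sum_congr rfl fun y _ => ?_
        ring
    _ ≤ (n : ℝ) ^ 3 * ∑ _x ∈ range n, (1 - κ₀ / 10) * (n : ℝ) ^ 2 :=
        mul_le_mul_of_nonneg_left
          (Finset.sum_le_sum fun x hx => row_sum hn hθ hθπ hbig (mem_range.1 hx)) (by positivity)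
    _ = _ := by rw [Finset.sum_const, card_range, nsmul_eq_mul]; ring

lemma sum_det_sq {n : ℕ} (hn : 10 ≤ n) :
    (n : ℝ) ^ 10 / 16000000 ≤ ∑ t ∈ triples (boxPts n), ((det3 t.1 t.2.1 t.2.2 : ℤ) : ℝ) ^ 2 := by
  obtain ⟨a, ha⟩ : ∃ a, a = n / 5 := ⟨_, rfl⟩
  let A := Finset.Ico (0 : ℤ) (a : ℤ)
  let T := Finset.Ico ((n : ℤ) - a) (n : ℤ)
  let U : Finset (Pt ℤ × Pt ℤ × Pt ℤ) := (A ×ˢ A) ×ˢ ((T ×ˢ A) ×ˢ (A ×ˢ T))
  have ha1 : (a : ℝ) * 5 ≤ n := by exact_mod_cast (by omega : a * 5 ≤ n)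
  have ha2 : (n : ℝ) ≤ 10 * a := by exact_mod_cast (by omega : n ≤ 10 * a)
  have hU : U ⊆ triples (boxPts n) := by
    intro t ht
    simp only [U, A, T, triples, boxPts, mem_product, Finset.mem_Ico] at ht ⊢
    omega
  have hcard : U.card = a ^ 6 := by
    simp [U, A, T]; ring
  have hd : ∀ t ∈ U, (n : ℝ) ^ 4 / 16 ≤ ((det3 t.1 t.2.1 t.2.2 : ℤ) : ℝ) ^ 2 := by
    intro t ht
    simp only [U, A, T, mem_product, Finset.mem_Ico] at ht
    obtain ⟨⟨⟨a1, a2⟩, a3, a4⟩, ⟨⟨b1, b2⟩, b3, b4⟩, ⟨c1, c2⟩, c3, c4⟩ := ht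
    have e1 : ((n : ℤ) - 2 * a) * ((n : ℤ) - 2 * a) ≤ (t.2.1.1 - t.1.1) * (t.2.2.2 - t.1.2) :=
      mul_le_mul (by omega) (by omega) (by omega) (by omega)
    have e2 : |(t.2.1.2 - t.1.2) * (t.2.2.1 - t.1.1)| ≤ (a : ℤ) * a := by
      rw [abs_mul]
      exact mul_le_mul (by rw [abs_le]; omega) (by rw [abs_le]; omega) (abs_nonneg _) (by omega)
    have e3 : ((n : ℤ) - 2 * a) * ((n : ℤ) - 2 * a) - (a : ℤ) * a ≤ det3 t.1 t.2.1 t.2.2 := by
      have := (abs_le.1 e2).2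
      simp only [det3]; linarith
    have e4 : ((n : ℝ) - 2 * a) * ((n : ℝ) - 2 * a) - (a : ℝ) * a ≤
        ((det3 t.1 t.2.1 t.2.2 : ℤ) : ℝ) := by exact_mod_cast e3
    have e5 : (n : ℝ) ^ 2 / 4 ≤ ((det3 t.1 t.2.1 t.2.2 : ℤ) : ℝ) := by
      nlinarith [Nat.cast_nonneg (α := ℝ) a]
    calc (n : ℝ) ^ 4 / 16 = ((n : ℝ) ^ 2 / 4) ^ 2 := by ring
      _ ≤ _ := pow_le_pow_left₀ (by positivity) e5 2
  calc (n : ℝ) ^ 10 / 16000000 ≤ (a : ℝ) ^ 6 * ((n : ℝ) ^ 4 / 16) := by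
        have := pow_le_pow_left₀ (Nat.cast_nonneg n) ha2 6
        nlinarith [pow_nonneg (Nat.cast_nonneg (α := ℝ) n) 4]
    _ = ∑ _t ∈ U, (n : ℝ) ^ 4 / 16 := by rw [Finset.sum_const, hcard, nsmul_eq_mul]; push_cast; rfl
    _ ≤ ∑ t ∈ U, ((det3 t.1 t.2.1 t.2.2 : ℤ) : ℝ) ^ 2 := Finset.sum_le_sum hd
    _ ≤ _ := Finset.sum_le_sum_of_subset_of_nonneg hU fun _ _ _ => sq_nonneg _

lemma G_small {n : ℕ} (hn : 10 ≤ n) {δ M : ℝ} (hM : 2 ≤ M) (hδ : 0 < δ)
    (hsmall : δ * M * (n : ℝ) ^ 2 ≤ 1 / 4) :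
    |G n (δ * M)| ≤ G n δ - δ ^ 2 * ((n : ℝ) ^ 10 / 16000000) := by
  have key : ∀ t ∈ triples (boxPts n),
      0 ≤ Real.cos (δ * M * (det3 t.1 t.2.1 t.2.2 : ℤ)) ∧
      (δ * (det3 t.1 t.2.1 t.2.2 : ℤ)) ^ 2 ≤
        Real.cos (δ * (det3 t.1 t.2.1 t.2.2 : ℤ)) -
          Real.cos (δ * M * (det3 t.1 t.2.1 t.2.2 : ℤ)) := by
    intro t ht
    have hD := det_le_real ht
    generalize ((det3 t.1 t.2.1 t.2.2 : ℤ) : ℝ) = D at hD ⊢
    have hy : |δ * M * D| ≤ 1 / 2 := by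
      rw [abs_mul, abs_of_pos (by positivity : 0 < δ * M)]
      nlinarith [mul_le_mul_of_nonneg_left hD (by positivity : (0 : ℝ) ≤ δ * M)]
    have hxy : |δ * D| * 2 ≤ |δ * M * D| := by
      rw [abs_mul, abs_mul, abs_mul, abs_of_pos hδ, abs_of_pos (by linarith : (0 : ℝ) < M)]
      nlinarith [mul_nonneg hδ.le (abs_nonneg D)]
    have hx : |δ * D| ≤ 1 := by linarith [abs_nonneg (δ * D)]
    have by' := abs_le.1 (Real.cos_bound (x := δ * M * D) (by linarith))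
    have bx' := abs_le.1 (Real.cos_bound (x := δ * D) hx)
    have hx2 : 4 * (δ * D) ^ 2 ≤ (δ * M * D) ^ 2 := by
      rw [← sq_abs (δ * D), ← sq_abs (δ * M * D)]
      nlinarith [abs_nonneg (δ * D)]
    have hy4 : |δ * M * D| ^ 4 ≤ 1 / 4 * (δ * M * D) ^ 2 := by
      rw [← sq_abs (δ * M * D)]
      have : |δ * M * D| ^ 2 ≤ 1 / 4 := by nlinarith [abs_nonneg (δ * M * D)]
      nlinarith [sq_nonneg |δ * M * D|]
    have hx4 : |δ * D| ^ 4 ≤ 1 / 4 * (δ * D) ^ 2 := by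
      rw [← sq_abs (δ * D)]
      have : |δ * D| ^ 2 ≤ 1 / 4 := by nlinarith [abs_nonneg (δ * D)]
      nlinarith [sq_nonneg |δ * D|]
    refine ⟨Real.cos_nonneg_of_mem_Icc ?_, by linarith⟩
    have := abs_le.1 hy
    constructor <;> linarith [Real.pi_gt_three]
  have h0 : 0 ≤ G n (δ * M) := Finset.sum_nonneg fun t ht => (key t ht).1
  rw [abs_of_nonneg h0, le_sub_iff_add_le, add_comm, ← le_sub_iff_add_le, G, G,
    ← Finset.sum_sub_distrib]
  calc δ ^ 2 * ((n : ℝ) ^ 10 / 16000000)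
      ≤ δ ^ 2 * ∑ t ∈ triples (boxPts n), ((det3 t.1 t.2.1 t.2.2 : ℤ) : ℝ) ^ 2 :=
        mul_le_mul_of_nonneg_left (sum_det_sq hn) (sq_nonneg δ)
    _ ≤ _ := by
        rw [Finset.mul_sum]
        exact Finset.sum_le_sum fun t ht => by rw [← mul_pow]; exact (key t ht).2

lemma G_one {n : ℕ} (δ : ℝ) (hδ : 0 ≤ δ) :
    (1 - 2 * (δ * (n : ℝ) ^ 2) ^ 2) * (n : ℝ) ^ 6 ≤ G n δ := by
  have hc : (triples (boxPts n)).card = n ^ 6 := by
    simp [triples, card_boxPts]; ring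
  calc _ = ∑ _t ∈ triples (boxPts n), (1 - 2 * (δ * (n : ℝ) ^ 2) ^ 2) := by
        rw [Finset.sum_const, hc, nsmul_eq_mul]; push_cast; ring
    _ ≤ _ := Finset.sum_le_sum fun t ht => by
        refine le_trans ?_ (Real.one_sub_sq_div_two_le_cos)
        have h := mul_le_mul_of_nonneg_left (det_le_real ht) hδ
        rw [← abs_of_nonneg hδ, ← abs_mul, abs_of_nonneg hδ] at h
        have h2 := pow_le_pow_left₀ (abs_nonneg _) h 2
        rw [sq_abs] at h2
        nlinarith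

end BoxGap

open BoxGap in
/-- The determinant of three random points of the box of side `√(p/E)` has Fourier transform at
`±1` real and at least `1/2`, and every other nonzero frequency is smaller by an absolute `η`. -/
theorem box_gap : ∃ (E p₀ : ℕ) (η C : ℝ), 0 < E ∧ 0 < η ∧ η ≤ 1/4 ∧ 0 < C ∧
    ∀ (p : ℕ) [Fact p.Prime], p₀ ≤ p → let l := Nat.sqrt (p / E)
      1 ≤ l ∧ 8 * l ^ 2 ≤ p ∧ (p : ℝ) ≤ C * (l : ℝ) ^ 2 ∧ (boxSet p l).card = l ^ 2 ∧
        ∃ b : ℝ, hatDet (boxSet p l) 1 = (b : ℂ) ∧ 1/2 ≤ b ∧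
          ∀ s : ZMod p, s ≠ 0 → s ≠ 1 → s ≠ -1 → ‖hatDet (boxSet p l) s‖ ≤ b - η := by
  have hκ : 0 < κ₀ / 10 := by linarith [κ₀_pos]
  obtain ⟨E, hE⟩ : ∃ E : ℕ, E = ⌈256 / (κ₀ / 10)⌉₊ + 256 := ⟨_, rfl⟩
  have hE0 : (256 : ℝ) ≤ E := by exact_mod_cast (by omega : 256 ≤ E)
  have hEκ : 256 / (κ₀ / 10) ≤ E := by
    refine (Nat.le_ceil _).trans ?_
    exact_mod_cast (by omega : ⌈256 / (κ₀ / 10)⌉₊ ≤ E)
  have hEn : 256 ≤ E := by omega
  clear hE
  refine ⟨E, E * 100, min (min (κ₀ / 10 / 2) (9 / (16000000 * (E : ℝ) ^ 2))) (1 / 4),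
    2 * E, by omega, ?_, min_le_right _ _, by linarith, ?_⟩
  · have : (0 : ℝ) < 9 / (16000000 * (E : ℝ) ^ 2) := by positivity
    simp only [lt_min_iff]
    exact ⟨⟨by linarith, this⟩, by norm_num⟩
  intro p hp hp0
  have : NeZero p := ⟨hp.out.ne_zero⟩
  intro l
  have hq : 100 ≤ p / E := by
    rw [Nat.le_div_iff_mul_le (by omega)]; linarith
  have hl10 : 10 ≤ l := by
    rw [Nat.le_sqrt]; omega
  have hl2 : l ^ 2 ≤ p / E := by rw [sq]; exact Nat.sqrt_le _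
  have hEl : E * l ^ 2 ≤ p := by
    calc E * l ^ 2 ≤ E * (p / E) := Nat.mul_le_mul_left _ hl2
      _ ≤ p := Nat.mul_div_le _ _
  have h8 : 8 * l ^ 2 ≤ p := le_trans (Nat.mul_le_mul_right _ (by omega)) hEl
  have h1 : p / E < (l + 1) * (l + 1) := Nat.lt_succ_sqrt _
  clear_value l
  have hpl : p < E * (2 * l ^ 2) := by
    have h2 : (l + 1) * (l + 1) ≤ 2 * l ^ 2 := by nlinarith
    have h3 : p < E * (p / E + 1) := Nat.lt_mul_div_succ p (by omega)
    exact lt_of_lt_of_le h3 (Nat.mul_le_mul_left _ (by omega))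
  have hlp : l ≤ p := by nlinarith
  have hl0 : (0 : ℝ) < l := by exact_mod_cast (by omega : 0 < l)
  have hp' : (0 : ℝ) < p := by exact_mod_cast hp.out.pos
  have hElR : (E : ℝ) * (l : ℝ) ^ 2 ≤ p := by exact_mod_cast hEl
  have hplR : (p : ℝ) ≤ E * (2 * (l : ℝ) ^ 2) := by exact_mod_cast hpl.le
  have hpi := Real.pi_gt_three
  have hpi4 := Real.pi_lt_four
  refine ⟨by omega, h8, by linarith, (hatDet_box hlp 0).1, G l (2 * Real.pi / p) / (l : ℝ) ^ 6,
    ?_, ?_⟩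
  · have := (hatDet_box hlp 1).2
    rwa [Int.cast_one, Int.cast_one, mul_one] at this
  set δ := 2 * Real.pi / (p : ℝ) with hδ
  have hδ0 : 0 < δ := by positivity
  have hδl : δ * (l : ℝ) ^ 2 ≤ 8 / E := by
    rw [hδ, div_mul_eq_mul_div, div_le_div_iff₀ hp' (by linarith)]
    nlinarith
  have hδl' : 3 / (E : ℝ) ≤ δ * (l : ℝ) ^ 2 := by
    rw [hδ, div_mul_eq_mul_div, div_le_div_iff₀ (by linarith) hp']
    nlinarith
  have hl6 : (0 : ℝ) < (l : ℝ) ^ 6 := by positivity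
  have hb : 1 - κ₀ / 10 / 2 ≤ G l δ / (l : ℝ) ^ 6 := by
    rw [le_div_iff₀ hl6]
    refine le_trans (mul_le_mul_of_nonneg_right ?_ hl6.le) (G_one δ hδ0.le)
    have h1 : (8 : ℝ) / E ≤ κ₀ / 10 / 32 := by
      rw [div_le_iff₀ hκ] at hEκ
      rw [div_le_iff₀ (by linarith)]
      nlinarith
    have h2 : (8 : ℝ) / E ≤ 1 / 32 := by rw [div_le_iff₀ (by linarith)]; linarith
    have h3 : 0 ≤ δ * (l : ℝ) ^ 2 := by positivity
    nlinarith
  refine ⟨by linarith [κ₀_le], fun s hs0 hs1 hs2 => ?_⟩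
  obtain ⟨M, hMdef⟩ : ∃ M, M = s.valMinAbs.natAbs := ⟨_, rfl⟩
  have hhat := (hatDet_box hlp s.valMinAbs).2
  rw [ZMod.coe_valMinAbs] at hhat
  have hG : G l (2 * Real.pi * (s.valMinAbs : ℝ) / p) = G l (δ * M) := by
    have hM : (s.valMinAbs : ℝ) = M ∨ (s.valMinAbs : ℝ) = -M := by
      rcases Int.natAbs_eq s.valMinAbs with h | h
      · left; rw [h]; simp [hMdef]
      · right; rw [h]; simp [hMdef]
    rcases hM with h | h
    · rw [h, hδ]; congr 1; ring
    · refine Finset.sum_congr rfl fun t _ => ?_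
      rw [h, ← Real.cos_neg, hδ]; congr 1; ring
  have hM2 : (2 : ℝ) ≤ M := by
    have e := ZMod.coe_valMinAbs s
    have : s.valMinAbs ≠ 0 ∧ s.valMinAbs ≠ 1 ∧ s.valMinAbs ≠ -1 := by
      refine ⟨?_, ?_, ?_⟩ <;> intro h <;> rw [h] at e <;> simp at e
      · exact hs0 e.symm
      · exact hs1 e.symm
      · exact hs2 e.symm
    exact_mod_cast (by omega : 2 ≤ M)
  have hMp : δ * M ≤ Real.pi := by
    have h1 := ZMod.natAbs_valMinAbs_le s
    have h2 : (M : ℝ) * 2 ≤ p := by exact_mod_cast (by omega : M * 2 ≤ p)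
    rw [hδ, div_mul_eq_mul_div, div_le_iff₀ hp']
    nlinarith
  rw [hhat, hG, Complex.norm_real, Real.norm_eq_abs, abs_div, abs_of_pos hl6, div_le_iff₀ hl6,
    sub_mul]
  rw [le_div_iff₀ hl6] at hb
  rcases le_or_gt (δ * M * (l : ℝ) ^ 2) (1 / 4) with hsm | hbig
  · refine (G_small hl10 hM2 hδ0 hsm).trans ?_
    rw [div_mul_cancel₀ _ hl6.ne']
    have h1 : min (min (κ₀ / 10 / 2) (9 / (16000000 * (E : ℝ) ^ 2))) (1 / 4) ≤
        9 / (16000000 * (E : ℝ) ^ 2) := (min_le_left _ _).trans (min_le_right _ _)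
    have h2 := pow_le_pow_left₀ (by positivity) hδl' 2
    have h3 : 9 / (16000000 * (E : ℝ) ^ 2) = (3 / (E : ℝ)) ^ 2 / 16000000 := by ring
    rw [h3] at h1 ⊢
    have h4 := mul_le_mul_of_nonneg_right
      (h1.trans (div_le_div_of_nonneg_right h2 (by norm_num : (0 : ℝ) ≤ 16000000))) hl6.le
    have h5 : (δ * (l : ℝ) ^ 2) ^ 2 / 16000000 * (l : ℝ) ^ 6 =
        δ ^ 2 * ((l : ℝ) ^ 10 / 16000000) := by ring
    linarith
  · refine (G_large hl10 (by positivity) hMp hbig).trans ?_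
    rw [div_mul_cancel₀ _ hl6.ne']
    have h1 : min (min (κ₀ / 10 / 2) (9 / (16000000 * (E : ℝ) ^ 2))) (1 / 4) ≤ κ₀ / 10 / 2 :=
      (min_le_left _ _).trans (min_le_left _ _)
    nlinarith

end Vale.P036.Cascade
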