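import Vale.Agent.P036.Cascade.Defs

/-!
# P036 cascade: coupling the determinants inside one group of primes

With the Fejér-type weight `‖∑_{j<N} ∏ᵢ χᵢ(j μᵢ)‖² / N` on `μ`, one set with negative
first Fourier coefficient and `g - 1` sets with dominant positive first coefficient make the group
factor of every nonzero determinant `|k| ≤ K` at most `e^{-δ}`.
-/

namespace Vale.P036.Cascade

open scoped ComplexConjugate BigOperators
open Finset

section Basic

variable {p : ℕ} [NeZero p]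

lemma norm_hatDet_le_one (S : Finset (Pt (ZMod p))) (s : ZMod p) : ‖hatDet S s‖ ≤ 1 := by
  unfold hatDet
  rw [norm_div, norm_pow, Complex.norm_natCast]
  refine div_le_one_of_le₀ ?_ (by positivity)
  refine (norm_sum_le _ _).trans ?_
  simp only [AddChar.norm_apply, sum_const, nsmul_eq_mul, mul_one]
  simp [triples, card_product]
  ring_nf
  rfl

lemma hatDet_zero (S : Finset (Pt (ZMod p))) (hS : S.Nonempty) : hatDet S 0 = 1 := by
  have : (S.card : ℂ) ≠ 0 := by exact_mod_cast hS.card_pos.ne'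
  simp [hatDet, triples, card_product]
  field_simp

lemma hatDet_neg (S : Finset (Pt (ZMod p))) (s : ZMod p) :
    hatDet S (-s) = conj (hatDet S s) := by
  simp [hatDet, map_sum, neg_mul, AddChar.map_neg_eq_conj]

lemma sum_stdAddChar_mul (L : ZMod p) :
    ∑ x : ZMod p, ZMod.stdAddChar (L * x) = if L = 0 then (p : ℂ) else 0 := by
  have h := AddChar.sum_mulShift L (ZMod.isPrimitive_stdAddChar p)
  simp only [ZMod.card] at h
  push_cast at h
  rw [← h]
  exact sum_congr rfl fun x _ => by rw [mul_comm]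

lemma sum_detCount_char [Fact p.Prime] (S : Finset (Pt (ZMod p))) (hS : S.Nonempty) (L k : ZMod p)
    (hk : k ≠ 0) :
    ∑ x : ZMod p, ZMod.stdAddChar (L * x) * (detCount S (x * k) : ℂ)
      = (S.card : ℂ) ^ 3 * hatDet S (L / k) := by
  have hσ : (S.card : ℂ) ^ 3 ≠ 0 := pow_ne_zero _ (by exact_mod_cast hS.card_pos.ne')
  rw [hatDet, mul_div_cancel₀ _ hσ,
    ← Finset.sum_fiberwise (triples S) (fun t => det3 t.1 t.2.1 t.2.2 / k)]
  refine sum_congr rfl fun x _ => ?_
  have hf : (triples S).filter (fun t => det3 t.1 t.2.1 t.2.2 / k = x)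
      = (triples S).filter (fun t => det3 t.1 t.2.1 t.2.2 = x * k) :=
    filter_congr fun t _ => div_eq_iff hk
  have hc : ∀ t ∈ (triples S).filter (fun t => det3 t.1 t.2.1 t.2.2 / k = x),
      ZMod.stdAddChar (L / k * det3 t.1 t.2.1 t.2.2) = ZMod.stdAddChar (L * x) := by
    intro t ht
    rw [← (mem_filter.1 ht).2]
    congr 1
    field_simp
  rw [sum_congr rfl hc, sum_const, hf, nsmul_eq_mul, detCount, mul_comm]

end Basic

section Group

variable {g : ℕ} (p : Fin g → ℕ) [∀ i, Fact (p i).Prime]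

/-- The weight coupling the determinants of one group. -/
noncomputable def fejer (N : ℕ) (μ : ∀ i, ZMod (p i)) : ℝ :=
  ‖∑ j ∈ range N, ∏ i, ZMod.stdAddChar (((j : ℤ) : ZMod (p i)) * μ i)‖ ^ 2 / N

lemma fejer_nonneg (N : ℕ) (μ : ∀ i, ZMod (p i)) : 0 ≤ fejer p N μ := by
  unfold fejer
  positivity

lemma sum_fejer (N : ℕ) (f : ∀ i, ZMod (p i) → ℂ) :
    ∑ μ : ∀ i, ZMod (p i), (fejer p N μ : ℂ) * ∏ i, f i (μ i)
      = (∑ j ∈ range N, ∑ l ∈ range N,
          ∏ i, ∑ x, ZMod.stdAddChar ((((j : ℤ) - l : ℤ) : ZMod (p i)) * x) * f i x) / N := by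
  have hF : ∀ μ : ∀ i, ZMod (p i), (fejer p N μ : ℂ)
      = (∑ j ∈ range N, ∑ l ∈ range N,
          ∏ i, ZMod.stdAddChar ((((j : ℤ) - l : ℤ) : ZMod (p i)) * μ i)) / N := by
    intro μ
    simp only [fejer]
    push_cast
    rw [← Complex.mul_conj', map_sum, sum_mul_sum]
    congr 1
    refine sum_congr rfl fun j _ => sum_congr rfl fun l _ => ?_
    rw [map_prod, ← prod_mul_distrib]
    refine prod_congr rfl fun i _ => ?_
    rw [← AddChar.map_neg_eq_conj, ← AddChar.map_add_eq_mul]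
    congr 1
    ring
  simp only [hF, Fintype.prod_sum, div_mul_eq_mul_div, ← sum_div, sum_mul, prod_mul_distrib]
  congr 1
  rw [sum_comm]
  exact sum_congr rfl fun j _ => sum_comm

lemma sum_fejer_one {N : ℕ} (hN : 0 < N) (hp : ∀ i, N ≤ p i) (hg : 0 < g) :
    ∑ μ : ∀ i, ZMod (p i), fejer p N μ = ∏ i, (p i : ℝ) := by
  have key := sum_fejer p N (fun _ _ => 1)
  simp only [prod_const_one, mul_one, sum_stdAddChar_mul] at key
  have hd : ∀ j ∈ range N, (∑ l ∈ range N, ∏ i, if (((j : ℤ) - l : ℤ) : ZMod (p i)) = 0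
      then (p i : ℂ) else 0) = ∏ i, (p i : ℂ) := by
    intro j hj
    rw [sum_eq_single j]
    · simp
    · intro l hl hlj
      refine prod_eq_zero (mem_univ (⟨0, hg⟩ : Fin g)) (if_neg fun h => hlj ?_)
      rw [ZMod.intCast_zmod_eq_zero_iff_dvd] at h
      have := Int.eq_zero_of_abs_lt_dvd h (by
        have := hp ⟨0, hg⟩; have := mem_range.1 hj; have := mem_range.1 hl
        rw [abs_lt]; omega)
      omega
    · exact fun h => absurd hj h
  rw [sum_congr rfl hd] at key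
  simp only [sum_const, card_range, nsmul_eq_mul] at key
  rw [mul_div_cancel_left₀ _ (by exact_mod_cast hN.ne')] at key
  exact_mod_cast key

lemma sum_fejer_slice {N : ℕ} (hN : 0 < N) (hp : ∀ i, N ≤ p i) (i₀ : Fin g) (hg : 2 ≤ g) :
    ∑ μ : ∀ i, ZMod (p i), (if μ i₀ = 0 then fejer p N μ else 0)
      = (∏ i, (p i : ℝ)) / p i₀ := by
  let f : ∀ i, ZMod (p i) → ℂ := fun i x => if i = i₀ then (if x = 0 then 1 else 0) else 1
  have key := sum_fejer p N f
  have hf : ∀ μ : ∀ i, ZMod (p i), (fejer p N μ : ℂ) * ∏ i, f i (μ i)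
      = ((if μ i₀ = 0 then fejer p N μ else 0 : ℝ) : ℂ) := by
    intro μ
    rw [prod_eq_single i₀ (fun i _ hi => by simp [f, hi]) (by simp)]
    by_cases h : μ i₀ = 0 <;> simp [f, h]
  obtain ⟨i₁, hi₁⟩ : ∃ i₁ : Fin g, i₁ ≠ i₀ := by
    by_cases h : i₀.val = 0
    · exact ⟨⟨1, by omega⟩, fun e => by rw [← e] at h; simp at h⟩
    · exact ⟨⟨0, by omega⟩, fun e => h (by rw [← e])⟩
  have hd : ∀ j ∈ range N, (∑ l ∈ range N,
      ∏ i, ∑ x, ZMod.stdAddChar ((((j : ℤ) - l : ℤ) : ZMod (p i)) * x) * f i x)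
      = (∏ i, (p i : ℂ)) / p i₀ := by
    intro j hj
    have h0 : ∀ i (L : ZMod (p i)), (∑ x, ZMod.stdAddChar (L * x) * f i x)
        = if i = i₀ then 1 else if L = 0 then (p i : ℂ) else 0 := by
      intro i L
      by_cases h : i = i₀
      · simp [f, h]
      · simp [f, h, sum_stdAddChar_mul]
    simp only [h0]
    rw [sum_eq_single j]
    · rw [eq_div_iff (by exact_mod_cast (Fact.out : (p i₀).Prime).ne_zero),
        ← mul_prod_erase univ (fun i => (p i : ℂ)) (mem_univ i₀),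
        ← mul_prod_erase univ _ (mem_univ i₀)]
      simp only [if_pos]
      rw [one_mul, mul_comm]
      congr 1
      exact prod_congr rfl fun i hi => by simp [(mem_erase.1 hi).1]
    · intro l hl hlj
      refine prod_eq_zero (mem_univ i₁) ?_
      rw [if_neg hi₁, if_neg]
      intro h
      rw [ZMod.intCast_zmod_eq_zero_iff_dvd] at h
      have := Int.eq_zero_of_abs_lt_dvd h (by
        have := hp i₁; have := mem_range.1 hj; have := mem_range.1 hl
        rw [abs_lt]; omega)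
      omega
    · exact fun h => absurd hj h
  rw [sum_congr rfl fun μ _ => hf μ, sum_congr rfl hd] at key
  simp only [sum_const, card_range, nsmul_eq_mul] at key
  rw [mul_div_cancel_left₀ _ (by exact_mod_cast hN.ne'), ← Complex.ofReal_sum] at key
  apply Complex.ofReal_injective
  rw [key]
  push_cast
  rfl

/-- The coupling weight on units. -/
noncomputable def unitWeight (N : ℕ) (μ : ∀ i, (ZMod (p i))ˣ) : ℝ :=
  fejer p N fun i => (μ i : ZMod (p i))

lemma unitWeight_nonneg (N : ℕ) (μ : ∀ i, (ZMod (p i))ˣ) : 0 ≤ unitWeight p N μ :=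
  fejer_nonneg p N _

lemma sum_unitWeight_mul_le (N : ℕ) (f : (∀ i, ZMod (p i)) → ℝ) (hf : ∀ μ, 0 ≤ f μ) :
    ∑ μ : ∀ i, (ZMod (p i))ˣ, unitWeight p N μ * f (fun i => (μ i : ZMod (p i)))
      ≤ ∑ μ, fejer p N μ * f μ := by
  let e : (∀ i, (ZMod (p i))ˣ) ↪ (∀ i, ZMod (p i)) :=
    ⟨fun μ i => (μ i : ZMod (p i)), fun a b h => funext fun i => Units.ext (congrFun h i)⟩
  have := sum_map univ e (fun μ => fejer p N μ * f μ)
  refine this.symm.le.trans ?_
  exact sum_le_univ_sum_of_nonneg fun μ => mul_nonneg (fejer_nonneg p N μ) (hf μ)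

lemma le_sum_unitWeight {N : ℕ} (hN : 0 < N) (hp : ∀ i, N ≤ p i) (hg : 2 ≤ g) :
    (1 - ∑ i, 1 / (p i : ℝ)) * ∏ i, (p i : ℝ) ≤ ∑ μ : ∀ i, (ZMod (p i))ˣ, unitWeight p N μ := by
  classical
  let e : (∀ i, (ZMod (p i))ˣ) ↪ (∀ i, ZMod (p i)) :=
    ⟨fun μ i => (μ i : ZMod (p i)), fun a b h => funext fun i => Units.ext (congrFun h i)⟩
  have hpt : ∀ μ : ∀ i, ZMod (p i), fejer p N μ ≤ (if μ ∈ univ.map e then fejer p N μ else 0)
      + ∑ i, if μ i = 0 then fejer p N μ else 0 := by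
    intro μ
    have hnn : ∀ i ∈ (univ : Finset (Fin g)), 0 ≤ (if μ i = 0 then fejer p N μ else 0) :=
      fun i _ => by split_ifs <;> simp [fejer_nonneg]
    by_cases h : ∀ i, μ i ≠ 0
    · have hm : μ ∈ univ.map e :=
        mem_map.2 ⟨fun i => Units.mk0 (μ i) (h i), mem_univ _, rfl⟩
      rw [if_pos hm]
      linarith [sum_nonneg hnn]
    · push Not at h
      obtain ⟨i, hi⟩ := h
      have := single_le_sum hnn (mem_univ i)
      rw [if_pos hi] at this
      have h2 : 0 ≤ (if μ ∈ univ.map e then fejer p N μ else 0) := by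
        split_ifs <;> simp [fejer_nonneg]
      linarith
  have h := sum_le_sum fun μ (_ : μ ∈ (univ : Finset _)) => hpt μ
  rw [sum_add_distrib, sum_ite_mem, univ_inter, sum_map, sum_comm,
    sum_fejer_one p hN hp (by omega)] at h
  simp only [sum_fejer_slice p hN hp _ hg] at h
  have he : ∀ μ, fejer p N (e μ) = unitWeight p N μ := fun μ => rfl
  simp only [he, div_eq_mul_one_div (∏ i, (p i : ℝ)), ← mul_sum] at h
  nlinarith [h]

end Group

section Gain

variable {m : ℕ} (p : Fin (m + 3) → ℕ) [∀ i, Fact (p i).Prime]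

/-- The Fourier bound: the real part of `∑_{j,l} ∏ᵢ hat ((j - l) / k)` is at most `(1 - γ) N`. -/
lemma re_sum_prod_hatDet_le (S : ∀ i, Finset (Pt (ZMod (p i)))) (hS : ∀ i, (S i).Nonempty)
    {a η B : ℝ} {b : Fin (m + 2) → ℝ} (hη0 : 0 ≤ η) (hη1 : η ≤ 1) (hB : 0 ≤ B)
    (ha : hatDet (S 0) 1 = (a : ℂ)) (ha0 : a ≤ 0)
    (hb : ∀ i, hatDet (S (Fin.succ i)) 1 = (b i : ℂ)) (hb0 : ∀ i, 1 / 2 ≤ b i)
    (hstray : ∀ i s, s ≠ 0 → s ≠ 1 → s ≠ -1 → ‖hatDet (S (Fin.succ i)) s‖ ≤ b i - η)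
    (hsq : ∀ i, ∑ s, ‖hatDet (S (Fin.succ i)) s‖ ^ 2 ≤ B)
    (hmain : B * (1 - η) ^ m ≤ -a / 16)
    {K : ℕ} (hp : ∀ i, 8 * (K + 1) ≤ p i) {k : ℤ} (hk : k ≠ 0) (hkK : |k| ≤ (K : ℤ)) :
    (∑ j ∈ range (2 * K + 1), ∑ l ∈ range (2 * K + 1),
        ∏ i, hatDet (S i) ((((j : ℤ) - l : ℤ) : ZMod (p i)) / (k : ZMod (p i)))).re
      ≤ (1 - (-a) / 2 ^ (m + 4)) * (2 * K + 1 : ℕ) := by
  set N := 2 * K + 1 with hN
  set Pi : ℝ := ∏ i : Fin m, b i.succ.succ with hPi
  have hb1 : ∀ i, b i ≤ 1 := by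
    intro i
    have := norm_hatDet_le_one (S (Fin.succ i)) 1
    rw [hb i, Complex.norm_real, Real.norm_eq_abs, abs_le] at this
    exact this.2
  have hPi0 : (1 / 2 : ℝ) ^ m ≤ Pi := by
    have := prod_le_prod (s := (univ : Finset (Fin m))) (f := fun _ => (1 / 2 : ℝ))
      (g := fun i => b i.succ.succ) (fun _ _ => by norm_num) (fun i _ => hb0 _)
    simpa [hPi] using this
  have hPipos : 0 ≤ Pi := le_trans (by positivity) hPi0
  have hkz : ∀ i, (k : ZMod (p i)) ≠ 0 := by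
    intro i h
    rw [ZMod.intCast_zmod_eq_zero_iff_dvd] at h
    exact hk (Int.eq_zero_of_abs_lt_dvd h (by
      have := hp i; push_cast at *; omega))
  let H : ℤ → ℂ := fun L => ∏ i, hatDet (S i) ((L : ZMod (p i)) / (k : ZMod (p i)))
  have hmain_eq : ∀ L, L = k ∨ L = -k → H L = (((a * (b 0 * (b 1 * Pi))) : ℝ) : ℂ) := by
    intro L hL
    have h1 : ∀ i, hatDet (S i) ((L : ZMod (p i)) / (k : ZMod (p i))) = hatDet (S i) 1 := by
      intro i
      rcases hL with rfl | rfl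
      · rw [div_self (hkz i)]
      · push_cast
        rw [neg_div, div_self (hkz i), hatDet_neg]
        induction i using Fin.cases with
        | zero => rw [ha, Complex.conj_ofReal]
        | succ i => rw [hb, Complex.conj_ofReal]
    simp only [H, h1, Fin.prod_univ_succ, ha, hb, hPi]
    push_cast
    rfl
  have hstrayb : ∀ L : ℤ, |L| < N → L ≠ 0 → L ≠ k → L ≠ -k → ‖H L‖ ≤ Pi * (1 - η) ^ m *
      ((‖hatDet (S (Fin.succ 0)) ((L : ZMod (p _)) / (k : ZMod (p _)))‖ ^ 2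
        + ‖hatDet (S (Fin.succ 1)) ((L : ZMod (p _)) / (k : ZMod (p _)))‖ ^ 2) / 2) := by
    intro L hL h0 h1 h2
    have small : ∀ i, ∀ M : ℤ, |M| ≤ 3 * (K + 1) → (M : ZMod (p i)) = 0 → M = 0 := by
      intro i M hM h
      rw [ZMod.intCast_zmod_eq_zero_iff_dvd] at h
      exact Int.eq_zero_of_abs_lt_dvd h (by have := hp i; push_cast at *; omega)
    have hs : ∀ i : Fin m, ‖hatDet (S i.succ.succ.succ) ((L : ZMod (p _)) / (k : ZMod (p _)))‖
        ≤ b i.succ.succ * (1 - η) := by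
      intro i
      refine (hstray _ _ ?_ ?_ ?_).trans ?_
      · rw [div_ne_zero_iff]
        exact ⟨fun h => h0 (small _ L (by push_cast at *; omega) h), hkz _⟩
      · rw [Ne, div_eq_one_iff_eq (hkz _)]
        intro h
        have := small i.succ.succ.succ (L - k) (abs_le.2 ⟨by have := abs_lt.1 hL; have := abs_le.1 hkK; omega,
          by have := abs_lt.1 hL; have := abs_le.1 hkK; omega⟩)
          (by push_cast; rw [h, sub_self])
        omega
      · rw [Ne, div_eq_iff (hkz _), neg_one_mul]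
        intro h
        have := small i.succ.succ.succ (L + k) (abs_le.2 ⟨by have := abs_lt.1 hL; have := abs_le.1 hkK; omega,
          by have := abs_lt.1 hL; have := abs_le.1 hkK; omega⟩)
          (by push_cast; rw [h, neg_add_cancel])
        omega
      · nlinarith [hb1 i.succ.succ, hη0]
    simp only [H, Fin.prod_univ_succ, norm_mul, norm_prod]
    refine (mul_le_of_le_one_left (by positivity) (norm_hatDet_le_one _ _)).trans ?_
    rw [← mul_assoc, mul_comm _ ((_ + _) / 2)]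
    refine mul_le_mul ?_ ?_ (by positivity) (by positivity)
    · change ‖hatDet (S (Fin.succ 0)) ((L : ZMod (p _)) / (k : ZMod (p _)))‖ *
        ‖hatDet (S (Fin.succ 1)) ((L : ZMod (p _)) / (k : ZMod (p _)))‖ ≤ _
      have hxy : ∀ x y : ℝ, x * y ≤ (x ^ 2 + y ^ 2) / 2 := fun x y => by
        nlinarith [sq_nonneg (x - y)]
      exact hxy _ _
    · calc _ ≤ ∏ i : Fin m, (b i.succ.succ * (1 - η)) :=
            prod_le_prod (fun i _ => norm_nonneg _) fun i _ => hs i
        _ = Pi * (1 - η) ^ m := by rw [prod_mul_distrib, prod_const, card_univ, Fintype.card_fin]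
  have hneg : a * (b 0 * (b 1 * Pi)) ≤ a / 4 * Pi := by
    have : (1 / 4 : ℝ) * Pi ≤ b 0 * (b 1 * Pi) := by
      rw [← mul_assoc]
      exact mul_le_mul_of_nonneg_right (by nlinarith [hb0 0, hb0 1]) hPipos
    nlinarith
  have hrow : ∀ j ∈ range N, (∑ l ∈ range N, H ((j : ℤ) - l)).re
      ≤ 1 + (if ∃ l ∈ range N, (j : ℤ) - l = k then a / 4 * Pi else 0)
        + Pi * (1 - η) ^ m * B := by
    intro j hj
    have hH0 : H 0 = 1 := prod_eq_one fun i _ => by simp [hatDet_zero _ (hS i)]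
    have hpt : ∀ l ∈ range N, (H ((j : ℤ) - l)).re ≤ (if l = j then 1 else 0)
        + (if (j : ℤ) - l = k then a / 4 * Pi else 0)
        + Pi * (1 - η) ^ m *
          ((‖hatDet (S (Fin.succ 0)) (((((j : ℤ) - l : ℤ)) : ZMod (p _)) / (k : ZMod (p _)))‖ ^ 2
            + ‖hatDet (S (Fin.succ 1)) ((((j : ℤ) - l : ℤ) : ZMod (p _)) / (k : ZMod (p _)))‖ ^ 2)
              / 2) := by
      intro l hl
      have hnn : 0 ≤ Pi * (1 - η) ^ m *
          ((‖hatDet (S (Fin.succ 0)) (((((j : ℤ) - l : ℤ)) : ZMod (p _)) / (k : ZMod (p _)))‖ ^ 2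
            + ‖hatDet (S (Fin.succ 1)) ((((j : ℤ) - l : ℤ) : ZMod (p _)) / (k : ZMod (p _)))‖ ^ 2)
              / 2) := by
        have : 0 ≤ 1 - η := by linarith
        positivity
      by_cases h1 : l = j
      · subst h1
        have : H ((l : ℤ) - l) = 1 := by rw [sub_self]; exact hH0
        rw [if_pos rfl, if_neg (by omega), this, Complex.one_re]
        linarith
      rw [if_neg h1]
      by_cases h2 : (j : ℤ) - l = k
      · rw [if_pos h2, hmain_eq _ (Or.inl h2), Complex.ofReal_re]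
        linarith
      rw [if_neg h2]
      by_cases h3 : (j : ℤ) - l = -k
      · rw [hmain_eq _ (Or.inr h3), Complex.ofReal_re]
        have : a / 4 * Pi ≤ 0 := mul_nonpos_of_nonpos_of_nonneg (by linarith) hPipos
        linarith
      have := hstrayb _ (by
        have := mem_range.1 hj; have := mem_range.1 hl
        rw [abs_lt]; omega) (by omega) h2 h3
      linarith [Complex.re_le_norm (H ((j : ℤ) - l))]
    rw [Complex.re_sum]
    refine (sum_le_sum hpt).trans ?_
    rw [sum_add_distrib, sum_add_distrib, sum_ite_eq', if_pos hj, ← mul_sum, ← sum_div,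
      sum_add_distrib]
    have hinj : ∀ i : Fin (m + 2), ∑ l ∈ range N,
        ‖hatDet (S i.succ) ((((j : ℤ) - l : ℤ) : ZMod (p _)) / (k : ZMod (p _)))‖ ^ 2 ≤ B := by
      intro i
      refine le_trans (le_of_eq ?_) (le_trans (sum_le_univ_sum_of_nonneg
        (s := (range N).image fun l => (((j : ℤ) - (l : ℕ) : ℤ) : ZMod (p i.succ)) / (k : ZMod _))
        (fun s => sq_nonneg ‖hatDet (S i.succ) s‖)) (hsq i))
      rw [sum_image]
      intro l hl l' hl' h
      simp only at h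
      rw [div_left_inj' (hkz _), ZMod.intCast_eq_intCast_iff_dvd_sub] at h
      have := Int.eq_zero_of_abs_lt_dvd h (by
        have := mem_range.1 hl; have := mem_range.1 hl'; have := hp i.succ
        rw [abs_lt]; omega)
      omega
    refine add_le_add (add_le_add le_rfl ?_) ?_
    · split_ifs with h
      · obtain ⟨l, hl, hlk⟩ := h
        rw [sum_eq_single l (fun l' _ hne => if_neg (by omega)) (fun h' => absurd hl h'),
          if_pos hlk]
      · push Not at h
        exact (sum_eq_zero fun l hl => if_neg (h l hl)).le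
    · refine mul_le_mul_of_nonneg_left ?_ (mul_nonneg hPipos (pow_nonneg (by linarith) _))
      linarith [hinj 0, hinj 1]
  have hcount : N ≤ 2 * #((range N).filter fun j => ∃ l ∈ range N, ((j : ℕ) : ℤ) - l = k) := by
    have hsub : Ico (max k 0).toNat ((N : ℤ) + min k 0).toNat ⊆
        (range N).filter fun j => ∃ l ∈ range N, ((j : ℕ) : ℤ) - l = k := by
      intro j hj
      rw [mem_Ico] at hj
      rw [mem_filter, mem_range]
      refine ⟨by omega, ((j : ℤ) - k).toNat, mem_range.2 (by omega), by omega⟩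
    have := card_le_card hsub
    rw [Nat.card_Ico] at this
    have := abs_le.1 hkK
    omega
  calc _ = ∑ j ∈ range N, (∑ l ∈ range N, H ((j : ℤ) - l)).re := Complex.re_sum _ _
    _ ≤ _ := sum_le_sum hrow
    _ ≤ _ := by
      rw [sum_add_distrib, sum_add_distrib, sum_ite, sum_const_zero, add_zero, sum_const, sum_const,
        sum_const, card_range]
      simp only [nsmul_eq_mul, mul_one]
      have hN' : (N : ℝ) ≤ 2 * (#((range N).filter fun j => ∃ l ∈ range N,
          ((j : ℕ) : ℤ) - l = k) : ℝ) := by exact_mod_cast hcount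
      have h1 : a / 4 * Pi ≤ 0 := mul_nonpos_of_nonpos_of_nonneg (by linarith) hPipos
      have h2 := mul_le_mul_of_nonpos_right hN' h1
      have h3 : Pi * (1 - η) ^ m * B ≤ Pi * (-a / 16) := by
        rw [mul_assoc, mul_comm ((1 - η) ^ m)]
        exact mul_le_mul_of_nonneg_left hmain hPipos
      have h4 := mul_le_mul_of_nonneg_left h3 (Nat.cast_nonneg (α := ℝ) N)
      have h5 : a / 16 * Pi ≤ -(-a / 2 ^ (m + 4)) := by
        have := mul_le_mul_of_nonpos_left hPi0 (show a / 16 ≤ 0 by linarith)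
        refine this.trans (le_of_eq ?_)
        rw [div_pow, one_pow, pow_add]
        field_simp
        ring
      have h6 := mul_le_mul_of_nonneg_left h5 (Nat.cast_nonneg (α := ℝ) N)
      linarith

end Gain

/-- Group gain: for suitable group size, the coupled group factor of every `1 ≤ |k| ≤ K` is at most
`e^{-δ}`. -/
theorem group_gain {a₀ η B : ℝ} (ha₀ : 0 < a₀) (hη : 0 < η) (hη1 : η ≤ 1) (hB : 0 < B) :
    ∃ m : ℕ, ∃ δ : ℝ, 0 < δ ∧ δ ≤ 1 ∧ ∃ P₀ : ℕ,
      ∀ (p : Fin (m + 3) → ℕ) [∀ i, Fact (p i).Prime] (S : ∀ i, Finset (Pt (ZMod (p i)))) (K : ℕ),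
      (∀ i, (S i).Nonempty) →
      (∀ i, 8 * (K + 1) ≤ p i) → (∀ i, P₀ ≤ p i) →
      (∃ a : ℝ, hatDet (S 0) 1 = (a : ℂ) ∧ a ≤ -a₀) →
      (∀ i : Fin (m + 2), ∃ b : ℝ, hatDet (S i.succ) 1 = (b : ℂ) ∧ 1 / 2 ≤ b ∧
        (∀ s, s ≠ 0 → s ≠ 1 → s ≠ -1 → ‖hatDet (S i.succ) s‖ ≤ b - η) ∧
        ∑ s, ‖hatDet (S i.succ) s‖ ^ 2 ≤ B) →
      0 < ∑ μ : ∀ i, (ZMod (p i))ˣ, unitWeight p (2 * K + 1) μ ∧
      ∀ k : ℤ, k ≠ 0 → |k| ≤ (K : ℤ) →
        ∑ μ : ∀ i, (ZMod (p i))ˣ, unitWeight p (2 * K + 1) μ *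
            ∏ i, (detCount (S i) ((μ i : ZMod (p i)) * (k : ZMod (p i))) : ℝ)
          ≤ Real.exp (-δ) * (∑ μ : ∀ i, (ZMod (p i))ˣ, unitWeight p (2 * K + 1) μ) *
            ∏ i, (((p i : ℝ) ^ 2 - 1) / (p i : ℝ) ^ 3 * ((S i).card : ℝ) ^ 3) := by
  obtain ⟨m, hm⟩ := exists_pow_lt_of_lt_one (show 0 < a₀ / 16 / B by positivity)
    (show 1 - η < 1 by linarith)
  set γ : ℝ := min a₀ 1 / 2 ^ (m + 4) with hγ
  have hγ0 : 0 < γ := by positivity
  have hγ1 : γ ≤ 1 / 2 := by
    rw [hγ, div_le_iff₀ (by positivity)]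
    have : (2 : ℝ) ^ 1 ≤ 2 ^ (m + 4) := pow_le_pow_right₀ (by norm_num) (by omega)
    linarith [min_le_right a₀ 1]
  obtain ⟨P₀, hP₀⟩ := exists_nat_ge (8 * (m + 3) / γ)
  refine ⟨m, γ / 4, by positivity, by linarith, P₀, ?_⟩
  intro p _ S K hS hp hP hneg hpos
  obtain ⟨a, ha, ha'⟩ := hneg
  choose b hb hb0 hstray hsq using hpos
  set N := 2 * K + 1
  have hN : 0 < N := by omega
  have hpN : ∀ i, N ≤ p i := fun i => by have := hp i; omega
  set W := ∑ μ : ∀ i, (ZMod (p i))ˣ, unitWeight p N μ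
  have hq : ∀ i, 1 / (p i : ℝ) ≤ γ / (8 * (m + 3)) := by
    intro i
    have h1 : 8 * ((m : ℝ) + 3) / γ ≤ p i := hP₀.trans (by exact_mod_cast hP i)
    calc 1 / (p i : ℝ) ≤ 1 / (8 * ((m : ℝ) + 3) / γ) :=
          one_div_le_one_div_of_le (by positivity) h1
      _ = _ := one_div_div _ _
  have hW1 : (1 - γ / 8) * ∏ i, (p i : ℝ) ≤ W := by
    refine le_trans (mul_le_mul_of_nonneg_right ?_ (by positivity))
      (le_sum_unitWeight p hN hpN (by omega))
    have := sum_le_sum fun i (_ : i ∈ (univ : Finset (Fin (m + 3)))) => hq i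
    rw [sum_const, card_univ, Fintype.card_fin, nsmul_eq_mul] at this
    refine sub_le_sub_left (this.trans (le_of_eq ?_)) 1
    push_cast
    field_simp
  have hppos : 0 < ∏ i, (p i : ℝ) :=
    prod_pos fun i _ => by exact_mod_cast (Fact.out : (p i).Prime).pos
  refine ⟨lt_of_lt_of_le (mul_pos (by linarith) hppos) hW1, fun k hk hkK => ?_⟩
  refine (sum_unitWeight_mul_le p N
    (fun μ => ∏ i, (detCount (S i) (μ i * (k : ZMod (p i))) : ℝ))
    (fun μ => by positivity)).trans ?_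
  have hkz : ∀ i, (k : ZMod (p i)) ≠ 0 := by
    intro i h
    rw [ZMod.intCast_zmod_eq_zero_iff_dvd] at h
    exact hk (Int.eq_zero_of_abs_lt_dvd h (by have := hp i; omega))
  have key := sum_fejer p N (fun i x => (detCount (S i) (x * (k : ZMod (p i))) : ℂ))
  simp only [sum_detCount_char _ (hS _) _ _ (hkz _), prod_mul_distrib, ← mul_sum] at key
  have hre := congrArg Complex.re key
  rw [mul_div_assoc, Complex.re_sum] at hre
  have hl : ∀ μ : ∀ i, ZMod (p i),
      ((fejer p N μ : ℂ) * ∏ i, (detCount (S i) (μ i * (k : ZMod (p i))) : ℂ)).re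
        = fejer p N μ * ∏ i, (detCount (S i) (μ i * (k : ZMod (p i))) : ℝ) := by
    intro μ
    rw [← Complex.ofReal_re (fejer p N μ * _)]
    push_cast
    rfl
  rw [sum_congr rfl fun μ _ => hl μ] at hre
  rw [hre]
  have hr : (∏ i, ((S i).card : ℂ) ^ 3) = ((∏ i, ((S i).card : ℝ) ^ 3 : ℝ) : ℂ) := by push_cast; rfl
  rw [hr, Complex.re_ofReal_mul, Complex.div_natCast_re]
  have hbd := re_sum_prod_hatDet_le p S hS hη.le hη1 hB.le ha (by linarith) hb hb0 hstray hsq (by
    rw [lt_div_iff₀ hB] at hm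
    linarith [mul_comm ((1 - η) ^ m) B]) hp hk hkK
  rw [prod_mul_distrib, ← mul_assoc (Real.exp (-(γ / 4)) * W), mul_comm (∏ i, ((S i).card : ℝ) ^ 3)]
  refine mul_le_mul_of_nonneg_right ?_ (by positivity)
  rw [div_le_iff₀ (by exact_mod_cast hN)]
  refine hbd.trans (mul_le_mul_of_nonneg_right ?_ (by positivity))
  have h1 : γ ≤ -a / 2 ^ (m + 4) := by
    rw [hγ]
    gcongr
    linarith [min_le_left a₀ 1]
  have h2 : (1 - γ / 8) ≤ (∏ i, (p i : ℝ)) * ∏ i, ((p i : ℝ) ^ 2 - 1) / (p i : ℝ) ^ 3 := by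
    rw [← prod_mul_distrib]
    have hge : ∀ i ∈ (univ : Finset (Fin (m + 3))),
        1 - γ / (8 * (m + 3)) ≤ (p i : ℝ) * (((p i : ℝ) ^ 2 - 1) / (p i : ℝ) ^ 3) := by
      intro i _
      have hp0 : (1 : ℝ) ≤ p i := by exact_mod_cast (Fact.out : (p i).Prime).one_lt.le
      have : (p i : ℝ) * (((p i : ℝ) ^ 2 - 1) / (p i : ℝ) ^ 3)
          = 1 - 1 / (p i : ℝ) * (1 / (p i : ℝ)) := by
        field_simp
      rw [this]
      have h3 : 1 / (p i : ℝ) ≤ 1 := by rw [div_le_one (by linarith)]; exact hp0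
      have h4 : 1 / (p i : ℝ) * (1 / (p i : ℝ)) ≤ 1 / (p i : ℝ) :=
        mul_le_of_le_one_left (by positivity) h3
      linarith [hq i]
    have hx : γ / (8 * ((m : ℝ) + 3)) ≤ 1 := by
      rw [div_le_one (by positivity)]
      have : (0 : ℝ) ≤ m := Nat.cast_nonneg m
      linarith
    refine le_trans ?_ (prod_le_prod (fun i _ => by linarith) hge)
    rw [prod_const, card_univ, Fintype.card_fin]
    refine le_trans (le_of_eq ?_) (one_add_mul_le_pow (by linarith) _)
    push_cast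
    field_simp
    ring
  have h4 : 1 - γ / 4 ≤ Real.exp (-(γ / 4)) := by linarith [Real.add_one_le_exp (-(γ / 4))]
  have h5 : 0 ≤ 1 - γ / 8 := by linarith
  calc 1 - -a / 2 ^ (m + 4) ≤ 1 - γ := by linarith
    _ ≤ (1 - γ / 4) * ((1 - γ / 8) * (1 - γ / 8)) := by nlinarith [mul_pos hγ0 hγ0]
    _ ≤ Real.exp (-(γ / 4)) * ((1 - γ / 8) * ((∏ i, (p i : ℝ)) *
          ∏ i, ((p i : ℝ) ^ 2 - 1) / (p i : ℝ) ^ 3)) :=
        mul_le_mul h4 (mul_le_mul_of_nonneg_left h2 h5) (by positivity) (Real.exp_pos _).le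
    _ ≤ _ := by
      rw [mul_assoc, ← mul_assoc (1 - γ / 8)]
      refine mul_le_mul_of_nonneg_left (mul_le_mul_of_nonneg_right hW1 (prod_nonneg fun i _ => ?_))
        (Real.exp_pos _).le
      have hp0 : (1 : ℝ) ≤ p i := by exact_mod_cast (Fact.out : (p i).Prime).one_lt.le
      have : 1 ≤ (p i : ℝ) ^ 2 := one_le_pow₀ hp0
      exact div_nonneg (by linarith) (by positivity)

end Vale.P036.Cascade
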