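import Vale.Agent.P036.Cascade.Affine
import Vale.Agent.P036.Cascade.Wave

/-!
# P036 cascade: weighted counts of one group of primes
-/

namespace Vale.P036.Cascade

open Finset

variable {g : ℕ} (p : Fin g → ℕ) [∀ i, Fact (p i).Prime]

/-- Density of the product of the sets. -/
noncomputable def groupDensity (S : ∀ i, Finset (Pt (ZMod (p i)))) : ℝ :=
  ∏ i, ((S i).card : ℝ) / (p i : ℝ) ^ 2

omit [∀ i, Fact (p i).Prime] in
lemma groupDensity_nonneg (S : ∀ i, Finset (Pt (ZMod (p i)))) : 0 ≤ groupDensity p S := by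
  unfold groupDensity
  positivity

lemma groupDensity_le_one (S : ∀ i, Finset (Pt (ZMod (p i)))) : groupDensity p S ≤ 1 := by
  refine prod_le_one (fun i _ => by positivity) fun i _ => div_le_one_of_le₀ ?_ (by positivity)
  have h := card_le_univ (S i)
  rw [Fintype.card_prod, ZMod.card] at h
  rw [sq]
  exact_mod_cast h

/-- Weighted number of parameters of one group accepting all of `X`. -/
noncomputable def groupSum (N : ℕ) (S : ∀ i, Finset (Pt (ZMod (p i)))) (X : Finset (Pt ℤ)) : ℝ :=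
  ∑ μ : ∀ i, (ZMod (p i))ˣ, unitWeight p N μ * ∏ i, (affCount (S i) (μ i) X : ℝ)

/-- Total weight of one group. -/
noncomputable def groupMass (N : ℕ) : ℝ :=
  (∑ μ : ∀ i, (ZMod (p i))ˣ, unitWeight p N μ) * ∏ i, ((affMaps (p i)).card : ℝ)

lemma groupSum_nonneg (N : ℕ) (S : ∀ i, Finset (Pt (ZMod (p i)))) (X : Finset (Pt ℤ)) :
    0 ≤ groupSum p N S X :=
  sum_nonneg fun μ _ => mul_nonneg (unitWeight_nonneg p N μ) (by positivity)

lemma card_affMaps_real (q : ℕ) [Fact q.Prime] :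
    ((affMaps q).card : ℝ) = (q : ℝ) ^ 3 * ((q : ℝ) ^ 2 - 1) := by
  rw [card_affMaps]
  have : 1 ≤ q ^ 2 := Nat.one_le_pow _ _ (Fact.out : q.Prime).pos
  push_cast [this]
  rfl

lemma groupSum_single (N : ℕ) (S : ∀ i, Finset (Pt (ZMod (p i)))) (x : Pt ℤ) :
    groupSum p N S {x} = groupMass p N * groupDensity p S := by
  have h : ∀ (μ : ∀ i, (ZMod (p i))ˣ) i, (affCount (S i) (μ i) {x} : ℝ)
      = ((affMaps (p i)).card : ℝ) * (((S i).card : ℝ) / (p i : ℝ) ^ 2) := by
    intro μ i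
    have hp : (p i : ℝ) ≠ 0 := by exact_mod_cast (Fact.out : (p i).Prime).ne_zero
    rw [← mul_div_assoc, eq_div_iff (pow_ne_zero 2 hp), mul_comm ((affMaps (p i)).card : ℝ)]
    exact_mod_cast affCount_singleton (S i) (μ i) x
  simp only [groupSum, groupMass, groupDensity, h, prod_mul_distrib, ← sum_mul]
  ring

lemma groupSum_le_single (N : ℕ) (S : ∀ i, Finset (Pt (ZMod (p i)))) {X : Finset (Pt ℤ)}
    {x : Pt ℤ} (hx : x ∈ X) : groupSum p N S X ≤ groupMass p N * groupDensity p S := by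
  rw [← groupSum_single p N S x]
  refine sum_le_sum fun μ _ => mul_le_mul_of_nonneg_left ?_ (unitWeight_nonneg p N μ)
  refine prod_le_prod (fun i _ => by positivity) fun i _ => ?_
  exact_mod_cast affCount_mono (S i) (μ i) (singleton_subset_iff.2 hx)

lemma groupSum_triple (N : ℕ) (S : ∀ i, Finset (Pt (ZMod (p i)))) (x y z : Pt ℤ) {δ : ℝ}
    (hk : ∀ i, ((det3 x y z : ℤ) : ZMod (p i)) ≠ 0)
    (hgain : ∑ μ : ∀ i, (ZMod (p i))ˣ, unitWeight p N μ *
        ∏ i, (detCount (S i) ((μ i : ZMod (p i)) * ((det3 x y z : ℤ) : ZMod (p i))) : ℝ)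
      ≤ Real.exp (-δ) * (∑ μ : ∀ i, (ZMod (p i))ˣ, unitWeight p N μ) *
          ∏ i, (((p i : ℝ) ^ 2 - 1) / (p i : ℝ) ^ 3 * ((S i).card : ℝ) ^ 3)) :
    groupSum p N S {x, y, z} ≤ Real.exp (-δ) * groupMass p N * groupDensity p S ^ 3 := by
  simp only [groupSum, fun (μ : ∀ i, (ZMod (p i))ˣ) i =>
    affCount_triple (S i) (μ i) x y z (hk i)]
  refine hgain.trans (le_of_eq ?_)
  simp only [groupMass, groupDensity, ← prod_pow, mul_assoc, ← prod_mul_distrib, card_affMaps_real]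
  congr 2
  refine prod_congr rfl fun i _ => ?_
  have hp : (p i : ℝ) ≠ 0 := by exact_mod_cast (Fact.out : (p i).Prime).ne_zero
  field_simp

/-- Correlation of a collinear triple at one prime. -/
noncomputable def lineRatio {q : ℕ} [NeZero q] (S : Finset (Pt (ZMod q))) (a b : ZMod q) : ℝ :=
  2 * (q : ℝ) ^ 2 * (lineCount S a b : ℝ) / (S.card : ℝ) ^ 3

lemma lineRatio_nonneg {q : ℕ} [NeZero q] (S : Finset (Pt (ZMod q))) (a b : ZMod q) :
    0 ≤ lineRatio S a b := by
  unfold lineRatio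
  positivity

lemma affCount_line_le (q : ℕ) [Fact q.Prime] (S : Finset (Pt (ZMod q))) (hS : S.Nonempty)
    (μ : (ZMod q)ˣ) (x u : Pt ℤ) (a b : ℤ) :
    (affCount S μ {x, x + a • u, x + b • u} : ℝ) ≤
      ((affMaps q).card : ℝ) * ((S.card : ℝ) / (q : ℝ) ^ 2) ^ 3 *
        ((if (q : ℤ) ∣ u.1 ∧ (q : ℤ) ∣ u.2 then (q : ℝ) ^ 4 / (S.card : ℝ) ^ 2 else 0)
          + lineRatio S a b) := by
  have hq : (2 : ℝ) ≤ q := by exact_mod_cast (Fact.out : q.Prime).two_le
  have hq0 : (q : ℝ) ≠ 0 := by linarith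
  have hσ : (0 : ℝ) < S.card := by exact_mod_cast hS.card_pos
  have hN : (0 : ℝ) ≤ ((affMaps q).card : ℝ) * ((S.card : ℝ) / (q : ℝ) ^ 2) ^ 3 := by positivity
  by_cases hu : (q : ℤ) ∣ u.1 ∧ (q : ℤ) ∣ u.2
  · rw [if_pos hu]
    refine le_trans ?_ (mul_le_mul_of_nonneg_left (le_add_of_nonneg_right (lineRatio_nonneg S _ _)) hN)
    have h1 : (affCount S μ {x, x + a • u, x + b • u} : ℝ) ≤ (affCount S μ {x} : ℝ) := by
      exact_mod_cast affCount_mono S μ (singleton_subset_iff.2 (by simp))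
    have h2 : (affCount S μ {x} : ℝ) = ((affMaps q).card : ℝ) * ((S.card : ℝ) / (q : ℝ) ^ 2) := by
      rw [← mul_div_assoc, eq_div_iff (pow_ne_zero 2 hq0), mul_comm ((affMaps q).card : ℝ)]
      exact_mod_cast affCount_singleton S μ x
    refine (h1.trans_eq h2).trans (le_of_eq ?_)
    field_simp
  · rw [if_neg hu, zero_add, affCount_line S μ x u a b ?_, card_affMaps_real]
    · push_cast
      have h4 : (q : ℝ) ^ 2 ≤ 2 * ((q : ℝ) ^ 2 - 1) := by nlinarith
      have e : (q : ℝ) ^ 3 * ((q : ℝ) ^ 2 - 1) * ((S.card : ℝ) / (q : ℝ) ^ 2) ^ 3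
            * lineRatio S (a : ZMod q) (b : ZMod q)
          = (q : ℝ) * (lineCount S (a : ZMod q) (b : ZMod q) : ℝ)
              * (2 * ((q : ℝ) ^ 2 - 1) / (q : ℝ) ^ 2) := by
        unfold lineRatio
        field_simp
      rw [e]
      refine le_mul_of_one_le_right (by positivity) ?_
      rw [le_div_iff₀ (by positivity), one_mul]
      exact h4
    · intro h
      simp only [castPt, Prod.ext_iff, Prod.fst_zero, Prod.snd_zero,
        ZMod.intCast_zmod_eq_zero_iff_dvd] at h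
      exact hu h

lemma groupSum_line (N : ℕ) (S : ∀ i, Finset (Pt (ZMod (p i)))) (hS : ∀ i, (S i).Nonempty)
    (x u : Pt ℤ) (a b : ℤ) :
    groupSum p N S {x, x + a • u, x + b • u} ≤ groupMass p N * groupDensity p S ^ 3 *
      ∏ i, ((if (p i : ℤ) ∣ u.1 ∧ (p i : ℤ) ∣ u.2 then (p i : ℝ) ^ 4 / ((S i).card : ℝ) ^ 2 else 0)
        + lineRatio (S i) a b) := by
  refine (sum_le_sum fun μ _ => mul_le_mul_of_nonneg_left (prod_le_prod (fun i _ => by positivity)
    fun i _ => affCount_line_le (p i) (S i) (hS i) (μ i) x u a b) (unitWeight_nonneg p N μ)).trans ?_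
  rw [← sum_mul, groupMass, groupDensity, ← prod_pow, mul_assoc, mul_assoc, ← prod_mul_distrib,
    ← prod_mul_distrib]
  refine le_of_eq (congrArg _ (prod_congr rfl fun i _ => ?_))
  ring

/-- Parameters of one group. -/
abbrev GroupParam : Type :=
  (∀ i, (ZMod (p i))ˣ) × (∀ i, Pt (ZMod (p i)) × (Pt (ZMod (p i)) × Pt (ZMod (p i))))

noncomputable def groupParams : Finset (GroupParam p) :=
  univ ×ˢ Fintype.piFinset fun i => affMaps (p i)

lemma sum_groupParams (N : ℕ) (S : ∀ i, Finset (Pt (ZMod (p i)))) (X : Finset (Pt ℤ)) :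
    ∑ w ∈ groupParams p, unitWeight p N w.1 *
        (if ∀ x ∈ X, ∀ i, affAct (w.1 i) (w.2 i) x ∈ S i then (1 : ℝ) else 0)
      = groupSum p N S X := by
  rw [groupParams, sum_product]
  refine sum_congr rfl fun μ _ => ?_
  dsimp only
  rw [← mul_sum]
  congr 1
  have h : ∀ f : ∀ i, Pt (ZMod (p i)) × (Pt (ZMod (p i)) × Pt (ZMod (p i))),
      (if ∀ x ∈ X, ∀ i, affAct (μ i) (f i) x ∈ S i then (1 : ℝ) else 0)
        = ∏ i, (if ∀ x ∈ X, affAct (μ i) (f i) x ∈ S i then (1 : ℝ) else 0) := by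
    intro f
    rw [Fintype.prod_boole]
    congr 1
    simp only [eq_iff_iff]
    exact ⟨fun h i x hx => h x hx i, fun h x hx i => h i x hx⟩
  simp only [h]
  rw [← prod_univ_sum (fun i => affMaps (p i))
    (fun i f => if ∀ x ∈ X, affAct (μ i) f x ∈ S i then (1 : ℝ) else 0)]
  refine prod_congr rfl fun i _ => ?_
  rw [sum_boole, affCount]

lemma sum_groupParams_weight (N : ℕ) :
    ∑ w ∈ groupParams p, unitWeight p N w.1 = groupMass p N := by
  rw [groupParams, sum_product, groupMass, sum_mul]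
  refine sum_congr rfl fun μ _ => ?_
  dsimp only
  rw [sum_const, Fintype.card_piFinset, nsmul_eq_mul, mul_comm]
  push_cast
  rfl

end Vale.P036.Cascade
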