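import Vale.Agent.P036.Cascade.Defs

/-!
# P036 cascade construction: a set mod `p` whose determinant has negative first Fourier coefficient

The blow-up of eleven points of `(ℤ/6)²` with spacing `√(p/6)`.
-/

namespace Vale.P036.Cascade

open Finset

/-- Twice `cos (2π d / 6)`. -/
def cosTable (d : ℤ) : ℤ :=
  if d % 6 = 0 then 2 else if d % 6 = 1 ∨ d % 6 = 5 then 1 else if d % 6 = 3 then -2 else -1

lemma cosTable_sum :
    (∑ a ∈ elevenPts, ∑ b ∈ elevenPts, ∑ c ∈ elevenPts, cosTable (det3 a b c)) = -98 := by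
  decide +kernel

lemma elevenPts_card : elevenPts.card = 11 := by decide

lemma elevenPts_range : ∀ z ∈ elevenPts, 0 ≤ z.1 ∧ z.1 ≤ 5 ∧ 0 ≤ z.2 ∧ z.2 ≤ 5 := by decide

lemma cos_sixth (d : ℤ) : Real.cos (2 * Real.pi * (d : ℝ) / 6) = (cosTable d : ℝ) / 2 := by
  obtain ⟨q, r, hr0, hr6, hd, hr⟩ :
      ∃ q r : ℤ, 0 ≤ r ∧ r < 6 ∧ d = 6 * q + r ∧ r = d % 6 :=
    ⟨d / 6, d % 6, Int.emod_nonneg _ (by norm_num), Int.emod_lt_of_pos _ (by norm_num),
      (Int.mul_ediv_add_emod d 6).symm, rfl⟩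
  have harg : 2 * Real.pi * (d : ℝ) / 6 = Real.pi * (r : ℝ) / 3 + (q : ℝ) * (2 * Real.pi) := by
    rw [hd]; push_cast; ring
  rw [harg, Real.cos_add_int_mul_two_pi, cosTable, ← hr]
  interval_cases r
  · norm_num
  · norm_num [Real.cos_pi_div_three]
  · rw [show Real.pi * ((2 : ℤ) : ℝ) / 3 = Real.pi - Real.pi / 3 by push_cast; ring,
      Real.cos_pi_sub, Real.cos_pi_div_three]
    norm_num
  · rw [show Real.pi * ((3 : ℤ) : ℝ) / 3 = Real.pi by push_cast; ring, Real.cos_pi]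
    norm_num
  · rw [show Real.pi * ((4 : ℤ) : ℝ) / 3 = Real.pi / 3 + Real.pi by push_cast; ring,
      Real.cos_add_pi, Real.cos_pi_div_three]
    norm_num
  · rw [show Real.pi * ((5 : ℤ) : ℝ) / 3 = 2 * Real.pi - Real.pi / 3 by push_cast; ring,
      Real.cos_two_pi_sub, Real.cos_pi_div_three]
    norm_num

/-- A point of the blow-up. -/
def blowPt (s : ℕ) (w : Pt ℤ × Pt ℤ) : Pt ℤ :=
  ((s : ℤ) * w.1.1 + w.2.1, (s : ℤ) * w.1.2 + w.2.2)

lemma negPts_eq (s t : ℕ) : negPts s t = (elevenPts ×ˢ boxPts t).image (blowPt s) := rfl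

lemma mem_boxPts {l : ℕ} {v : Pt ℤ} :
    v ∈ boxPts l ↔ 0 ≤ v.1 ∧ v.1 < l ∧ 0 ≤ v.2 ∧ v.2 < l := by
  simp [boxPts, and_assoc]

lemma card_boxPts (l : ℕ) : (boxPts l).card = l * l := by
  simp [boxPts]

lemma blow_inj {s : ℤ} {a a' q q' : ℤ} (hq0 : 0 ≤ q) (hq : q < s) (hq0' : 0 ≤ q') (hq' : q' < s)
    (h : s * a + q = s * a' + q') : a = a' ∧ q = q' := by
  have ha : a = a' := by
    rcases lt_trichotomy a a' with hlt | heq | hgt
    · nlinarith
    · exact heq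
    · nlinarith
  subst ha
  exact ⟨rfl, by linarith⟩

lemma blowPt_injOn {s t : ℕ} (hts : t ≤ s) :
    Set.InjOn (blowPt s) (↑(elevenPts ×ˢ boxPts t) : Set (Pt ℤ × Pt ℤ)) := by
  intro w hw w' hw' he
  obtain ⟨-, hq⟩ := Finset.mem_product.1 (Finset.mem_coe.1 hw)
  obtain ⟨-, hq'⟩ := Finset.mem_product.1 (Finset.mem_coe.1 hw')
  obtain ⟨a1, a2, a3, a4⟩ := mem_boxPts.1 hq
  obtain ⟨b1, b2, b3, b4⟩ := mem_boxPts.1 hq'
  have hts' : (t : ℤ) ≤ s := by exact_mod_cast hts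
  obtain ⟨h1, h2⟩ := blow_inj a1 (lt_of_lt_of_le a2 hts') b1 (lt_of_lt_of_le b2 hts')
    (congrArg Prod.fst he)
  obtain ⟨h3, h4⟩ := blow_inj a3 (lt_of_lt_of_le a4 hts') b3 (lt_of_lt_of_le b4 hts')
    (congrArg Prod.snd he)
  exact Prod.ext (Prod.ext h1 h3) (Prod.ext h2 h4)

lemma negPts_subset {s t : ℕ} (hts : t ≤ s) : negPts s t ⊆ boxPts (6 * s) := by
  intro v hv
  rw [negPts_eq] at hv
  obtain ⟨w, hw, rfl⟩ := Finset.mem_image.1 hv
  obtain ⟨hz, hq⟩ := Finset.mem_product.1 hw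
  obtain ⟨a1, a2, a3, a4⟩ := mem_boxPts.1 hq
  obtain ⟨c1, c2, c3, c4⟩ := elevenPts_range _ hz
  have hts' : (t : ℤ) ≤ s := by exact_mod_cast hts
  refine mem_boxPts.2 ⟨?_, ?_, ?_, ?_⟩ <;> simp only [blowPt] <;> push_cast <;> nlinarith

lemma castPt_injOn_box {p l : ℕ} (hl : l ≤ p) :
    Set.InjOn (castPt p) (↑(boxPts l) : Set (Pt ℤ)) := by
  intro a ha b hb he
  obtain ⟨a1, a2, a3, a4⟩ := mem_boxPts.1 (Finset.mem_coe.1 ha)
  obtain ⟨b1, b2, b3, b4⟩ := mem_boxPts.1 (Finset.mem_coe.1 hb)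
  have hl' : (l : ℤ) ≤ p := by exact_mod_cast hl
  have key : ∀ x y : ℤ, 0 ≤ x → x < l → 0 ≤ y → y < l →
      (x : ZMod p) = (y : ZMod p) → x = y := by
    intro x y hx hx' hy hy' h
    obtain ⟨k, hk⟩ := (ZMod.intCast_eq_intCast_iff_dvd_sub x y p).1 h
    have hk0 : k = 0 := by
      rcases lt_trichotomy k 0 with hlt | heq | hgt
      · nlinarith
      · exact heq
      · nlinarith
    subst hk0
    linarith
  exact Prod.ext (key _ _ a1 a2 b1 b2 (congrArg Prod.fst he))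
    (key _ _ a3 a4 b3 b4 (congrArg Prod.snd he))

lemma sum_triples_image {α β M : Type*} [DecidableEq β] [AddCommMonoid M] (G : Finset α)
    (φ : α → β) (hφ : Set.InjOn φ (↑G : Set α)) (f : β → β → β → M) :
    ∑ t ∈ triples (G.image φ), f t.1 t.2.1 t.2.2
      = ∑ a ∈ G, ∑ b ∈ G, ∑ c ∈ G, f (φ a) (φ b) (φ c) := by
  simp only [triples, Finset.sum_product]
  rw [Finset.sum_image hφ]
  refine Finset.sum_congr rfl fun a _ => ?_
  rw [Finset.sum_image hφ]
  exact Finset.sum_congr rfl fun b _ => Finset.sum_image hφ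

lemma abs_mul_le_of {x y X Y : ℤ} (hx : |x| ≤ X) (hy : |y| ≤ Y) : |x * y| ≤ X * Y := by
  rw [abs_mul]
  exact mul_le_mul hx hy (abs_nonneg _) ((abs_nonneg _).trans hx)

lemma perturb_bound {s t A B C E A' B' C' E' : ℤ} (hs : 0 ≤ s) (ht : 0 ≤ t) (hts : t ≤ s)
    (hA : |A| ≤ 5) (hB : |B| ≤ 5) (hC : |C| ≤ 5) (hE : |E| ≤ 5)
    (hA' : |A'| ≤ t) (hB' : |B'| ≤ t) (hC' : |C'| ≤ t) (hE' : |E'| ≤ t) :
    |(s * A + A') * (s * E + E') - (s * B + B') * (s * C + C') - s ^ 2 * (A * E - B * C)|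
      ≤ 22 * s * t := by
  have hm : |A * E' + A' * E - B * C' - B' * C| ≤ 20 * t := by
    have t1 := abs_le.1 (abs_mul_le_of hA hE')
    have t2 := abs_le.1 (abs_mul_le_of hA' hE)
    have t3 := abs_le.1 (abs_mul_le_of hB hC')
    have t4 := abs_le.1 (abs_mul_le_of hB' hC)
    exact abs_le.2 ⟨by linarith, by linarith⟩
  have hq : |A' * E' - B' * C'| ≤ 2 * (s * t) := by
    have t5 := abs_le.1 (abs_mul_le_of hA' hE')
    have t6 := abs_le.1 (abs_mul_le_of hB' hC')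
    have htt : t * t ≤ s * t := mul_le_mul_of_nonneg_right hts ht
    exact abs_le.2 ⟨by linarith, by linarith⟩
  have hid : (s * A + A') * (s * E + E') - (s * B + B') * (s * C + C') - s ^ 2 * (A * E - B * C)
      = s * (A * E' + A' * E - B * C' - B' * C) + (A' * E' - B' * C') := by ring
  have hsm : |s * (A * E' + A' * E - B * C' - B' * C)| ≤ s * (20 * t) :=
    abs_mul_le_of (le_of_eq (abs_of_nonneg hs)) hm
  rw [hid]
  refine (abs_add_le _ _).trans ((add_le_add hsm hq).trans (le_of_eq ?_))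
  ring

lemma abs_sub_le_box {x y X : ℤ} (hx : 0 ≤ x) (hx' : x ≤ X) (hy : 0 ≤ y) (hy' : y ≤ X) :
    |x - y| ≤ X := abs_le.2 ⟨by linarith, by linarith⟩

/-- The determinant of three blown-up points is close to `s²` times that of their centres. -/
lemma blow_det {s t : ℕ} (hts : t ≤ s) {a b c : Pt ℤ × Pt ℤ}
    (ha : a ∈ elevenPts ×ˢ boxPts t) (hb : b ∈ elevenPts ×ˢ boxPts t)
    (hc : c ∈ elevenPts ×ˢ boxPts t) :
    |det3 (blowPt s a) (blowPt s b) (blowPt s c) - (s : ℤ) ^ 2 * det3 a.1 b.1 c.1|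
        ≤ 22 * (s : ℤ) * t ∧ |det3 a.1 b.1 c.1| ≤ 50 := by
  obtain ⟨hza, hqa⟩ := Finset.mem_product.1 ha
  obtain ⟨hzb, hqb⟩ := Finset.mem_product.1 hb
  obtain ⟨hzc, hqc⟩ := Finset.mem_product.1 hc
  obtain ⟨a1, a2, a3, a4⟩ := mem_boxPts.1 hqa
  obtain ⟨b1, b2, b3, b4⟩ := mem_boxPts.1 hqb
  obtain ⟨c1, c2, c3, c4⟩ := mem_boxPts.1 hqc
  obtain ⟨d1, d2, d3, d4⟩ := elevenPts_range _ hza
  obtain ⟨e1, e2, e3, e4⟩ := elevenPts_range _ hzb
  obtain ⟨f1, f2, f3, f4⟩ := elevenPts_range _ hzc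
  have hA := abs_sub_le_box e1 e2 d1 d2
  have hB := abs_sub_le_box e3 e4 d3 d4
  have hC := abs_sub_le_box f1 f2 d1 d2
  have hE := abs_sub_le_box f3 f4 d3 d4
  refine ⟨?_, ?_⟩
  · have h := perturb_bound (Int.natCast_nonneg s) (Int.natCast_nonneg t)
      (by exact_mod_cast hts) hA hB hC hE (abs_sub_le_box b1 b2.le a1 a2.le)
      (abs_sub_le_box b3 b4.le a3 a4.le) (abs_sub_le_box c1 c2.le a1 a2.le)
      (abs_sub_le_box c3 c4.le a3 a4.le)
    refine le_trans (le_of_eq ?_) h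
    congr 1
    simp only [det3, blowPt]
    ring
  · have t1 := abs_le.1 (abs_mul_le_of hA hE)
    have t2 := abs_le.1 (abs_mul_le_of hB hC)
    simp only [det3]
    exact abs_le.2 ⟨by linarith, by linarith⟩

/-- N1: the negative factor. -/
theorem exists_negative_set : ∃ p0 : ℕ, ∃ C : ℝ, 0 < C ∧ ∀ (p : ℕ) [Fact p.Prime], p0 ≤ p →
    let s := Nat.sqrt (p / 6)
    let t := s / 4000
    let S := (negPts s t).image (castPt p)
    negPts s t ⊆ boxPts (6 * s) ∧ 6 * s < p ∧ (p : ℝ) ≤ C * S.card ∧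
      ∃ a : ℝ, hatDet S 1 = (a : ℂ) ∧ a ≤ -(1 / 100) := by
  refine ⟨60000000006, 24 * 8000 ^ 2, by norm_num, fun p _ hp => ?_⟩
  intro s t S
  have hsle : s * s ≤ p / 6 := Nat.sqrt_le (p / 6)
  have hslt : p / 6 < (s + 1) * (s + 1) := Nat.lt_succ_sqrt (p / 6)
  have hsbig : 100000 ≤ s := Nat.le_sqrt.2 (by omega)
  have hlow : 6 * (s * s) ≤ p := by omega
  have hhigh : p < 6 * ((s + 1) * (s + 1)) := by omega
  have hts : t ≤ s := Nat.div_le_self _ _
  have ht : 4000 * t ≤ s := Nat.mul_div_le s 4000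
  have hs_t : s ≤ 8000 * t := by omega
  have hsp : 6 * s < p := by nlinarith
  have hinj : Set.InjOn (castPt p ∘ blowPt s)
      (↑(elevenPts ×ˢ boxPts t) : Set (Pt ℤ × Pt ℤ)) := by
    refine (castPt_injOn_box (le_of_lt hsp)).comp (blowPt_injOn hts) ?_
    intro w hw
    exact Finset.mem_coe.2 (negPts_subset hts
      (by rw [negPts_eq]; exact Finset.mem_image_of_mem _ (Finset.mem_coe.1 hw)))
  have hS : S = (elevenPts ×ˢ boxPts t).image (castPt p ∘ blowPt s) := by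
    show (negPts s t).image (castPt p) = _
    rw [negPts_eq, Finset.image_image]
  have hScard : S.card = 11 * (t * t) := by
    rw [hS, Finset.card_image_of_injOn hinj, Finset.card_product, elevenPts_card, card_boxPts]
  refine ⟨negPts_subset hts, hsp, ?_, ?_⟩
  · rw [hScard]
    have h1 : p ≤ 24 * 8000 ^ 2 * (11 * (t * t)) := by nlinarith
    exact_mod_cast h1
  set G := elevenPts ×ˢ boxPts t with hG
  have hpR : (0 : ℝ) < p := by
    have : 0 < p := by omega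
    exact_mod_cast this
  let D : Pt ℤ × Pt ℤ → Pt ℤ × Pt ℤ → Pt ℤ × Pt ℤ → ℤ := fun a b c =>
    det3 (blowPt s a) (blowPt s b) (blowPt s c)
  let cs : ℝ := ∑ a ∈ G, ∑ b ∈ G, ∑ c ∈ G, Real.cos (2 * Real.pi * (D a b c : ℝ) / p)
  refine ⟨cs / (S.card : ℝ) ^ 3, ?_, ?_⟩
  · -- the character sum is the cosine sum
    have hstep : ∑ q ∈ triples S, ZMod.stdAddChar ((1 : ZMod p) * det3 q.1 q.2.1 q.2.2)
        = ∑ a ∈ G, ∑ b ∈ G, ∑ c ∈ G, ZMod.stdAddChar ((D a b c : ℤ) : ZMod p) := by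
      rw [hS]
      refine (sum_triples_image G _ hinj
        (fun X Y Z => ZMod.stdAddChar ((1 : ZMod p) * det3 X Y Z))).trans ?_
      refine Finset.sum_congr rfl fun a _ => Finset.sum_congr rfl fun b _ =>
        Finset.sum_congr rfl fun c _ => ?_
      simp [D, det3, castPt]
    have hswap : ∑ a ∈ G, ∑ b ∈ G, ∑ c ∈ G, ZMod.stdAddChar ((D a b c : ℤ) : ZMod p)
        = ∑ a ∈ G, ∑ b ∈ G, ∑ c ∈ G, ZMod.stdAddChar (((-D a b c) : ℤ) : ZMod p) := by
      refine Finset.sum_congr rfl fun a _ => ?_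
      rw [Finset.sum_comm]
      refine Finset.sum_congr rfl fun b _ => Finset.sum_congr rfl fun c _ => ?_
      congr 2
      simp only [D, det3]
      ring
    have hreal : ∑ a ∈ G, ∑ b ∈ G, ∑ c ∈ G, ZMod.stdAddChar ((D a b c : ℤ) : ZMod p)
        = (cs : ℂ) := by
      have h2 : (2 : ℂ) * ∑ a ∈ G, ∑ b ∈ G, ∑ c ∈ G, ZMod.stdAddChar ((D a b c : ℤ) : ZMod p)
          = 2 * (cs : ℂ) := by
        rw [two_mul]
        nth_rewrite 2 [hswap]
        simp only [cs, ← Finset.sum_add_distrib, Complex.ofReal_sum, Finset.mul_sum]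
        refine Finset.sum_congr rfl fun a _ => Finset.sum_congr rfl fun b _ =>
          Finset.sum_congr rfl fun c _ => ?_
        rw [ZMod.stdAddChar_coe, ZMod.stdAddChar_coe, Complex.ofReal_cos, Complex.two_cos]
        push_cast
        congr 1 <;> congr 1 <;> ring
      exact mul_left_cancel₀ two_ne_zero h2
    show (∑ q ∈ triples S, ZMod.stdAddChar ((1 : ZMod p) * det3 q.1 q.2.1 q.2.2))
        / (S.card : ℂ) ^ 3 = _
    rw [hstep, hreal]
    push_cast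
    ring
  · -- the cosine sum is negative
    have hterm : ∀ a ∈ G, ∀ b ∈ G, ∀ c ∈ G, Real.cos (2 * Real.pi * (D a b c : ℝ) / p)
        ≤ (cosTable (det3 a.1 b.1 c.1) : ℝ) / 2 + 1 / 100 := by
      intro a ha b hb c hc
      obtain ⟨h22, h50⟩ := blow_det hts ha hb hc
      set d : ℤ := det3 a.1 b.1 c.1
      have hsl : (6 * (s : ℤ) ^ 2) ≤ p := by rw [pow_two]; exact_mod_cast hlow
      have hsh : (p : ℤ) < 6 * (((s : ℤ) + 1) * ((s : ℤ) + 1)) := by exact_mod_cast hhigh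
      have ht' : 4000 * (t : ℤ) ≤ s := by exact_mod_cast ht
      have hsb : (100000 : ℤ) ≤ s := by exact_mod_cast hsbig
      have hk : 105 * |6 * D a b c - (p : ℤ) * d| ≤ p := by
        have e1 : |(6 * (s : ℤ) ^ 2 - p) * d| ≤ (12 * (s : ℤ) + 6) * 50 :=
          abs_mul_le_of (show |6 * (s : ℤ) ^ 2 - p| ≤ 12 * (s : ℤ) + 6 from
            abs_le.2 ⟨by nlinarith, by nlinarith⟩) h50
        have e2 : 6 * D a b c - (p : ℤ) * d
            = (6 * (s : ℤ) ^ 2 - p) * d + 6 * (D a b c - (s : ℤ) ^ 2 * d) := by ring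
        have e3 : |6 * (D a b c - (s : ℤ) ^ 2 * d)| ≤ 6 * (22 * (s : ℤ) * t) := by
          rw [abs_mul, show |(6 : ℤ)| = 6 from abs_of_pos (by norm_num)]
          exact mul_le_mul_of_nonneg_left h22 (by norm_num)
        have e4 : |6 * D a b c - (p : ℤ) * d| ≤ (12 * (s : ℤ) + 6) * 50 + 6 * (22 * (s : ℤ) * t) := by
          rw [e2]; exact (abs_add_le _ _).trans (add_le_add e1 e3)
        nlinarith
      have hkR : 105 * |6 * (D a b c : ℝ) - (p : ℝ) * (d : ℝ)| ≤ (p : ℝ) := by exact_mod_cast hk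
      have hdiff : |2 * Real.pi * (D a b c : ℝ) / p - 2 * Real.pi * (d : ℝ) / 6| ≤ 1 / 100 := by
        have h6 : (0 : ℝ) < 6 * (p : ℝ) := by positivity
        have e : 2 * Real.pi * (D a b c : ℝ) / p - 2 * Real.pi * (d : ℝ) / 6
            = 2 * Real.pi * (6 * (D a b c : ℝ) - (p : ℝ) * (d : ℝ)) / (6 * (p : ℝ)) := by
          field_simp
        rw [e, abs_div, abs_of_pos h6, abs_mul, abs_of_pos (by positivity : 0 < 2 * Real.pi),
          div_le_iff₀ h6]
        nlinarith [Real.pi_lt_d2, Real.pi_pos,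
          abs_nonneg (6 * (D a b c : ℝ) - (p : ℝ) * (d : ℝ))]
      have hl := (Real.abs_cos_sub_cos_le (2 * Real.pi * (D a b c : ℝ) / p)
        (2 * Real.pi * (d : ℝ) / 6)).trans hdiff
      rw [abs_le, cos_sixth] at hl
      linarith [hl.2]
    have hfib : ∀ g : Pt ℤ → ℝ, ∑ w ∈ G, g w.1 = ((t * t : ℕ) : ℝ) * ∑ z ∈ elevenPts, g z := by
      intro g
      rw [hG, Finset.sum_product, Finset.mul_sum]
      refine Finset.sum_congr rfl fun z _ => ?_
      simp [card_boxPts]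
    have hbound : cs ≤ ((t * t : ℕ) : ℝ) ^ 3 * (-49 + 1331 / 100) := by
      calc cs ≤ ∑ a ∈ G, ∑ b ∈ G, ∑ c ∈ G,
            ((cosTable (det3 a.1 b.1 c.1) : ℝ) / 2 + 1 / 100) :=
            Finset.sum_le_sum fun a ha => Finset.sum_le_sum fun b hb =>
              Finset.sum_le_sum fun c hc => hterm a ha b hb c hc
        _ = ((t * t : ℕ) : ℝ) ^ 3 * ∑ a ∈ elevenPts, ∑ b ∈ elevenPts, ∑ c ∈ elevenPts,
            ((cosTable (det3 a b c) : ℝ) / 2 + 1 / 100) := by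
          rw [Finset.sum_congr rfl fun a _ => Finset.sum_congr rfl fun b _ =>
            hfib fun z => (cosTable (det3 a.1 b.1 z) : ℝ) / 2 + 1 / 100]
          simp only [← Finset.mul_sum]
          rw [Finset.sum_congr rfl fun a _ => hfib fun y => ∑ z ∈ elevenPts,
            ((cosTable (det3 a.1 y z) : ℝ) / 2 + 1 / 100)]
          simp only [← Finset.mul_sum]
          rw [hfib fun x => ∑ y ∈ elevenPts, ∑ z ∈ elevenPts,
            ((cosTable (det3 x y z) : ℝ) / 2 + 1 / 100)]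
          ring
        _ = ((t * t : ℕ) : ℝ) ^ 3 * (-49 + 1331 / 100) := by
          have h := cosTable_sum
          have hR : (∑ a ∈ elevenPts, ∑ b ∈ elevenPts, ∑ c ∈ elevenPts,
              (cosTable (det3 a b c) : ℝ)) = -98 := by exact_mod_cast h
          simp only [Finset.sum_add_distrib, ← Finset.sum_div, hR, Finset.sum_const,
            elevenPts_card, nsmul_eq_mul]
          norm_num
    have htpos : (0 : ℝ) < ((t * t : ℕ) : ℝ) := by
      have : 0 < t := by omega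
      positivity
    have hcardR : (S.card : ℝ) = 11 * ((t * t : ℕ) : ℝ) := by rw [hScard]; push_cast; ring
    rw [hcardR, div_le_iff₀ (by positivity)]
    nlinarith [pow_pos htpos 3]

end Vale.P036.Cascade
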