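import Vale.Agent.P036.Cascade.Defs

/-!
# P036 cascade construction: choice of the parameters

With `X = log n`: `r ≍ √(X / log X)` groups of `g` primes, `K = ⌈X⌉^((2g+3) r)`, primes by iterated
Bertrand, and `H`, `d`, `Q`, `M` powers of `n`.
-/

namespace Vale.P036.Cascade

open Filter Real

private lemma params_ceil_le {a : ℝ} (ha : 1 ≤ a) : (⌈a⌉₊ : ℝ) ≤ 2 * a := by
  linarith [Nat.ceil_lt_add_one (show 0 ≤ a by linarith)]

private lemma params_prime_chain {N : ℕ} (hN : N ≠ 0) :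
    ∃ f : ℕ → ℕ, StrictMono f ∧ ∀ j, (f j).Prime ∧ N < f j ∧ f j ≤ 2 ^ (j + 1) * N := by
  classical
  have hx : ∀ m : ℕ, ∃ p : ℕ, m ≠ 0 → p.Prime ∧ m < p ∧ p ≤ 2 * m := fun m => by
    rcases eq_or_ne m 0 with h | h
    · exact ⟨0, fun h' => absurd h h'⟩
    · obtain ⟨p, h1, h2, h3⟩ := Nat.exists_prime_lt_and_le_two_mul m h
      exact ⟨p, fun _ => ⟨h1, h2, h3⟩⟩
  choose step hstep using hx
  let f : ℕ → ℕ := fun j => Nat.rec (step N) (fun _ q => step q) j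
  have hf : ∀ j, (f j).Prime ∧ N < f j ∧ f j ≤ 2 ^ (j + 1) * N := by
    intro j
    induction j with
    | zero => simpa [f] using hstep N hN
    | succ j ih =>
      have h := hstep (f j) ih.1.ne_zero
      refine ⟨h.1, ih.2.1.trans h.2.1, h.2.2.trans ?_⟩
      calc 2 * f j ≤ 2 * (2 ^ (j + 1) * N) := Nat.mul_le_mul_left 2 ih.2.2
        _ = _ := by ring
  exact ⟨f, strictMono_nat_of_lt_succ fun j => (hstep (f j) (hf j).1.ne_zero).2.1, hf⟩

private lemma params_primes (g r K P₀ : ℕ) (hK : 1 ≤ K) :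
    ∃ p : Fin r → Fin g → ℕ, (∀ γ i, (p γ i).Prime) ∧
      Function.Injective (fun x : Fin r × Fin g => p x.1 x.2) ∧
      ∀ γ i, P₀ ≤ p γ i ∧ 8 * (K + 1) ≤ p γ i ∧
        log (p γ i) ≤ g * r * log 2 + log (16 + (P₀ : ℝ)) + log K := by
  obtain ⟨f, hmono, hf⟩ := params_prime_chain (show 8 * (K + 1) + P₀ ≠ 0 by omega)
  refine ⟨fun γ i => f (finProdFinEquiv (γ, i) : Fin (r * g)).val, fun γ i => (hf _).1, ?_,
    fun γ i => ?_⟩
  · intro x y h
    exact finProdFinEquiv.injective (Fin.ext (hmono.injective h))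
  · obtain ⟨h0, h1, h2⟩ := hf (finProdFinEquiv (γ, i) : Fin (r * g)).val
    dsimp only
    refine ⟨by omega, by omega, ?_⟩
    have hj : (finProdFinEquiv (γ, i) : Fin (r * g)).val + 1 ≤ g * r := by
      rw [mul_comm g r]; exact (finProdFinEquiv (γ, i)).isLt
    have hK' : (1 : ℝ) ≤ K := by exact_mod_cast hK
    have h3 : (f (finProdFinEquiv (γ, i) : Fin (r * g)).val : ℝ) ≤
        2 ^ (g * r) * ((16 + (P₀ : ℝ)) * K) := by
      refine le_trans (Nat.cast_le.2 (h2.trans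
        (Nat.mul_le_mul_right _ (Nat.pow_le_pow_right (by norm_num) hj)))) ?_
      rw [Nat.cast_mul, Nat.cast_pow, Nat.cast_two]
      refine mul_le_mul_of_nonneg_left ?_ (by positivity)
      push_cast
      nlinarith [(Nat.cast_nonneg P₀ : (0 : ℝ) ≤ P₀)]
    refine le_trans (log_le_log (by exact_mod_cast h0.pos) h3) (le_of_eq ?_)
    rw [log_mul (by positivity) (by positivity), log_mul (by positivity) (by positivity), log_pow]
    push_cast
    ring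

private lemma params_eventually (C A T B : ℝ) : ∀ᶠ X : ℝ in atTop, 4 ≤ X ∧ C ≤ X ∧ exp 1 ≤ X ∧
    A ≤ log X ∧ B * X ≤ exp (X / 100) ∧ T ≤ sqrt (X / log X) := by
  have e5 : ∀ᶠ X : ℝ in atTop, B * X ≤ exp (X / 100) := by
    have ht : Tendsto (fun X : ℝ => exp (X / 100) / X ^ 1) atTop atTop := by
      have h1 := (tendsto_exp_div_pow_atTop 1).comp
        (tendsto_id.atTop_div_const (show (0 : ℝ) < 100 by norm_num))
      refine (h1.atTop_div_const (show (0 : ℝ) < 100 by norm_num)).congr fun X => ?_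
      simp only [Function.comp_apply, id_eq, pow_one]
      field_simp
    filter_upwards [ht.eventually_ge_atTop B, eventually_gt_atTop 0] with X hX h0
    rwa [pow_one, le_div_iff₀ h0] at hX
  have e6 : ∀ᶠ X : ℝ in atTop, T ≤ sqrt (X / log X) := by
    have h := isLittleO_log_id_atTop.def (show (0 : ℝ) < 1 / (T ^ 2 + 1) by positivity)
    filter_upwards [h, eventually_gt_atTop 1] with X hX h1
    have hl : 0 < log X := log_pos h1
    simp only [id_eq, Real.norm_eq_abs, abs_of_pos hl, abs_of_pos (show 0 < X by linarith)] at hX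
    refine Real.le_sqrt_of_sq_le ?_
    rw [le_div_iff₀ hl]
    calc T ^ 2 * log X ≤ (T ^ 2 + 1) * (1 / (T ^ 2 + 1) * X) :=
          mul_le_mul (by linarith) hX hl.le (by positivity)
      _ = X := by field_simp
  filter_upwards [eventually_ge_atTop (4 : ℝ), eventually_ge_atTop C,
    eventually_ge_atTop (exp 1), tendsto_log_atTop.eventually_ge_atTop A, e5, e6]
    with X h1 h2 h3 h4 h5 h6 using ⟨h1, h2, h3, h4, h5, h6⟩

/-- `H`, `d`, `Q`, `M`, `L`, given the size `U` of `(M / n)²`. -/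
private lemma params_sizes {n : ℕ} {X C U W : ℝ} (hn : (n : ℝ) = exp X) (hX : 4 ≤ X) (hC : 4 ≤ C)
    (hB : (24 * 4 * 20 ^ 6 + 6 + 16 * C) * X ≤ exp (X / 100)) (hU1 : 1 ≤ U)
    (hU2 : U ≤ exp (2 * X / 100)) (hW : W ≤ exp (2 * X / 100)) :
    ∃ M H d Q L : ℕ, 1 ≤ M ∧ 1 ≤ H ∧ 1 ≤ d ∧ Q.Prime ∧ exp (X / 100) ≤ H ∧
      2 * (5 * H * d) ^ 6 ≤ Q ∧ M ≤ 2 ^ L ∧ C * (L + 1) * (M : ℝ) ^ 2 ≤ Q ∧
      6 * (4 * n * Q * W / (M : ℝ) ^ 2 + 1) ≤ (d : ℝ) ^ 4 ∧ (L : ℝ) + 1 ≤ 4 * X ∧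
      (n : ℝ) ^ 2 * U ≤ (M : ℝ) ^ 2 ∧ (M : ℝ) ^ 2 ≤ 4 * ((n : ℝ) ^ 2 * U) := by
  obtain ⟨H, hH0, hH2⟩ : ∃ H : ℕ, exp (X / 100) ≤ H ∧ (H : ℝ) ≤ 2 * exp (X / 100) :=
    ⟨_, Nat.le_ceil _, params_ceil_le (one_le_exp (by linarith))⟩
  obtain ⟨d, hd0, hd2⟩ : ∃ d : ℕ, exp (2 * X / 5) ≤ d ∧ (d : ℝ) ≤ 2 * exp (2 * X / 5) :=
    ⟨_, Nat.le_ceil _, params_ceil_le (one_le_exp (by linarith))⟩
  have hH1 : 1 ≤ H := by exact_mod_cast le_trans (one_le_exp (by linarith)) hH0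
  have hd1 : 1 ≤ d := by exact_mod_cast le_trans (one_le_exp (by linarith)) hd0
  obtain ⟨Q, hQp, hQlo, hQhi⟩ := Nat.exists_prime_lt_and_le_two_mul (2 * (5 * H * d) ^ 6)
    (Nat.mul_ne_zero two_ne_zero (pow_ne_zero _ (Nat.mul_ne_zero (by omega) (by omega))))
  have hQlo' : exp (246 * X / 100) ≤ (Q : ℝ) := by
    have h1 : (2 * (5 * (H : ℝ) * d) ^ 6) ≤ (Q : ℝ) := by exact_mod_cast hQlo.le
    refine le_trans ?_ h1
    calc exp (246 * X / 100) = 1 * (1 * exp (X / 100) * exp (2 * X / 5)) ^ 6 := by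
          rw [one_mul, one_mul, ← exp_add, ← exp_nat_mul]; congr 1; push_cast; ring
      _ ≤ _ := by gcongr <;> norm_num
  have hQhi' : (Q : ℝ) ≤ 4 * 20 ^ 6 * exp (246 * X / 100) := by
    have h1 : (Q : ℝ) ≤ 2 * (2 * (5 * (H : ℝ) * d) ^ 6) := by exact_mod_cast hQhi
    refine h1.trans ?_
    calc 2 * (2 * (5 * (H : ℝ) * d) ^ 6)
        ≤ 2 * (2 * (5 * (2 * exp (X / 100)) * (2 * exp (2 * X / 5))) ^ 6) := by gcongr
      _ = 4 * 20 ^ 6 * (exp (X / 100) * exp (2 * X / 5)) ^ 6 := by ring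
      _ = _ := by rw [← exp_add, ← exp_nat_mul]; congr 2; push_cast; ring
  have hU0 : 0 ≤ U := by linarith
  have hn1 : (1 : ℝ) ≤ n := hn ▸ one_le_exp (by linarith)
  have hnU : (n : ℝ) ≤ n * sqrt U :=
    le_mul_of_one_le_right (by linarith) (Real.one_le_sqrt.2 hU1)
  obtain ⟨M, hM0, hM2⟩ : ∃ M : ℕ, (n : ℝ) * sqrt U ≤ M ∧ (M : ℝ) ≤ 2 * (n * sqrt U) :=
    ⟨_, Nat.le_ceil _, params_ceil_le (hn1.trans hnU)⟩
  have hnM : (n : ℝ) ≤ M := hnU.trans hM0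
  have hMsq : (n : ℝ) ^ 2 * U ≤ (M : ℝ) ^ 2 := by
    rw [← Real.sq_sqrt hU0, ← mul_pow]
    exact pow_le_pow_left₀ (by positivity) hM0 2
  have hMsq' : (M : ℝ) ^ 2 ≤ 4 * ((n : ℝ) ^ 2 * U) := by
    calc (M : ℝ) ^ 2 ≤ (2 * (n * sqrt U)) ^ 2 := pow_le_pow_left₀ (Nat.cast_nonneg _) hM2 2
      _ = _ := by rw [mul_pow, mul_pow, Real.sq_sqrt hU0]; ring
  have hMhi : (M : ℝ) ^ 2 ≤ 4 * exp (202 * X / 100) := by
    calc (M : ℝ) ^ 2 ≤ 4 * ((n : ℝ) ^ 2 * U) := hMsq'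
      _ ≤ 4 * (exp X ^ 2 * exp (2 * X / 100)) := by rw [← hn]; gcongr
      _ = _ := by rw [← exp_nat_mul, ← exp_add]; congr 2; push_cast; ring
  obtain ⟨L, hL3, hL4⟩ : ∃ L : ℕ, 3 * X ≤ L ∧ (L : ℝ) + 1 ≤ 4 * X :=
    ⟨_, Nat.le_ceil _, by linarith [Nat.ceil_lt_add_one (show 0 ≤ 3 * X by linarith)]⟩
  have hB' : ∀ a : ℝ, a ≤ 24 * 4 * 20 ^ 6 + 6 + 16 * C → a * X ≤ exp (X / 100) := fun a ha =>
    (mul_le_mul_of_nonneg_right ha (by linarith)).trans hB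
  refine ⟨M, H, d, Q, L, by exact_mod_cast hn1.trans hnM, hH1, hd1, hQp, hH0, hQlo.le, ?_, ?_, ?_,
    hL4, hMsq, hMsq'⟩
  · have h1 : (M : ℝ) ≤ 2 ^ L := by
      calc (M : ℝ) ≤ (M : ℝ) ^ 2 := le_self_pow₀ (hn1.trans hnM) two_ne_zero
        _ ≤ 4 * exp (202 * X / 100) := hMhi
        _ ≤ exp (X / 100) * exp (202 * X / 100) := by
            gcongr
            linarith [hB' 4 (by linarith)]
        _ ≤ exp (L * log 2) := by
            rw [← exp_add, exp_le_exp]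
            nlinarith [log_two_gt_d9]
        _ = 2 ^ L := by rw [exp_nat_mul, exp_log two_pos]
    exact_mod_cast h1
  · calc C * (L + 1) * (M : ℝ) ^ 2 ≤ C * (4 * X) * (4 * exp (202 * X / 100)) := by gcongr
      _ = 16 * C * X * exp (202 * X / 100) := by ring
      _ ≤ exp (X / 100) * exp (202 * X / 100) := by
          gcongr; exact hB' _ (by linarith)
      _ ≤ exp (246 * X / 100) := by rw [← exp_add, exp_le_exp]; linarith
      _ ≤ _ := hQlo'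
  · calc 6 * (4 * n * Q * W / (M : ℝ) ^ 2 + 1)
        ≤ 6 * (4 * n * (4 * 20 ^ 6 * exp (246 * X / 100)) * exp (2 * X / 100) / (n : ℝ) ^ 2 + 1) := by
          have h1 : 4 * n * Q * W ≤
              4 * n * (4 * 20 ^ 6 * exp (246 * X / 100)) * exp (2 * X / 100) :=
            le_trans (mul_le_mul_of_nonneg_left hW (by positivity)) (by gcongr)
          have h2 : (n : ℝ) ^ 2 ≤ (M : ℝ) ^ 2 := pow_le_pow_left₀ (by linarith) hnM 2
          have h3 : (0 : ℝ) < (n : ℝ) ^ 2 := by positivity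
          have := div_le_div₀ (by positivity) h1 h3 h2
          linarith
      _ = 24 * 4 * 20 ^ 6 * exp (148 * X / 100) + 6 := by
          rw [show exp (148 * X / 100) = exp (246 * X / 100) * exp (2 * X / 100) / exp X
            from by rw [← exp_add, ← exp_sub]; congr 1; ring, ← hn]
          field_simp
          ring
      _ ≤ (24 * 4 * 20 ^ 6 + 6) * exp (148 * X / 100) := by
          linarith [one_le_exp (show (0 : ℝ) ≤ 148 * X / 100 by linarith)]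
      _ ≤ exp (X / 100) * exp (148 * X / 100) := by
          gcongr
          exact le_trans (le_mul_of_one_le_right (by norm_num) (by linarith))
            (hB' _ (by linarith))
      _ ≤ exp (2 * X / 5) ^ 4 := by
          rw [← exp_nat_mul, ← exp_add, exp_le_exp]; push_cast; linarith
      _ ≤ _ := pow_le_pow_left₀ (exp_pos _).le hd0 4

/-- The budget: everything spent on the primes and on `K` is a small multiple of `X`. -/
private lemma params_budget {G c₁ X l r : ℝ} (hG : 3 ≤ G) (hc : c₁ = 1 / (30 * G)) (hX : 0 ≤ X)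
    (hl : 1 ≤ l) (hr : 1 ≤ r) (hbud : r * r * l ≤ c₁ ^ 2 * X) :
    9 * (G * r * l) ≤ X / 100 ∧ r * (G * (8 * (G * r * l))) ≤ X / 100 := by
  have hc2 : G * G * c₁ ^ 2 = 1 / 900 := by rw [hc]; field_simp; ring
  have h1 : G * G * (r * r * l) ≤ X / 900 := by
    calc G * G * (r * r * l) ≤ G * G * (c₁ ^ 2 * X) := mul_le_mul_of_nonneg_left hbud (by positivity)
      _ = X / 900 := by rw [← mul_assoc, hc2]; ring
  have h2 : G * r * l ≤ G * G * (r * r * l) := by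
    calc G * r * l = 1 * (G * r * l) := (one_mul _).symm
      _ ≤ G * r * (G * r * l) := mul_le_mul_of_nonneg_right (by nlinarith) (by positivity)
      _ = _ := by ring
  exact ⟨by linarith, by linarith [show r * (G * (8 * (G * r * l))) = 8 * (G * G * (r * r * l)) by ring]⟩

/-- `K` absorbs the cost of the collinear triples. -/
private lemma params_cost {g r : ℕ} {δ C X K : ℝ} (hδ : δ ≤ 1) (hC : 4 ≤ C)
    (hX : 4 ≤ X) (hCX : C ≤ X) (he : exp 1 ≤ X) (hr : 1 ≤ r) (hK : X ^ ((2 * g + 3) * r) ≤ K) :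
    (4 * X) * (C * X) ^ (g * r) ≤ K * exp (-(δ * r)) ∧ 1 ≤ K * exp (-(δ * r)) := by
  have h2 : exp (δ * r) ≤ X ^ r := by
    calc exp (δ * r) ≤ exp ((r : ℝ) * 1) := exp_le_exp.2 (by
          rw [mul_one]; exact mul_le_of_le_one_left (Nat.cast_nonneg r) hδ)
      _ = exp 1 ^ r := exp_nat_mul 1 r
      _ ≤ _ := pow_le_pow_left₀ (exp_pos 1).le he r
  have h3 : 4 * X ≤ X ^ (2 * r) := by
    calc 4 * X ≤ X ^ 2 := by nlinarith
      _ ≤ _ := pow_le_pow_right₀ (by linarith) (by omega)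
  have hmain : (4 * X) * (C * X) ^ (g * r) ≤ K * exp (-(δ * r)) := by
    rw [exp_neg, ← div_eq_mul_inv, le_div_iff₀ (exp_pos _)]
    refine le_trans ?_ hK
    calc 4 * X * (C * X) ^ (g * r) * exp (δ * r)
        ≤ X ^ (2 * r) * (X * X) ^ (g * r) * X ^ r := by gcongr
      _ = _ := by rw [mul_pow, ← pow_add, ← pow_add, ← pow_add]; congr 1; ring
  refine ⟨hmain, le_trans ?_ hmain⟩
  exact one_le_mul_of_one_le_of_one_le (by linarith)
    (one_le_pow₀ (one_le_mul_of_one_le_of_one_le (by linarith) (by linarith)))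

/-- Parameters meeting all the hypotheses of the averaging theorem. -/
theorem exists_params (g : ℕ) (δ C : ℝ) (P₀ : ℕ) (hg : 3 ≤ g) (hδ : 0 < δ) (hδ1 : δ ≤ 1)
    (hC : 4 ≤ C) :
    ∃ c : ℝ, 0 < c ∧ ∀ᶠ n : ℕ in atTop,
      ∃ (r M K H d Q L : ℕ) (Lam : ℝ) (p : Fin r → Fin g → ℕ),
        1 ≤ n ∧ 1 ≤ M ∧ 1 ≤ K ∧ 1 ≤ H ∧ 1 ≤ d ∧ Q.Prime ∧ (∀ γ i, (p γ i).Prime) ∧
        Function.Injective (fun x : Fin r × Fin g => p x.1 x.2) ∧
        (∀ γ i, P₀ ≤ p γ i ∧ 8 * (K + 1) ≤ p γ i ∧ 1 + log (p γ i) ≤ Lam) ∧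
        (∏ γ, ∏ i, p γ i) ≤ H ∧ 2 * (5 * H * d) ^ 6 ≤ Q ∧ M ≤ 2 ^ L ∧
        C * (L + 1) * (M : ℝ) ^ 2 ≤ Q ∧
        6 * (4 * n * Q * C ^ (g * r) * (∏ γ, ∏ i, (p γ i : ℝ)) / (M : ℝ) ^ 2 + 1) ≤ (d : ℝ) ^ 4 ∧
        C * (n : ℝ) ^ 2 * K * exp (-(δ * r)) ≤ (M : ℝ) ^ 2 ∧
        C * (n : ℝ) ^ 2 * (L + 1) * (C * Lam) ^ (g * r) ≤ (M : ℝ) ^ 2 ∧
        exp (c * sqrt (log n / log (log n))) / (n : ℝ) ^ 2 ≤ (K : ℝ) / (2 * (M : ℝ) ^ 2) := by
  obtain ⟨G, hGg⟩ : ∃ G : ℝ, G = (g : ℝ) := ⟨_, rfl⟩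
  have hG : 3 ≤ G := by rw [hGg]; exact_mod_cast hg
  obtain ⟨c₁, hc₁⟩ : ∃ c₁ : ℝ, c₁ = 1 / (30 * G) := ⟨_, rfl⟩
  have hc₁0 : 0 < c₁ := by rw [hc₁]; positivity
  refine ⟨δ * c₁ / 2, by positivity, ?_⟩
  filter_upwards [(tendsto_log_atTop.comp tendsto_natCast_atTop_atTop).eventually
      (params_eventually C (max (log (16 + (P₀ : ℝ))) (log C))
        (max (2 / c₁) (2 * (1 + log (8 * C)) / (δ * c₁))) (24 * 4 * 20 ^ 6 + 6 + 16 * C)),
    eventually_ge_atTop 1] with n hkey hn1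
  obtain ⟨hX4, hXC, hXe, hA, hB, hT⟩ := hkey
  simp only [Function.comp_apply] at hX4 hXC hXe hA hB hT
  have hn0 : (0 : ℝ) < n := by exact_mod_cast hn1
  have hnX : (n : ℝ) = exp (log n) := (exp_log hn0).symm
  generalize log (n : ℝ) = X at hX4 hXC hXe hA hB hT hnX ⊢
  have hX0 : 0 < X := by linarith
  obtain ⟨l, hl⟩ : ∃ l : ℝ, l = log X := ⟨_, rfl⟩
  have hl1 : 1 ≤ l := by
    rw [hl, le_log_iff_exp_le hX0]
    exact hXe
  obtain ⟨S, hS⟩ : ∃ S : ℝ, S = sqrt (X / log X) := ⟨_, rfl⟩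
  rw [← hS] at hT ⊢
  have hS0 : 0 ≤ S := hS ▸ sqrt_nonneg _
  obtain ⟨r, hrS, hrS', hr1⟩ : ∃ r : ℕ, (r : ℝ) ≤ c₁ * S ∧ c₁ * S < r + 1 ∧ 1 ≤ r := by
    refine ⟨_, Nat.floor_le (by positivity), Nat.lt_floor_add_one _, Nat.le_floor ?_⟩
    have h1 := mul_le_mul_of_nonneg_left ((le_max_left _ _).trans hT) hc₁0.le
    rw [mul_div_cancel₀ _ hc₁0.ne'] at h1
    push_cast
    linarith
  have hr1' : (1 : ℝ) ≤ r := by exact_mod_cast hr1
  have hbud : (r : ℝ) * r * l ≤ c₁ ^ 2 * X := by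
    have hsq : S ^ 2 = X / l := by
      rw [hS, hl]; exact Real.sq_sqrt (div_nonneg hX0.le (hl ▸ (zero_le_one.trans hl1)))
    calc (r : ℝ) * r * l ≤ (c₁ * S) * (c₁ * S) * l := by gcongr
      _ = c₁ ^ 2 * S ^ 2 * l := by ring
      _ = _ := by rw [hsq]; field_simp
  obtain ⟨hb1, hb2⟩ := params_budget hG hc₁ hX0.le hl1 hr1' hbud
  have hGr : 1 ≤ G * r := one_le_mul_of_one_le_of_one_le (by linarith) hr1'
  have hlGr : l ≤ G * r * l := le_mul_of_one_le_left (by linarith) hGr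
  have hlP : log (16 + (P₀ : ℝ)) ≤ G * r * l :=
    le_trans (le_trans (le_max_left _ _) (hl ▸ hA)) hlGr
  have hlC : log C ≤ l := le_trans (le_max_right _ _) (hl ▸ hA)
  obtain ⟨K, hK⟩ : ∃ K : ℕ, K = ⌈X⌉₊ ^ ((2 * g + 3) * r) := ⟨_, rfl⟩
  have hK1 : 1 ≤ K := hK ▸ Nat.one_le_pow _ _ (Nat.ceil_pos.2 hX0)
  have hKX : X ^ ((2 * g + 3) * r) ≤ (K : ℝ) := by
    rw [hK, Nat.cast_pow]; exact pow_le_pow_left₀ hX0.le (Nat.le_ceil _) _
  have hlogK : log K ≤ 6 * (G * r * l) := by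
    have h2 : log (⌈X⌉₊ : ℝ) ≤ 2 * l := by
      rw [hl, two_mul, ← log_mul hX0.ne' hX0.ne']
      refine log_le_log (by exact_mod_cast Nat.ceil_pos.2 hX0) ((params_ceil_le (by linarith)).trans ?_)
      exact mul_le_mul_of_nonneg_right (by linarith) hX0.le
    have h3 : (((2 * g + 3) * r : ℕ) : ℝ) ≤ 3 * G * r := by
      push_cast; rw [hGg]
      exact mul_le_mul_of_nonneg_right (by linarith) (by linarith)
    rw [hK, Nat.cast_pow, log_pow]
    calc _ ≤ 3 * G * r * (2 * l) :=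
          mul_le_mul h3 h2 (log_natCast_nonneg _) (by positivity)
      _ = _ := by ring
  obtain ⟨p, hp, hpinj, hpb⟩ := params_primes g r K P₀ hK1
  have hlogp : ∀ γ i, log (p γ i : ℝ) ≤ 8 * (G * r * l) := by
    intro γ i
    have h1 : G * r * log 2 ≤ G * r * l :=
      mul_le_mul_of_nonneg_left (by linarith [log_two_lt_d9]) (by linarith)
    rw [hGg] at h1 hlP hlogK ⊢
    linarith [(hpb γ i).2.2]
  have hprod : (∏ γ, ∏ i, (p γ i : ℝ)) ≤ exp (X / 100) := by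
    calc (∏ γ, ∏ i, (p γ i : ℝ)) ≤ ∏ _γ : Fin r, ∏ _i : Fin g, exp (8 * (G * r * l)) := by
          refine Finset.prod_le_prod (fun γ _ => Finset.prod_nonneg fun i _ => Nat.cast_nonneg _)
            fun γ _ => Finset.prod_le_prod (fun i _ => Nat.cast_nonneg _) fun i _ => ?_
          rw [← exp_log (show (0 : ℝ) < p γ i from by exact_mod_cast (hp γ i).pos)]
          exact exp_le_exp.2 (hlogp γ i)
      _ = exp (r * (G * (8 * (G * r * l)))) := by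
          simp only [Finset.prod_const, Finset.card_univ, Fintype.card_fin, ← exp_nat_mul, ← hGg]
      _ ≤ _ := exp_le_exp.2 hb2
  obtain ⟨hcol, hU1⟩ := params_cost (g := g) hδ1 hC hX4 hXC hXe hr1 hKX
  have hC0 : 0 < C := by linarith
  have hK0 : (0 : ℝ) < K := by exact_mod_cast hK1
  have hUhi : C * (K * exp (-(δ * r))) ≤ exp (2 * X / 100) := by
    calc C * (K * exp (-(δ * r))) ≤ C * (K * 1) := by
          gcongr; exact exp_le_one_iff.2 (neg_nonpos.2 (by positivity))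
      _ = exp (log C + log K) := by rw [mul_one, exp_add, exp_log hC0, exp_log hK0]
      _ ≤ _ := exp_le_exp.2 (by linarith)
  have hCg : C ^ (g * r) ≤ exp (X / 100) := by
    calc C ^ (g * r) = exp ((g * r : ℕ) * log C) := by rw [exp_nat_mul, exp_log hC0]
      _ ≤ _ := exp_le_exp.2 (by
          push_cast; rw [← hGg]
          have : G * r * log C ≤ G * r * l := mul_le_mul_of_nonneg_left hlC (by linarith)
          linarith)
  have hW : C ^ (g * r) * ∏ γ, ∏ i, (p γ i : ℝ) ≤ exp (2 * X / 100) := by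
    calc _ ≤ exp (X / 100) * exp (X / 100) :=
          mul_le_mul hCg hprod (Finset.prod_nonneg fun γ _ => Finset.prod_nonneg fun i _ =>
            Nat.cast_nonneg _) (exp_pos _).le
      _ = _ := by rw [← exp_add]; congr 1; ring
  obtain ⟨M, H, d, Q, L, hM1, hH1, hd1, hQp, hH0, hQ, hML, hCL, hd4, hL4, hMlo, hMhi⟩ :=
    params_sizes hnX hX4 hC hB (one_le_mul_of_one_le_of_one_le (by linarith) hU1) hUhi hW
  refine ⟨r, M, K, H, d, Q, L, X, p, hn1, hM1, hK1, hH1, hd1, hQp, hp, hpinj, ?_, ?_, hQ, hML,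
    hCL, ?_, ?_, ?_, ?_⟩
  · exact fun γ i => ⟨(hpb γ i).1, (hpb γ i).2.1, by linarith [hlogp γ i]⟩
  · have : ((∏ γ, ∏ i, p γ i : ℕ) : ℝ) ≤ (H : ℝ) := by push_cast; exact hprod.trans hH0
    exact_mod_cast this
  · rwa [mul_assoc (4 * (n : ℝ) * Q)]
  · calc C * (n : ℝ) ^ 2 * K * exp (-(δ * r)) = (n : ℝ) ^ 2 * (C * (K * exp (-(δ * r)))) := by ring
      _ ≤ _ := hMlo
  · calc C * (n : ℝ) ^ 2 * (L + 1) * (C * X) ^ (g * r)
        ≤ C * (n : ℝ) ^ 2 * (4 * X) * (C * X) ^ (g * r) := by gcongr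
      _ = C * (n : ℝ) ^ 2 * (4 * X * (C * X) ^ (g * r)) := by ring
      _ ≤ C * (n : ℝ) ^ 2 * (K * exp (-(δ * r))) :=
          mul_le_mul_of_nonneg_left hcol (by positivity)
      _ = (n : ℝ) ^ 2 * (C * (K * exp (-(δ * r)))) := by ring
      _ ≤ _ := hMlo
  · have hgain : δ * c₁ / 2 * S + log (8 * C) ≤ δ * r := by
      have h1 := mul_le_mul_of_nonneg_left ((le_max_right _ _).trans hT)
        (show 0 ≤ δ * c₁ / 2 by positivity)
      have h2 : δ * c₁ / 2 * (2 * (1 + log (8 * C)) / (δ * c₁)) = 1 + log (8 * C) := by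
        field_simp
      have h3 : δ * (c₁ * S) ≤ δ * (r + 1) := mul_le_mul_of_nonneg_left hrS'.le hδ.le
      linarith
    have hM2 : (0 : ℝ) < (M : ℝ) ^ 2 := by positivity
    rw [div_le_div_iff₀ (by positivity) (by positivity)]
    calc exp (δ * c₁ / 2 * S) * (2 * (M : ℝ) ^ 2)
        ≤ exp (δ * c₁ / 2 * S) * (2 * (4 * ((n : ℝ) ^ 2 * (C * (K * exp (-(δ * r))))))) := by
          gcongr
      _ = exp (δ * c₁ / 2 * S) * exp (log (8 * C)) * (K * exp (-(δ * r)) * (n : ℝ) ^ 2) := by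
          rw [exp_log (by positivity)]; ring
      _ ≤ exp (δ * r) * (K * exp (-(δ * r)) * (n : ℝ) ^ 2) := by
          rw [← exp_add]
          exact mul_le_mul_of_nonneg_right (exp_le_exp.2 hgain) (by positivity)
      _ = (K : ℝ) * (n : ℝ) ^ 2 := by rw [exp_neg]; field_simp

end Vale.P036.Cascade
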