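import Vale.Agent.P036.Cascade.Defs
import Vale.Agent.P036.Cascade.Params

/-!
# P036 cascade construction: from grid points to points of the unit square
-/

namespace Vale.P036.Cascade

open Filter Real

/-- The grid theorem gives the lower bound in the unit square. -/
theorem lower_bound_of_points
    (hpts : ∃ (g : ℕ) (δ C : ℝ) (P₀ : ℕ), 3 ≤ g ∧ 0 < δ ∧ δ ≤ 1 ∧ 4 ≤ C ∧
      ∀ (r n M K H d Q L : ℕ) (Lam : ℝ) (p : Fin r → Fin g → ℕ),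
        1 ≤ n → 1 ≤ M → 1 ≤ K → 1 ≤ H → 1 ≤ d → Q.Prime → (∀ γ i, (p γ i).Prime) →
        Function.Injective (fun x : Fin r × Fin g => p x.1 x.2) →
        (∀ γ i, P₀ ≤ p γ i ∧ 8 * (K + 1) ≤ p γ i ∧ 1 + log (p γ i) ≤ Lam) →
        (∏ γ, ∏ i, p γ i) ≤ H → 2 * (5 * H * d) ^ 6 ≤ Q → M ≤ 2 ^ L →
        C * (L + 1) * (M : ℝ) ^ 2 ≤ Q →
        6 * (4 * n * Q * C ^ (g * r) * (∏ γ, ∏ i, (p γ i : ℝ)) / (M : ℝ) ^ 2 + 1) ≤ (d : ℝ) ^ 4 →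
        C * (n : ℝ) ^ 2 * K * exp (-(δ * r)) ≤ (M : ℝ) ^ 2 →
        C * (n : ℝ) ^ 2 * (L + 1) * (C * Lam) ^ (g * r) ≤ (M : ℝ) ^ 2 →
        ∃ P : Finset (Pt ℤ), P ⊆ boxPts M ∧ P.card = n ∧
          ∀ x ∈ P, ∀ y ∈ P, ∀ z ∈ P, x ≠ y → x ≠ z → y ≠ z → (K : ℤ) < |det3 x y z|) :
    ∃ c : ℝ, 0 < c ∧ ∀ᶠ n : ℕ in atTop, ∃ P : Finset (ℝ × ℝ), P.card = n ∧
      (∀ p ∈ P, (0 ≤ p.1 ∧ p.1 ≤ 1) ∧ (0 ≤ p.2 ∧ p.2 ≤ 1)) ∧
      ∀ p ∈ P, ∀ q ∈ P, ∀ r ∈ P, p ≠ q → p ≠ r → q ≠ r →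
        exp (c * sqrt (log n / log (log n))) / (n : ℝ) ^ 2 ≤
          |(q.1 - p.1) * (r.2 - p.2) - (q.2 - p.2) * (r.1 - p.1)| / 2 := by
  obtain ⟨g, δ, C, P₀, hg, hδ, hδ1, hC, hP⟩ := hpts
  obtain ⟨c, hc, hev⟩ := exists_params g δ C P₀ hg hδ hδ1 hC
  refine ⟨c, hc, ?_⟩
  filter_upwards [hev] with n hn
  obtain ⟨r, M, K, H, d, Q, L, Lam, p, h1, h2, h3, h4, h5, h6, h7, h8, h9, h10, h11, h12, h13,
    h14, h15, h16, hgain⟩ := hn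
  obtain ⟨P, hPbox, hPcard, hPdet⟩ := hP r n M K H d Q L Lam p h1 h2 h3 h4 h5 h6 h7 h8 h9 h10 h11
    h12 h13 h14 h15 h16
  have hM : (0 : ℝ) < M := by exact_mod_cast h2
  set f : Pt ℤ → ℝ × ℝ := fun x => ((x.1 : ℝ) / M, (x.2 : ℝ) / M) with hf
  have hinj : Function.Injective f := by
    intro x y h
    simp only [hf, Prod.mk.injEq, div_left_inj' hM.ne', Int.cast_inj] at h
    exact Prod.ext h.1 h.2
  have hcoord : ∀ a : ℤ, 0 ≤ a → a < (M : ℤ) → 0 ≤ (a : ℝ) / M ∧ (a : ℝ) / M ≤ 1 := by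
    intro a ha ha'
    refine ⟨div_nonneg (by exact_mod_cast ha) hM.le, (div_le_one hM).2 ?_⟩
    exact_mod_cast ha'.le
  refine ⟨P.image f, by rw [Finset.card_image_of_injective _ hinj, hPcard], ?_, ?_⟩
  · intro q hq
    obtain ⟨x, hx, rfl⟩ := Finset.mem_image.1 hq
    obtain ⟨hx1, hx2⟩ := Finset.mem_product.1 (hPbox hx)
    rw [Finset.mem_Ico] at hx1 hx2
    exact ⟨hcoord _ hx1.1 hx1.2, hcoord _ hx2.1 hx2.2⟩
  · intro a ha b hb e he hab hae hbe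
    obtain ⟨x, hx, rfl⟩ := Finset.mem_image.1 ha
    obtain ⟨y, hy, rfl⟩ := Finset.mem_image.1 hb
    obtain ⟨z, hz, rfl⟩ := Finset.mem_image.1 he
    refine hgain.trans ?_
    have hd : (K : ℝ) ≤ |((det3 x y z : ℤ) : ℝ)| := by
      exact_mod_cast (hPdet x hx y hy z hz (ne_of_apply_ne f hab) (ne_of_apply_ne f hae)
        (ne_of_apply_ne f hbe)).le
    have heq : ((f y).1 - (f x).1) * ((f z).2 - (f x).2) - ((f y).2 - (f x).2) * ((f z).1 - (f x).1)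
        = ((det3 x y z : ℤ) : ℝ) / (M : ℝ) ^ 2 := by
      simp only [hf, det3]
      push_cast
      field_simp
    rw [heq, abs_div, abs_of_pos (show (0 : ℝ) < (M : ℝ) ^ 2 by positivity), div_div, mul_comm 2]
    gcongr

end Vale.P036.Cascade
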