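import Vale.Agent.P036.Cascade.BoxGap
import Vale.Agent.P036.Cascade.Negative
import Vale.Agent.P036.Cascade.Lattice

/-!
# P036 cascade construction: the two sets mod `p`

One set with negative, one with dominant positive first Fourier coefficient of the determinant;
both of positive proportion of `p` and with at most `log p` times the average number of collinear
triples.
-/

namespace Vale.P036.Cascade

open Finset

/-- A set of at least `p / C` residues with few collinear triples. -/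
def GoodSet {p : ℕ} (C : ℝ) (S : Finset (Pt (ZMod p))) : Prop :=
  S.Nonempty ∧ (p : ℝ) ≤ C * S.card ∧
    (p : ℝ) * detCount S 0 ≤ C * (1 + Real.log p) * (S.card : ℝ) ^ 3

lemma goodSet_of_bounds {p : ℕ} (hp : 0 < p) {C C' : ℝ} (hCC : C ≤ C') {S : Finset (Pt (ZMod p))}
    (h1 : (p : ℝ) ≤ C * S.card)
    (h2 : (p : ℝ) * detCount S 0 ≤ C * (1 + Real.log p) * (S.card : ℝ) ^ 3) : GoodSet C' S := by
  have hpR : (0 : ℝ) < p := by exact_mod_cast hp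
  have hlog : (0 : ℝ) ≤ Real.log p := Real.log_nonneg (by exact_mod_cast hp)
  refine ⟨?_, h1.trans (by gcongr), h2.trans (by gcongr)⟩
  rcases S.eq_empty_or_nonempty with h | h
  · rw [h] at h1; simp at h1; omega
  · exact h

/-- The two sets exist, given the spectral gap of a small square. -/
theorem exists_sets_of_gap
    (hbox : ∃ (E p₀ : ℕ) (η C : ℝ), 0 < E ∧ 0 < η ∧ η ≤ 1 / 4 ∧ 0 < C ∧
      ∀ (p : ℕ) [Fact p.Prime], p₀ ≤ p → let l := Nat.sqrt (p / E)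
        1 ≤ l ∧ 8 * l ^ 2 ≤ p ∧ (p : ℝ) ≤ C * (l : ℝ) ^ 2 ∧ (boxSet p l).card = l ^ 2 ∧
          ∃ b : ℝ, hatDet (boxSet p l) 1 = (b : ℂ) ∧ 1 / 2 ≤ b ∧
            ∀ s : ZMod p, s ≠ 0 → s ≠ 1 → s ≠ -1 → ‖hatDet (boxSet p l) s‖ ≤ b - η) :
    ∃ (a₀ η B C : ℝ) (p₀ : ℕ), 0 < a₀ ∧ 0 < η ∧ η ≤ 1 ∧ 0 < B ∧ 1 ≤ C ∧
      ∀ (p : ℕ) [Fact p.Prime], p₀ ≤ p →
        (∃ S : Finset (Pt (ZMod p)), GoodSet C S ∧
          ∃ a : ℝ, hatDet S 1 = (a : ℂ) ∧ a ≤ -a₀) ∧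
        (∃ S : Finset (Pt (ZMod p)), GoodSet C S ∧
          ∃ b : ℝ, hatDet S 1 = (b : ℂ) ∧ 1 / 2 ≤ b ∧
            (∀ s : ZMod p, s ≠ 0 → s ≠ 1 → s ≠ -1 → ‖hatDet S s‖ ≤ b - η) ∧
            ∑ s, ‖hatDet S s‖ ^ 2 ≤ B) := by
  obtain ⟨E, pb, η, Cb, hE, hη, hη4, hCb, hb⟩ := hbox
  obtain ⟨pn, Cn, hCn, hn⟩ := exists_negative_set
  obtain ⟨C1, hC1, hz1⟩ := detCount_zero_le 1 one_pos
  obtain ⟨C6, hC6, hz6⟩ := detCount_zero_le 6 (by norm_num)
  obtain ⟨C3, hC3, h3⟩ := boxSet_card_hat_le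
  refine ⟨1 / 100, η, C3 * Cb, 1 + Cn + C6 * 36 * Cn ^ 3 + Cb + Cb * C1, max (max pb pn) 7,
    by norm_num, hη, by linarith, mul_pos hC3 hCb, ?_, fun p _ hp => ?_⟩
  · have : 0 ≤ Cn + C6 * 36 * Cn ^ 3 + Cb + Cb * C1 := by positivity
    linarith
  have hp7 : 7 ≤ p := le_trans (le_max_right _ _) hp
  have hp0 : 0 < p := by omega
  have hpR : (0 : ℝ) < p := by exact_mod_cast hp0
  have hlog : (0 : ℝ) ≤ Real.log p := Real.log_nonneg (by exact_mod_cast hp0)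
  have e1 : 0 ≤ C6 * 36 * Cn ^ 3 := by positivity
  have e2 : 0 ≤ Cb * C1 := by positivity
  refine ⟨?_, ?_⟩
  · obtain ⟨hsub, hlt, hcard, a, ha, ha'⟩ :=
      hn p ((le_max_right pb pn).trans ((le_max_left _ _).trans hp))
    set s := Nat.sqrt (p / 6) with hs
    set T := negPts s (s / 4000) with hT
    set S := T.image (castPt p) with hS
    refine ⟨S, goodSet_of_bounds hp0 (C := Cn + C6 * 36 * Cn ^ 3) (by linarith) ?_ ?_, a, ha, ha'⟩
    · exact hcard.trans (mul_le_mul_of_nonneg_right (by linarith) (Nat.cast_nonneg _))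
    have h6 : 6 * (s * s) ≤ p := by
      have := Nat.sqrt_le (p / 6)
      rw [← hs] at this
      omega
    have h6R : 6 * ((s : ℝ) * s) ≤ p := by exact_mod_cast h6
    have hs1 : 1 ≤ s := by
      rw [hs]; exact Nat.le_sqrt.2 (by omega)
    have hz := hz6 p (6 * s) T hsub (by omega) hlt (by push_cast; nlinarith)
    push_cast at hz
    rw [← hS] at hz
    calc (p : ℝ) * detCount S 0
        ≤ p * (C6 * (6 * (s : ℝ)) ^ 4 * (1 + Real.log p)) :=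
          mul_le_mul_of_nonneg_left hz hpR.le
      _ = C6 * 36 * (1 + Real.log p) * p * (6 * ((s : ℝ) * s)) ^ 2 := by ring
      _ ≤ C6 * 36 * (1 + Real.log p) * p * (p : ℝ) ^ 2 := by gcongr
      _ = C6 * 36 * (1 + Real.log p) * (p : ℝ) ^ 3 := by ring
      _ ≤ C6 * 36 * (1 + Real.log p) * (Cn * S.card) ^ 3 := by gcongr
      _ = C6 * 36 * Cn ^ 3 * (1 + Real.log p) * (S.card : ℝ) ^ 3 := by ring
      _ ≤ (Cn + C6 * 36 * Cn ^ 3) * (1 + Real.log p) * (S.card : ℝ) ^ 3 := by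
          gcongr; linarith
  · obtain ⟨hl, hl8, hpl, hcard, b, hb1, hb2, hb3⟩ :=
      hb p ((le_max_left pb pn).trans ((le_max_left _ _).trans hp))
    set l := Nat.sqrt (p / E) with hl_def
    have hlp : l < p := by
      have : l ≤ l ^ 2 := Nat.le_self_pow two_ne_zero l
      omega
    have hl8R : 8 * (l : ℝ) ^ 2 ≤ p := by exact_mod_cast hl8
    have hlR : (1 : ℝ) ≤ l := by exact_mod_cast hl
    have hcardR : ((boxSet p l).card : ℝ) = (l : ℝ) ^ 2 := by rw [hcard]; push_cast; ring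
    refine ⟨boxSet p l, goodSet_of_bounds hp0 (C := Cb + Cb * C1) (by linarith) ?_ ?_,
      b, hb1, hb2, hb3, ?_⟩
    · rw [hcardR]
      exact hpl.trans (mul_le_mul_of_nonneg_right (by linarith) (by positivity))
    · have hz := hz1 p l (boxPts l) subset_rfl hl hlp (by nlinarith)
      rw [hcardR]
      calc (p : ℝ) * detCount (boxSet p l) 0
          ≤ p * (C1 * (l : ℝ) ^ 4 * (1 + Real.log p)) := mul_le_mul_of_nonneg_left hz hpR.le
        _ ≤ Cb * (l : ℝ) ^ 2 * (C1 * (l : ℝ) ^ 4 * (1 + Real.log p)) :=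
            mul_le_mul_of_nonneg_right hpl (by positivity)
        _ = Cb * C1 * (1 + Real.log p) * ((l : ℝ) ^ 2) ^ 3 := by ring
        _ ≤ (Cb + Cb * C1) * (1 + Real.log p) * ((l : ℝ) ^ 2) ^ 3 := by
            gcongr; linarith
    · refine ((h3 p l hl hl8).2).trans ?_
      rw [div_le_iff₀ (by positivity)]
      calc C3 * (p : ℝ) ≤ C3 * (Cb * (l : ℝ) ^ 2) := mul_le_mul_of_nonneg_left hpl hC3.le
        _ = C3 * Cb * (l : ℝ) ^ 2 := by ring

/-- The two sets exist. -/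
theorem exists_sets :
    ∃ (a₀ η B C : ℝ) (p₀ : ℕ), 0 < a₀ ∧ 0 < η ∧ η ≤ 1 ∧ 0 < B ∧ 1 ≤ C ∧
      ∀ (p : ℕ) [Fact p.Prime], p₀ ≤ p →
        (∃ S : Finset (Pt (ZMod p)), GoodSet C S ∧
          ∃ a : ℝ, hatDet S 1 = (a : ℂ) ∧ a ≤ -a₀) ∧
        (∃ S : Finset (Pt (ZMod p)), GoodSet C S ∧
          ∃ b : ℝ, hatDet S 1 = (b : ℂ) ∧ 1 / 2 ≤ b ∧
            (∀ s : ZMod p, s ≠ 0 → s ≠ 1 → s ≠ -1 → ‖hatDet S s‖ ≤ b - η) ∧
            ∑ s, ‖hatDet S s‖ ^ 2 ≤ B) :=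
  exists_sets_of_gap box_gap

end Vale.P036.Cascade
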