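import Vale.Agent.P036.Cascade.Group

/-!
# P036 cascade: the space of all parameters and the accepted sets
-/

namespace Vale.P036.Cascade

open Finset

variable {r g : ℕ} (p : Fin r → Fin g → ℕ) [∀ γ i, Fact (p γ i).Prime]
  (S : ∀ γ i, Finset (Pt (ZMod (p γ i))))
  {Ω : Type} [Fintype Ω] (acc : Ω → Pt ℤ → Bool)

noncomputable def spaceSet (Ω : Type) [Fintype Ω] : Finset (Ω × ∀ γ, GroupParam (p γ)) :=
  univ ×ˢ Fintype.piFinset fun γ => groupParams (p γ)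

noncomputable def spaceWeight (N : ℕ) (o : Ω × ∀ γ, GroupParam (p γ)) : ℝ :=
  ∏ γ, unitWeight (p γ) N (o.2 γ).1

noncomputable def spaceAccept (o : Ω × ∀ γ, GroupParam (p γ)) (x : Pt ℤ) : Bool :=
  acc o.1 x && decide (∀ γ i, affAct ((o.2 γ).1 i) ((o.2 γ).2 i) x ∈ S γ i)

noncomputable def spaceMass (Ω : Type) [Fintype Ω] (N : ℕ) : ℝ :=
  (Fintype.card Ω : ℝ) * ∏ γ, groupMass (p γ) N

omit [Fintype Ω] in
lemma spaceWeight_nonneg (N : ℕ) (o : Ω × ∀ γ, GroupParam (p γ)) : 0 ≤ spaceWeight p N o :=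
  prod_nonneg fun γ _ => unitWeight_nonneg _ _ _

lemma sum_space (N : ℕ) (X : Finset (Pt ℤ)) :
    ∑ o ∈ spaceSet p Ω, spaceWeight p N o *
        (if ∀ x ∈ X, spaceAccept p S acc o x = true then (1 : ℝ) else 0)
      = (#{ω : Ω | ∀ x ∈ X, acc ω x = true} : ℝ) * ∏ γ, groupSum (p γ) N (S γ) X := by
  simp only [← sum_groupParams]
  rw [prod_univ_sum, ← sum_boole, sum_mul_sum, spaceSet, sum_product]
  refine sum_congr rfl fun ω _ => sum_congr rfl fun θ _ => ?_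
  simp only [spaceWeight, spaceAccept, Bool.and_eq_true, decide_eq_true_eq, prod_mul_distrib,
    Fintype.prod_boole]
  by_cases h : ∀ x ∈ X, acc ω x = true
  · rw [if_pos h, one_mul]
    congr 1
    split_ifs with h1 h2 h2
    · rfl
    · exact absurd (fun γ x hx => (h1 x hx).2 γ) h2
    · exact absurd (fun x hx => ⟨h x hx, fun γ => h2 γ x hx⟩) h1
    · rfl
  · rw [if_neg h, zero_mul, if_neg fun h' => h fun x hx => (h' x hx).1, mul_zero]

lemma sum_spaceWeight (N : ℕ) :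
    ∑ o ∈ spaceSet p Ω, spaceWeight p N o = spaceMass p Ω N := by
  rw [spaceSet, sum_product, spaceMass]
  have h : ∀ ω : Ω, ∑ θ ∈ Fintype.piFinset (fun γ => groupParams (p γ)), spaceWeight p N (ω, θ)
      = ∏ γ, groupMass (p γ) N := by
    intro ω
    simp only [← sum_groupParams_weight, spaceWeight]
    rw [prod_univ_sum]
  rw [sum_congr rfl fun ω _ => h ω, sum_const, card_univ, nsmul_eq_mul]

/-- Weighted count of one triple. -/
noncomputable def tripleSum (N : ℕ) (t : Pt ℤ × Pt ℤ × Pt ℤ) : ℝ :=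
  ∑ o ∈ spaceSet p Ω, spaceWeight p N o *
    (if spaceAccept p S acc o t.1 = true ∧ spaceAccept p S acc o t.2.1 = true ∧
      spaceAccept p S acc o t.2.2 = true then (1 : ℝ) else 0)

lemma tripleSum_nonneg (N : ℕ) (t : Pt ℤ × Pt ℤ × Pt ℤ) : 0 ≤ tripleSum p S acc N t :=
  sum_nonneg fun o _ => mul_nonneg (spaceWeight_nonneg p N o) (by split_ifs <;> norm_num)

lemma tripleSum_eq (N : ℕ) (x y z : Pt ℤ) :
    tripleSum p S acc N (x, y, z)
      = (#{ω : Ω | acc ω x = true ∧ acc ω y = true ∧ acc ω z = true} : ℝ) *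
        ∏ γ, groupSum (p γ) N (S γ) {x, y, z} := by
  have h0 := sum_space p S acc N {x, y, z}
  simp only [mem_insert, mem_singleton, forall_eq_or_imp, forall_eq] at h0
  exact h0

lemma sum_single (N : ℕ) (x : Pt ℤ) {Q s : ℕ} (hQ : 0 < Q)
    (hk : #{ω : Ω | acc ω x = true} * Q = s * Fintype.card Ω) :
    ∑ o ∈ spaceSet p Ω, spaceWeight p N o *
        (if spaceAccept p S acc o x = true then (1 : ℝ) else 0)
      = (s : ℝ) / Q * (∏ γ, groupDensity (p γ) (S γ)) * spaceMass p Ω N := by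
  have h0 := sum_space p S acc N {x}
  simp only [mem_singleton, forall_eq] at h0
  have h1 : (#{ω : Ω | acc ω x = true} : ℝ) = (s : ℝ) * Fintype.card Ω / Q := by
    rw [eq_div_iff (by positivity)]
    exact_mod_cast hk
  rw [h0, prod_congr rfl fun γ _ => groupSum_single (p γ) N (S γ) x, prod_mul_distrib, h1, spaceMass]
  ring

lemma tripleSum_det_le (N : ℕ) {δ : ℝ} (x y z : Pt ℤ) {Q s : ℕ} (hQ : 0 < Q)
    (hk : #{ω : Ω | acc ω x = true ∧ acc ω y = true ∧ acc ω z = true} * Q ^ 3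
      = s ^ 3 * Fintype.card Ω)
    (hpz : ∀ γ i, ((det3 x y z : ℤ) : ZMod (p γ i)) ≠ 0)
    (hgain : ∀ γ, ∑ μ : ∀ i, (ZMod (p γ i))ˣ, unitWeight (p γ) N μ *
          ∏ i, (detCount (S γ i) ((μ i : ZMod (p γ i)) * ((det3 x y z : ℤ) : ZMod (p γ i))) : ℝ)
        ≤ Real.exp (-δ) * (∑ μ : ∀ i, (ZMod (p γ i))ˣ, unitWeight (p γ) N μ) *
          ∏ i, (((p γ i : ℝ) ^ 2 - 1) / (p γ i : ℝ) ^ 3 * ((S γ i).card : ℝ) ^ 3)) :
    tripleSum p S acc N (x, y, z)
      ≤ ((s : ℝ) / Q * ∏ γ, groupDensity (p γ) (S γ)) ^ 3 * Real.exp (-(δ * r))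
          * spaceMass p Ω N := by
  have h1 : (#{ω : Ω | acc ω x = true ∧ acc ω y = true ∧ acc ω z = true} : ℝ)
      = (s : ℝ) ^ 3 * Fintype.card Ω / (Q : ℝ) ^ 3 := by
    rw [eq_div_iff (by positivity)]
    exact_mod_cast hk
  have h2 : ∏ γ, groupSum (p γ) N (S γ) {x, y, z}
      ≤ ∏ γ, (Real.exp (-δ) * groupMass (p γ) N * groupDensity (p γ) (S γ) ^ 3) :=
    prod_le_prod (fun γ _ => groupSum_nonneg _ _ _ _) fun γ _ =>
      groupSum_triple (p γ) N (S γ) x y z (hpz γ) (hgain γ)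
  rw [tripleSum_eq, h1]
  refine (mul_le_mul_of_nonneg_left h2 (by positivity)).trans (le_of_eq ?_)
  rw [prod_mul_distrib, prod_mul_distrib, prod_const, card_univ, Fintype.card_fin, prod_pow,
    ← Real.exp_nat_mul, spaceMass]
  ring_nf

lemma tripleSum_line_le (N : ℕ) (hS : ∀ γ i, (S γ i).Nonempty) (x u : Pt ℤ) (a b : ℤ)
    {Q s H : ℕ} (hQ : 0 < Q) (hmass : ∀ γ, 0 ≤ groupMass (p γ) N)
    (hlow : |a| ≤ (H : ℤ) → |b| ≤ (H : ℤ) →
      #{ω : Ω | acc ω x = true ∧ acc ω (x + a • u) = true ∧ acc ω (x + b • u) = true} * Q ^ 2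
        ≤ s * Fintype.card Ω)
    (hany : #{ω : Ω | acc ω x = true ∧ acc ω (x + a • u) = true ∧ acc ω (x + b • u) = true} * Q ^ 3
        ≤ (s * Q + 2 * s ^ 3) * Fintype.card Ω) :
    tripleSum p S acc N (x, x + a • u, x + b • u)
      ≤ (s : ℝ) / Q * (∏ γ, groupDensity (p γ) (S γ)) / Q * spaceMass p Ω N
        + (if |a| ≤ (H : ℤ) ∧ |b| ≤ (H : ℤ) then 0 else
          2 * ((s : ℝ) / Q * ∏ γ, groupDensity (p γ) (S γ)) ^ 3 * spaceMass p Ω N *
            ∏ x : Fin r × Fin g,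
              ((if ((p x.1 x.2 : ℕ) : ℤ) ∣ u.1 ∧ ((p x.1 x.2 : ℕ) : ℤ) ∣ u.2
                  then (p x.1 x.2 : ℝ) ^ 4 / ((S x.1 x.2).card : ℝ) ^ 2 else 0)
                + lineRatio (S x.1 x.2) (a : ZMod (p x.1 x.2)) (b : ZMod (p x.1 x.2)))) := by
  set c : ℝ :=
    (#{ω : Ω | acc ω x = true ∧ acc ω (x + a • u) = true ∧ acc ω (x + b • u) = true} : ℝ) with hc
  set G : ℝ := ∏ γ, groupSum (p γ) N (S γ) {x, x + a • u, x + b • u} with hG
  have hgnn : 0 ≤ G := prod_nonneg fun γ _ => groupSum_nonneg _ _ _ _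
  have hg1 : G ≤ (∏ γ, groupMass (p γ) N) * ∏ γ, groupDensity (p γ) (S γ) := by
    rw [← prod_mul_distrib]
    exact prod_le_prod (fun γ _ => groupSum_nonneg _ _ _ _) fun γ _ =>
      groupSum_le_single (p γ) N (S γ) (x := x) (by simp)
  have hM0 : 0 ≤ ∏ γ, groupMass (p γ) N := prod_nonneg fun γ _ => hmass γ
  have hD0 : 0 ≤ ∏ γ, groupDensity (p γ) (S γ) :=
    prod_nonneg fun γ _ => groupDensity_nonneg _ _
  rw [tripleSum_eq, ← hc, ← hG, spaceMass]
  by_cases hh : |a| ≤ (H : ℤ) ∧ |b| ≤ (H : ℤ)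
  · rw [if_pos hh, add_zero]
    have h1 : c ≤ (s : ℝ) * Fintype.card Ω / (Q : ℝ) ^ 2 := by
      rw [le_div_iff₀ (by positivity), hc]
      exact_mod_cast hlow hh.1 hh.2
    refine (mul_le_mul h1 hg1 hgnn (by positivity)).trans (le_of_eq ?_)
    ring
  · rw [if_neg hh, Fintype.prod_prod_type]
    have h1 : c ≤ (s : ℝ) * Fintype.card Ω / (Q : ℝ) ^ 2
        + 2 * (s : ℝ) ^ 3 * Fintype.card Ω / (Q : ℝ) ^ 3 := by
      have h0 : c * (Q : ℝ) ^ 3 ≤ ((s : ℝ) * Q + 2 * (s : ℝ) ^ 3) * Fintype.card Ω := by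
        rw [hc]
        exact_mod_cast hany
      rw [← le_div_iff₀ (by positivity)] at h0
      refine h0.trans (le_of_eq ?_)
      field_simp
    have hg3 : G ≤ (∏ γ, groupMass (p γ) N) * (∏ γ, groupDensity (p γ) (S γ)) ^ 3 * ∏ γ, ∏ i,
        ((if ((p γ i : ℕ) : ℤ) ∣ u.1 ∧ ((p γ i : ℕ) : ℤ) ∣ u.2
            then (p γ i : ℝ) ^ 4 / ((S γ i).card : ℝ) ^ 2 else 0)
          + lineRatio (S γ i) (a : ZMod (p γ i)) (b : ZMod (p γ i))) := by
      rw [← prod_pow, ← prod_mul_distrib, ← prod_mul_distrib]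
      exact prod_le_prod (fun γ _ => groupSum_nonneg _ _ _ _) fun γ _ =>
        groupSum_line (p γ) N (S γ) (hS γ) x u a b
    refine (mul_le_mul_of_nonneg_right h1 hgnn).trans ?_
    rw [add_mul]
    refine add_le_add ((mul_le_mul_of_nonneg_left hg1 (by positivity)).trans (le_of_eq ?_))
      ((mul_le_mul_of_nonneg_left hg3 (by positivity)).trans (le_of_eq ?_))
    · ring
    · ring

lemma prod_ratio_le {Cs Lam : ℝ} (hCs : 1 ≤ Cs)
    (hgood : ∀ γ i, (S γ i).Nonempty ∧ (p γ i : ℝ) ≤ Cs * (S γ i).card ∧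
      (p γ i : ℝ) * detCount (S γ i) 0
        ≤ Cs * (1 + Real.log (p γ i)) * ((S γ i).card : ℝ) ^ 3)
    (hLam : ∀ γ i, 1 + Real.log (p γ i) ≤ Lam) :
    ∏ x : Fin r × Fin g,
        (((p x.1 x.2 : ℝ) ^ 4 / ((S x.1 x.2).card : ℝ) ^ 2
          + ∑ a, ∑ b, lineRatio (S x.1 x.2) a b) / (p x.1 x.2 : ℝ) ^ 2)
      ≤ (5 * Cs ^ 2 * Lam) ^ (g * r) := by
  have hone : ∀ γ i, ((p γ i : ℝ) ^ 4 / ((S γ i).card : ℝ) ^ 2
      + ∑ a, ∑ b, lineRatio (S γ i) a b) / (p γ i : ℝ) ^ 2 ≤ 5 * Cs ^ 2 * Lam := by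
    intro γ i
    set σ : ℝ := ((S γ i).card : ℝ) with hσ
    obtain ⟨hne, hdense, hzero⟩ := hgood γ i
    have hp0 : (0 : ℝ) < p γ i := by exact_mod_cast (Fact.out : (p γ i).Prime).pos
    have hσ0 : 0 < σ := by rw [hσ]; exact_mod_cast hne.card_pos
    have hlog : 0 ≤ Real.log (p γ i) :=
      Real.log_nonneg (by exact_mod_cast (Fact.out : (p γ i).Prime).one_lt.le)
    have hlam := hLam γ i
    have hsum : ∑ a, ∑ b, (lineCount (S γ i) a b : ℝ)
        ≤ (p γ i : ℝ) * detCount (S γ i) 0 + (p γ i : ℝ) ^ 2 * σ := by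
      rw [hσ]
      exact_mod_cast sum_lineCount_le (S γ i)
    have hr : (p γ i : ℝ) ^ 2 / σ ^ 2 ≤ Cs ^ 2 := by
      rw [div_le_iff₀ (by positivity), ← mul_pow]
      exact pow_le_pow_left₀ hp0.le hdense 2
    have hd0 : (p γ i : ℝ) * detCount (S γ i) 0 / σ ^ 3 ≤ Cs * Lam := by
      rw [div_le_iff₀ (by positivity)]
      exact hzero.trans (mul_le_mul_of_nonneg_right
        (mul_le_mul_of_nonneg_left hlam (by linarith)) (by positivity))
    simp only [lineRatio, ← mul_sum, ← sum_div, ← hσ]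
    calc ((p γ i : ℝ) ^ 4 / σ ^ 2
          + 2 * (p γ i : ℝ) ^ 2 * (∑ a, ∑ b, (lineCount (S γ i) a b : ℝ)) / σ ^ 3)
            / (p γ i : ℝ) ^ 2
        ≤ ((p γ i : ℝ) ^ 4 / σ ^ 2 + 2 * (p γ i : ℝ) ^ 2 *
            ((p γ i : ℝ) * detCount (S γ i) 0 + (p γ i : ℝ) ^ 2 * σ) / σ ^ 3)
            / (p γ i : ℝ) ^ 2 := by gcongr
      _ = 3 * ((p γ i : ℝ) ^ 2 / σ ^ 2)
            + 2 * ((p γ i : ℝ) * detCount (S γ i) 0 / σ ^ 3) := by
          field_simp
          ring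
      _ ≤ 3 * Cs ^ 2 + 2 * (Cs * Lam) := by linarith
      _ ≤ 5 * Cs ^ 2 * Lam := by
          have hl : 1 ≤ Lam := by linarith
          have e1 := mul_le_mul_of_nonneg_left hl (sq_nonneg Cs)
          have e2 := mul_le_mul_of_nonneg_right (show Cs ≤ Cs ^ 2 by nlinarith)
            (show 0 ≤ Lam by linarith)
          linarith
  refine (prod_le_prod (fun x _ => ?_) fun x _ => hone x.1 x.2).trans (le_of_eq ?_)
  · exact div_nonneg (add_nonneg (by positivity)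
      (sum_nonneg fun a _ => sum_nonneg fun b _ => lineRatio_nonneg _ a b)) (by positivity)
  · rw [prod_const, card_univ, Fintype.card_prod, Fintype.card_fin, Fintype.card_fin, mul_comm r]

lemma inv_le_prod_density {C : ℝ} (hC : 0 < C)
    (hdense : ∀ γ i, (p γ i : ℝ) ≤ C * (S γ i).card) :
    1 / (C ^ (g * r) * ∏ γ, ∏ i, (p γ i : ℝ)) ≤ ∏ γ, groupDensity (p γ) (S γ) := by
  have h1 : ∀ γ i, 1 / (C * (p γ i : ℝ)) ≤ ((S γ i).card : ℝ) / (p γ i : ℝ) ^ 2 := by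
    intro γ i
    have hp0 : (0 : ℝ) < p γ i := by exact_mod_cast (Fact.out : (p γ i).Prime).pos
    rw [div_le_div_iff₀ (mul_pos hC hp0) (by positivity), one_mul, sq]
    calc (p γ i : ℝ) * p γ i ≤ (C * (S γ i).card) * p γ i :=
          mul_le_mul_of_nonneg_right (hdense γ i) hp0.le
      _ = _ := by ring
  have h2 : 1 / (C ^ (g * r) * ∏ γ, ∏ i, (p γ i : ℝ))
      = ∏ γ : Fin r, ∏ i : Fin g, 1 / (C * (p γ i : ℝ)) := by
    simp only [one_div, prod_inv_distrib, prod_mul_distrib, prod_const, card_univ,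
      Fintype.card_fin, ← pow_mul]
  rw [h2]
  exact prod_le_prod (fun γ _ => prod_nonneg fun i _ => by positivity)
    fun γ _ => prod_le_prod (fun i _ => by positivity) fun i _ => h1 γ i

omit [∀ γ i, Fact (p γ i).Prime] in
/-- The final arithmetic: `n W` plus both bad sums is at most `α M² W`. -/
lemma average_arith {n M K L Q α W C Cl Cc E Z : ℝ} (hn : 1 ≤ n) (hM : 1 ≤ M) (hK : 0 ≤ K)
    (hL : 0 ≤ L) (hQ : 0 < Q) (hα : 0 ≤ α) (hW : 0 ≤ W) (hE : 0 ≤ E) (hZ : 0 ≤ Z)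
    (hCl : 0 < Cl) (hCc : 0 < Cc) (hC : 250 * Cl + 1000 * Cc ≤ C)
    (hlo : 4 * n ≤ α * M ^ 2) (hhi : α * M ^ 2 ≤ 5 * n)
    (hQM : C * (L + 1) * M ^ 2 ≤ Q) (hnon : C * n ^ 2 * K * E ≤ M ^ 2)
    (hcoll : C * n ^ 2 * (L + 1) * Z ≤ M ^ 2) :
    n * W + (Cl * M ^ 4 * K * (α ^ 3 * E * W)
        + Cc * (L + 1) * M ^ 4 * (α / Q * W + 2 * α ^ 3 * W * Z))
      ≤ M ^ 2 * (α * W) := by
  have hC0 : 0 < C := by linarith
  have hM2 : 0 < M ^ 2 := by positivity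
  have ha3 : (α * M ^ 2) ^ 3 ≤ 125 * n ^ 3 := by
    refine (pow_le_pow_left₀ (by positivity) hhi 3).trans (le_of_eq ?_)
    ring
  have h1 : Cl * M ^ 4 * K * (α ^ 3 * E) ≤ n / 2 := by
    calc Cl * M ^ 4 * K * (α ^ 3 * E) = Cl * K * E * (α * M ^ 2) ^ 3 / M ^ 2 := by field_simp
      _ ≤ Cl * K * E * (125 * n ^ 3) / M ^ 2 := by gcongr
      _ = 125 * Cl * n * (n ^ 2 * K * E / M ^ 2) := by ring
      _ ≤ 125 * Cl * n * (1 / C) := by
          refine mul_le_mul_of_nonneg_left ?_ (by positivity)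
          rw [div_le_div_iff₀ hM2 hC0]
          linarith
      _ ≤ n / 2 := by
          rw [mul_one_div, div_le_div_iff₀ hC0 (by norm_num)]
          nlinarith
  have h2 : Cc * (L + 1) * M ^ 4 * (α / Q + 2 * α ^ 3 * Z) ≤ n / 2 := by
    calc Cc * (L + 1) * M ^ 4 * (α / Q + 2 * α ^ 3 * Z)
        = Cc * (α * M ^ 2) * ((L + 1) * M ^ 2 / Q)
            + 2 * Cc * (α * M ^ 2) ^ 3 * ((L + 1) * Z / M ^ 2) := by
          field_simp
      _ ≤ Cc * (5 * n) * (1 / C) + 2 * Cc * (125 * n ^ 3) * (1 / (C * n ^ 2)) := by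
          refine add_le_add ?_ ?_
          · refine mul_le_mul (mul_le_mul_of_nonneg_left hhi hCc.le) ?_ (by positivity)
              (by positivity)
            rw [div_le_div_iff₀ hQ hC0]
            linarith
          · refine mul_le_mul (mul_le_mul_of_nonneg_left ha3 (by positivity)) ?_ (by positivity)
              (by positivity)
            rw [div_le_div_iff₀ hM2 (by positivity)]
            linarith
      _ = 255 * Cc * n / C := by
          field_simp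
          ring
      _ ≤ n / 2 := by
          rw [div_le_div_iff₀ hC0 (by norm_num)]
          nlinarith
  have h3 := mul_le_mul_of_nonneg_right h1 hW
  have h4 := mul_le_mul_of_nonneg_right h2 hW
  have h5 := mul_le_mul_of_nonneg_right hlo hW
  have h6 : 0 ≤ n * W := mul_nonneg (by linarith) hW
  linarith

end Vale.P036.Cascade
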